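import Crest.Agent.N222.C.Defs

/-!
# Row 222, part C: algebra of tuple cochains

`alt_comp_cohom`: chains `(Fin k → Y) →₀ ℝ`; `Ψ y = (1/(k+1)!) ∑ sign ρ · (φ ∘ y ∘ ρ)` is an equivariant
augmentation preserving chain map, and `h_{k+1} y = cone_{y 0} (Ψ y - y - h_k ∂ y)` is an equivariant
chain homotopy.
-/

set_option autoImplicit false

open Set Filter Topology

noncomputable section

namespace Crest.Agent.N222.C

variable {Γ Y Y' : Type} [Group Γ] [MulAction Γ Y] [MulAction Γ Y'] {χ : Γ →* ℤˣ} {k : ℕ}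

theorem sg_mul_self (χ : Γ →* ℤˣ) (g : Γ) : sg χ g * sg χ g = 1 := by
  unfold sg
  rcases Int.units_eq_one_or (χ g) with h | h <;> simp [h]

theorem sg_eq (χ : Γ →* ℤˣ) (g : Γ) : sg χ g = 1 ∨ sg χ g = -1 := by
  unfold sg
  rcases Int.units_eq_one_or (χ g) with h | h <;> simp [h]

theorem abs_sg (χ : Γ →* ℤˣ) (g : Γ) : |sg χ g| = 1 := by
  rcases sg_eq χ g with h | h <;> simp [h]

/-- the cone formula -/
theorem cob_cons (f : (Fin (k + 1) → Y) → ℝ) (y₀ : Y) (z : Fin (k + 1) → Y) :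
    cob f (Fin.cons y₀ z) = f z - cob (fun w => f (Fin.cons y₀ w)) z := by
  unfold cob
  rw [Fin.sum_univ_succ, sub_eq_add_neg, ← Finset.sum_neg_distrib]
  congr 1
  · simp
  · refine Finset.sum_congr rfl fun i _ => ?_
    have : (fun j => (Fin.cons y₀ z : Fin (k + 2) → Y) (i.succ.succAbove j)) =
        Fin.cons y₀ (fun j => z (i.succAbove j)) := by
      funext j
      refine Fin.cases ?_ (fun j => ?_) j
      · simp
      · simp [Fin.succ_succAbove_succ]
    rw [this]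
    simp [pow_succ]

theorem cob_sub (f f' : (Fin k → Y) → ℝ) (y : Fin (k + 1) → Y) :
    cob (fun z => f z - f' z) y = cob f y - cob f' y := by
  simp only [cob, mul_sub, Finset.sum_sub_distrib]

theorem cob_cob (f : (Fin k → Y) → ℝ) : cob (cob f) = 0 := by
  induction k with
  | zero =>
    funext y
    have e : ∀ u v : Fin 0 → Y, u = v := fun u v => Subsingleton.elim u v
    simp only [cob, Fin.sum_univ_succ, Finset.univ_eq_empty, Finset.sum_empty, Pi.zero_apply]
    rw [e (fun j => y (Fin.succAbove 0 (Fin.succAbove 0 j))) Fin.elim0,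
      e (fun j => y (Fin.succAbove (Fin.succ 0) (Fin.succAbove 0 j))) Fin.elim0]
    simp
  | succ k ih =>
    funext y
    rw [← Fin.cons_self_tail y, cob_cons]
    have : (fun z => cob f (Fin.cons (y 0) z)) =
        fun z => f z - cob (fun w => f (Fin.cons (y 0) w)) z := by
      funext z; exact cob_cons f (y 0) z
    rw [this, cob_sub, ih]
    simp

theorem cob_add (f f' : (Fin k → Y) → ℝ) (y : Fin (k + 1) → Y) :
    cob (fun z => f z + f' z) y = cob f y + cob f' y := by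
  simp only [cob, mul_add, Finset.sum_add_distrib]

theorem cob_mul (c : ℝ) (f : (Fin k → Y) → ℝ) (y : Fin (k + 1) → Y) :
    cob (fun z => c * f z) y = c * cob f y := by
  simp only [cob, Finset.mul_sum]
  exact Finset.sum_congr rfl fun i _ => by ring

theorem cob_comp (f : (Fin k → Y') → ℝ) (φ : Y → Y') (y : Fin (k + 1) → Y) :
    cob (fun z => f (fun i => φ (z i))) y = cob f (fun i => φ (y i)) := rfl

theorem Tw.add {f f' : (Fin k → Y) → ℝ} (h : Tw χ f) (h' : Tw χ f') : Tw χ (fun z => f z + f' z) := by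
  intro g y
  simp only [h g y, h' g y, mul_add]

theorem Tw.const_mul {f : (Fin k → Y) → ℝ} (h : Tw χ f) (c : ℝ) : Tw χ (fun z => c * f z) := by
  intro g y
  simp only [h g y]
  ring

theorem Tw.cob {f : (Fin k → Y) → ℝ} (h : Tw χ f) : Tw χ (cob f) := by
  intro g y
  simp only [C.cob, Finset.mul_sum]
  refine Finset.sum_congr rfl fun i _ => ?_
  rw [h g (fun j => y (i.succAbove j))]
  ring

theorem Tw.alt {f : (Fin k → Y) → ℝ} (h : Tw χ f) : Tw χ (alt f) := by
  intro g y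
  simp only [C.alt, Finset.mul_sum]
  refine Finset.sum_congr rfl fun ρ _ => ?_
  rw [h g (fun j => y (ρ j))]
  ring

theorem Tw.comp {f : (Fin k → Y') → ℝ} (h : Tw χ f) {φ : Y → Y'}
    (hφ : ∀ (g : Γ) y, φ (g • y) = g • φ y) : Tw χ (fun z : Fin k → Y => f (fun i => φ (z i))) := by
  intro g y
  simp only [hφ]
  exact h g (fun i => φ (y i))

/-- `alt f` vanishes on tuples with a repetition -/
theorem alt_eq_zero (f : (Fin k → Y) → ℝ) {y : Fin k → Y} (h : ¬ Function.Injective y) :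
    alt f y = 0 := by
  classical
  obtain ⟨i, j, hij, hne⟩ : ∃ i j, y i = y j ∧ i ≠ j := by
    by_contra hc
    push Not at hc
    exact h fun i j e => hc i j e
  have key : alt f y = - alt f y := by
    conv_lhs => unfold alt
    rw [← Equiv.sum_comp (Equiv.mulLeft (Equiv.swap i j))]
    unfold alt
    rw [← Finset.sum_neg_distrib]
    refine Finset.sum_congr rfl fun ρ _ => ?_
    have e : (fun l => y ((Equiv.mulLeft (Equiv.swap i j) ρ) l)) = fun l => y (ρ l) := by
      funext l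
      simp only [Equiv.coe_mulLeft, Equiv.Perm.mul_apply]
      exact Equiv.apply_swap_eq_self hij _
    rw [e]
    simp [Equiv.Perm.sign_swap hne]
  linarith

theorem alt_cob (f : (Fin k → Y) → ℝ) (y : Fin (k + 1) → Y) :
    alt (cob f) y = ((k : ℝ) + 1) * ∑ ρ : Equiv.Perm (Fin (k + 1)),
      ((Equiv.Perm.sign ρ : ℤ) : ℝ) * f (fun i => y (ρ i.succ)) := by
  unfold alt cob
  simp only [Finset.mul_sum]
  rw [Finset.sum_comm]
  have : ∀ i : Fin (k + 1), ∑ ρ : Equiv.Perm (Fin (k + 1)), ((Equiv.Perm.sign ρ : ℤ) : ℝ) *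
      ((-1 : ℝ) ^ (i : ℕ) * f (fun j => y (ρ (i.succAbove j)))) =
      ∑ ρ : Equiv.Perm (Fin (k + 1)), ((Equiv.Perm.sign ρ : ℤ) : ℝ) * f (fun i => y (ρ i.succ)) := by
    intro i
    rw [← Equiv.sum_comp (Equiv.mulRight i.cycleRange)]
    refine Finset.sum_congr rfl fun ρ _ => ?_
    have e : (fun j => y ((Equiv.mulRight i.cycleRange ρ) (i.succAbove j))) =
        fun j => y (ρ j.succ) := by
      funext j
      simp only [Equiv.coe_mulRight, Equiv.Perm.mul_apply]
      rw [← Fin.cycleRange_symm_succ, Equiv.apply_symm_apply]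
    rw [e]
    simp only [Equiv.coe_mulRight, map_mul, Fin.sign_cycleRange]
    push_cast
    have : ((-1 : ℝ) ^ (i : ℕ)) * ((-1 : ℝ) ^ (i : ℕ)) = 1 := by
      rw [← mul_pow]; simp
    linear_combination (((Equiv.Perm.sign ρ : ℤ) : ℝ) * f (fun j => y (ρ j.succ))) * this
  rw [Finset.sum_congr rfl fun i _ => this i]
  simp [Finset.mul_sum]

/-- the permutation with `0 ↦ i` and `j + 1 ↦ i.succAbove (σ j)` -/
def ext1 (p : Fin (k + 1) × Equiv.Perm (Fin k)) : Equiv.Perm (Fin (k + 1)) :=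
  p.1.cycleRange.symm * Equiv.Perm.decomposeFin.symm (0, p.2)

theorem ext1_zero (p : Fin (k + 1) × Equiv.Perm (Fin k)) : ext1 p 0 = p.1 := by
  simp [ext1, Equiv.Perm.mul_apply]

theorem ext1_succ (p : Fin (k + 1) × Equiv.Perm (Fin k)) (j : Fin k) :
    ext1 p j.succ = p.1.succAbove (p.2 j) := by
  simp [ext1, Equiv.Perm.mul_apply]

theorem ext1_sign (p : Fin (k + 1) × Equiv.Perm (Fin k)) :
    Equiv.Perm.sign (ext1 p) = (-1) ^ (p.1 : ℕ) * Equiv.Perm.sign p.2 := by
  simp [ext1]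

theorem ext1_bij : Function.Bijective (ext1 (k := k)) := by
  rw [Fintype.bijective_iff_injective_and_card]
  refine ⟨fun p q h => ?_, by simp [Fintype.card_perm, Nat.factorial_succ]⟩
  have h1 : p.1 = q.1 := by rw [← ext1_zero p, h, ext1_zero]
  refine Prod.ext h1 (Equiv.ext fun j => ?_)
  have := ext1_succ p j
  rw [h, ext1_succ, h1] at this
  exact (Fin.succAbove_right_injective this).symm

theorem cob_alt (f : (Fin k → Y) → ℝ) (y : Fin (k + 1) → Y) :
    cob (alt f) y = ∑ ρ : Equiv.Perm (Fin (k + 1)),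
      ((Equiv.Perm.sign ρ : ℤ) : ℝ) * f (fun i => y (ρ i.succ)) := by
  rw [← ext1_bij.sum_comp, Fintype.sum_prod_type]
  unfold cob alt
  refine Finset.sum_congr rfl fun i _ => ?_
  rw [Finset.mul_sum]
  refine Finset.sum_congr rfl fun σ _ => ?_
  simp only [ext1_succ, ext1_sign]
  push_cast
  ring

theorem alt_cob' (f : (Fin k → Y) → ℝ) (y : Fin (k + 1) → Y) :
    alt (cob f) y = ((k : ℝ) + 1) * cob (alt f) y := by
  rw [alt_cob, cob_alt]

/-- the antisymmetrised cocycle identity -/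
theorem sum_perm_succ {a : (Fin k → Y) → ℝ} (ha : cob a = 0) (y : Fin (k + 1) → Y) :
    ∑ ρ : Equiv.Perm (Fin (k + 1)), ((Equiv.Perm.sign ρ : ℤ) : ℝ) * a (fun i => y (ρ i.succ)) = 0 := by
  have h := alt_cob a y
  rw [ha] at h
  have h0 : alt (0 : (Fin (k + 1) → Y) → ℝ) y = 0 := by simp [alt]
  rw [h0] at h
  have hk : ((k : ℝ) + 1) ≠ 0 := by positivity
  exact (mul_eq_zero.1 h.symm).resolve_left hk

/-- `Ψ - 1` on cochains -/
def hD (φ : Y → Y) (f : (Fin k → Y) → ℝ) : (Fin k → Y) → ℝ :=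
  fun y => (k.factorial : ℝ)⁻¹ * alt f (fun i => φ (y i)) - f y

/-- the homotopy, on cochains -/
def hH (φ : Y → Y) : ∀ k : ℕ, ((Fin (k + 1) → Y) → ℝ) → (Fin k → Y) → ℝ
  | 0, _, _ => 0
  | k + 1, a, y => hD φ (fun z => a (Fin.cons (y 0) z)) y -
      cob (hH φ k (fun z => a (Fin.cons (y 0) z))) y

theorem hD_lin (φ : Y → Y) (c : ℝ) (f f' : (Fin k → Y) → ℝ) (y : Fin k → Y) :
    hD φ (fun z => c * f z + f' z) y = c * hD φ f y + hD φ f' y := by
  simp only [hD, alt, mul_add, Finset.sum_add_distrib]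
  have : ∑ ρ : Equiv.Perm (Fin k), ((Equiv.Perm.sign ρ : ℤ) : ℝ) * (c * f (fun i => φ (y (ρ i)))) =
      c * ∑ ρ : Equiv.Perm (Fin k), ((Equiv.Perm.sign ρ : ℤ) : ℝ) * f (fun i => φ (y (ρ i))) := by
    rw [Finset.mul_sum]; exact Finset.sum_congr rfl fun ρ _ => by ring
  rw [this]
  ring

theorem hH_lin (φ : Y → Y) : ∀ (k : ℕ) (c : ℝ) (f f' : (Fin (k + 1) → Y) → ℝ) (y : Fin k → Y),
    hH φ k (fun z => c * f z + f' z) y = c * hH φ k f y + hH φ k f' y
  | 0, _, _, _, _ => by simp [hH]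
  | k + 1, c, f, f', y => by
    simp only [hH]
    rw [hD_lin φ c (fun z => f (Fin.cons (y 0) z)) (fun z => f' (Fin.cons (y 0) z)) y]
    have : hH φ k (fun z => c * f (Fin.cons (y 0) z) + f' (Fin.cons (y 0) z)) =
        fun w => c * hH φ k (fun z => f (Fin.cons (y 0) z)) w +
          hH φ k (fun z => f' (Fin.cons (y 0) z)) w :=
      funext fun w => hH_lin φ k c _ _ w
    rw [this, cob_add, cob_mul]
    ring

theorem hH_zero (φ : Y → Y) (k : ℕ) (y : Fin k → Y) : hH φ k (fun _ => 0) y = 0 := by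
  have := hH_lin φ k 1 (fun _ => 0) (fun _ => 0) y
  simp only [mul_zero, add_zero, one_mul] at this
  linarith

theorem hH_nat (φ ψ : Y → Y) (h : ∀ y, φ (ψ y) = ψ (φ y)) :
    ∀ (k : ℕ) (a : (Fin (k + 1) → Y) → ℝ) (y : Fin k → Y),
      hH φ k (fun z => a (fun i => ψ (z i))) y = hH φ k a (fun i => ψ (y i))
  | 0, _, _ => rfl
  | k + 1, a, y => by
    simp only [hH]
    have e : (fun z : Fin (k + 1) → Y => a (fun i => ψ ((Fin.cons (y 0) z : Fin (k + 2) → Y) i))) =
        fun z => (fun w : Fin (k + 1) → Y => a (Fin.cons (ψ (y 0)) w)) (fun i => ψ (z i)) := by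
      funext z
      congr 1
      funext i
      refine Fin.cases ?_ (fun i => ?_) i <;> simp
    rw [e]
    congr 1
    · simp only [hD, alt, h]
    · have : hH φ k (fun z => (fun w : Fin (k + 1) → Y => a (Fin.cons (ψ (y 0)) w))
          (fun i => ψ (z i))) =
          fun z => hH φ k (fun w : Fin (k + 1) → Y => a (Fin.cons (ψ (y 0)) w)) (fun i => ψ (z i)) :=
        funext fun z => hH_nat φ ψ h k (fun w : Fin (k + 1) → Y => a (Fin.cons (ψ (y 0)) w)) z
      rw [this]
      rfl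

theorem hD_cob (φ : Y → Y) (g : (Fin k → Y) → ℝ) (y : Fin (k + 1) → Y) :
    hD φ (cob g) y = cob (hD φ g) y := by
  have : hD φ g = fun z => (k.factorial : ℝ)⁻¹ * alt g (fun i => φ (z i)) - g z := rfl
  rw [this, cob_sub, cob_mul, hD, alt_cob']
  have e : cob (fun z : Fin k → Y => alt g (fun i => φ (z i))) y =
      cob (alt g) (fun i => φ (y i)) := rfl
  rw [e, Nat.factorial_succ]
  have hk : (k.factorial : ℝ) ≠ 0 := by positivity
  have hk' : ((k : ℝ) + 1) ≠ 0 := by positivity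
  push_cast
  field_simp

theorem hH_cob (φ : Y → Y) (k : ℕ) :
    (∀ (g : (Fin k → Y) → ℝ) y, cob (hH φ k (cob g)) y = cob (hD φ g) y) ∧
    ∀ (f : (Fin (k + 1) → Y) → ℝ) y, hH φ (k + 1) (cob f) y = hD φ f y - cob (hH φ k f) y := by
  have step : ∀ k : ℕ, (∀ (g : (Fin k → Y) → ℝ) y, cob (hH φ k (cob g)) y = cob (hD φ g) y) →
      ∀ (f : (Fin (k + 1) → Y) → ℝ) y,
        hH φ (k + 1) (cob f) y = hD φ f y - cob (hH φ k f) y := by
    intro k hP f y
    simp only [hH]
    have e : (fun z => cob f (Fin.cons (y 0) z)) =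
        fun z => (-1) * cob (fun w => f (Fin.cons (y 0) w)) z + f z := by
      funext z; rw [cob_cons]; ring
    rw [e, hD_lin]
    have : hH φ k (fun z => (-1) * cob (fun w => f (Fin.cons (y 0) w)) z + f z) =
        fun w => (-1) * hH φ k (cob (fun w => f (Fin.cons (y 0) w))) w + hH φ k f w :=
      funext fun w => hH_lin φ k (-1) _ _ w
    rw [this, cob_add, cob_mul, hP, hD_cob]
    ring
  induction k with
  | zero =>
    have h0 : ∀ (g : (Fin 0 → Y) → ℝ) y, cob (hH φ 0 (cob g)) y = cob (hD φ g) y := by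
      intro g y
      congr 1
      funext z
      have e : ∀ u v : Fin 0 → Y, u = v := fun u v => Subsingleton.elim u v
      simp only [hH, hD, alt, Finset.univ_unique, Finset.sum_singleton]
      rw [e (fun i => φ (z ((default : Equiv.Perm (Fin 0)) i))) z]
      simp
    exact ⟨h0, step 0 h0⟩
  | succ k ih =>
    have h1 : ∀ (g : (Fin (k + 1) → Y) → ℝ) y,
        cob (hH φ (k + 1) (cob g)) y = cob (hD φ g) y := by
      intro g y
      have : hH φ (k + 1) (cob g) = fun z => hD φ g z - cob (hH φ k g) z := funext (ih.2 g)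
      rw [this, cob_sub, cob_cob]
      simp
    exact ⟨h1, step _ h1⟩

/-- `alt a ∘ φ` is cohomologous to `(k+1)! a` -/
theorem alt_comp_cohom {a : (Fin (k + 1) → Y) → ℝ} (ht : Tw χ a) (ha : cob a = 0) {φ : Y → Y}
    (hφ : ∀ (g : Γ) y, φ (g • y) = g • φ y) :
    ∃ γ : (Fin k → Y) → ℝ, Tw χ γ ∧
      ∀ y, alt a (fun i => φ (y i)) - ((k + 1).factorial : ℝ) * a y = cob γ y := by
  refine ⟨fun z => ((k + 1).factorial : ℝ) * hH φ k a z, Tw.const_mul (fun g y => ?_) _,
    fun y => ?_⟩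
  · rw [← hH_nat φ (fun y => g • y) (fun y => hφ g y) k a y]
    have : (fun z : Fin (k + 1) → Y => a (fun i => g • z i)) = fun z => sg χ g * a z + 0 := by
      funext z; rw [ht g z, add_zero]
    rw [this, hH_lin φ k (sg χ g) a (fun _ => 0) y, hH_zero, add_zero]
  · have h := (hH_cob φ k).2 a y
    rw [ha] at h
    have h0 := hH_zero φ (k + 1) y
    have h1 : hH φ (k + 1) (0 : (Fin (k + 2) → Y) → ℝ) y = 0 := h0
    rw [h1] at h
    rw [cob_mul]
    have h2 : cob (hH φ k a) y = hD φ a y := by linarith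
    rw [h2, hD]
    have hk : ((k + 1).factorial : ℝ) ≠ 0 := by positivity
    field_simp

section LE

variable [TopologicalSpace Y]

theorem LE.add {a a' : (Fin (k + 1) → Y) → ℝ} (h : LE χ a) (h' : LE χ a') :
    LE χ (fun z => a z + a' z) := by
  obtain ⟨γ, hγ, h⟩ := h
  obtain ⟨γ', hγ', h'⟩ := h'
  refine ⟨fun z => γ z + γ' z, hγ.add hγ', fun x₀ => ?_⟩
  obtain ⟨W, hW, e⟩ := h x₀
  obtain ⟨W', hW', e'⟩ := h' x₀
  refine ⟨W ∩ W', inter_mem hW hW', fun x hx => ?_⟩
  rw [cob_add, ← e x fun i => (hx i).1, ← e' x fun i => (hx i).2]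

theorem LE.const_mul {a : (Fin (k + 1) → Y) → ℝ} (h : LE χ a) (c : ℝ) : LE χ (fun z => c * a z) := by
  obtain ⟨γ, hγ, h⟩ := h
  refine ⟨fun z => c * γ z, hγ.const_mul c, fun x₀ => ?_⟩
  obtain ⟨W, hW, e⟩ := h x₀
  refine ⟨W, hW, fun x hx => ?_⟩
  rw [cob_mul, ← e x hx]

theorem LE.of_cob {a : (Fin (k + 1) → Y) → ℝ} {γ : (Fin k → Y) → ℝ} (h : Tw χ γ)
    (e : ∀ y, a y = cob γ y) : LE χ a := by
  exact ⟨γ, h, fun _ => ⟨univ, univ_mem, fun x _ => e x⟩⟩

theorem LE.congr {a a' : (Fin (k + 1) → Y) → ℝ} (h : LE χ a)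
    (e : ∀ x₀ : Y, ∃ W ∈ 𝓝 x₀, ∀ x : Fin (k + 1) → Y, (∀ i, x i ∈ W) → a' x = a x) : LE χ a' := by
  obtain ⟨γ, hγ, h⟩ := h
  refine ⟨γ, hγ, fun x₀ => ?_⟩
  obtain ⟨W, hW, e₁⟩ := h x₀
  obtain ⟨W', hW', e'⟩ := e x₀
  refine ⟨W ∩ W', inter_mem hW hW', fun x hx => ?_⟩
  rw [e' x fun i => (hx i).2, e₁ x fun i => (hx i).1]

/-- From a real class to a class which is integral on the relevant tuples `R` of labels
(`R` is finite modulo `Γ`): transport to the labels by `pos`, apply `ℚ`-linear projections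
`ℝ → ℚ` dual to a basis of the span of the finitely many values, clear denominators. -/
theorem exists_int_class {a : (Fin (k + 1) → Y) → ℝ} (ht : Tw χ a) (ha : cob a = 0) (hn : ¬ LE χ a)
    {pos : Y' → Y} (hpos : ∀ (g : Γ) y, pos (g • y) = g • pos y)
    {yl : Y → Y'} (hyl : ∀ (g : Γ) y, yl (g • y) = g • yl y)
    (R : Set (Fin (k + 1) → Y'))
    (hR : ∃ R₀ : Finset (Fin (k + 1) → Y'), ∀ σ ∈ R, ∃ g : Γ, (fun i => g • σ i) ∈ R₀)
    (hperm : ∀ σ ∈ R, ∀ ρ : Equiv.Perm (Fin (k + 1)), (fun i => σ (ρ i)) ∈ R)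
    (hnear : ∀ x₀ : Y, ∃ W ∈ 𝓝 x₀, ∀ x : Fin (k + 1) → Y, (∀ i, x i ∈ W) → (fun i => yl (x i)) ∈ R) :
    ∃ α : (Fin (k + 1) → Y') → ℝ, Tw χ α ∧ cob α = 0 ∧ (∀ σ ∈ R, ∃ z : ℤ, α σ = z) ∧
      ¬ LE χ (fun x : Fin (k + 1) → Y => alt α (fun i => yl (x i))) := by
  classical
  obtain ⟨R₀, hR⟩ := hR
  let b := Module.Basis.ofVectorSpace ℚ ℝ
  set a' : (Fin (k + 1) → Y') → ℝ := fun σ => a (fun i => pos (σ i)) with ha'
  have ht' : Tw χ a' := ht.comp hpos
  have hc' : ∀ y, cob a' y = 0 := fun y => by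
    have := congrFun ha (fun i => pos (y i))
    exact this
  let J := R₀.biUnion fun σ => (b.repr (a' σ)).support
  let N : ℕ := ∏ σ ∈ R₀, ∏ j ∈ J, (b.repr (a' σ) j).den
  have hN : (N : ℝ) ≠ 0 := by
    have : N ≠ 0 := Finset.prod_ne_zero_iff.2 fun σ _ =>
      Finset.prod_ne_zero_iff.2 fun j _ => (b.repr (a' σ) j).den_nz
    exact_mod_cast this
  let co : _ → (Fin (k + 1) → Y') → ℝ := fun j σ => ((b.repr (a' σ) j : ℚ) : ℝ)
  have hsg : ∀ (g : Γ) (r : ℝ) j, ((b.repr (sg χ g * r) j : ℚ) : ℝ) =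
      sg χ g * ((b.repr r j : ℚ) : ℝ) := by
    intro g r j
    rcases sg_eq χ g with h | h <;> simp [h]
  have co_tw : ∀ j, Tw χ (co j) := fun j g σ => by
    simp only [co]
    rw [ht' g σ, hsg]
  have co_cob : ∀ j y, cob (co j) y = 0 := by
    intro j y
    have h := congrArg (fun r : ℝ => ((b.repr r j : ℚ) : ℝ)) (hc' y)
    simp only [cob, map_sum, map_zero, Finsupp.coe_zero, Pi.zero_apply, Rat.cast_zero,
      Finsupp.coe_finsetSum, Finset.sum_apply, Rat.cast_sum] at h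
    rw [← h]
    refine Finset.sum_congr rfl fun i _ => ?_
    simp only [co]
    rcases neg_one_pow_eq_or ℝ (i : ℕ) with e | e <;> simp [e]
  have hexp : ∀ σ ∈ R, a' σ = ∑ j ∈ J, b j * co j σ := by
    intro σ hσ
    obtain ⟨g, hg⟩ := hR σ hσ
    have h1 : a' (fun i => g • σ i) = ∑ j ∈ J, b j * co j (fun i => g • σ i) := by
      have h2 := b.linearCombination_repr (a' (fun i => g • σ i))
      rw [Finsupp.linearCombination_apply, Finsupp.sum_of_support_subset _
        (s := J) (Finset.subset_biUnion_of_mem (fun σ => (b.repr (a' σ)).support) hg) _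
        (by simp)] at h2
      rw [← h2]
      refine Finset.sum_congr rfl fun j _ => ?_
      simp only [co, Rat.smul_def]
      ring
    rw [ht' g σ] at h1
    simp only [co_tw _ g σ] at h1
    have h3 : ∑ j ∈ J, b j * (sg χ g * co j σ) = sg χ g * ∑ j ∈ J, b j * co j σ := by
      rw [Finset.mul_sum]; exact Finset.sum_congr rfl fun j _ => by ring
    rw [h3] at h1
    have h4 : sg χ g ≠ 0 := by rcases sg_eq χ g with h | h <;> simp [h]
    exact mul_left_cancel₀ h4 h1
  have hint : ∀ j ∈ J, ∀ σ ∈ R, ∃ z : ℤ, (N : ℝ) * co j σ = z := by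
    intro j hj σ hσ
    obtain ⟨g, hg⟩ := hR σ hσ
    have hd : (b.repr (a' (fun i => g • σ i)) j).den ∣ N :=
      (Finset.dvd_prod_of_mem (fun j => (b.repr (a' (fun i => g • σ i)) j).den) hj).trans
        (Finset.dvd_prod_of_mem (fun σ => ∏ j ∈ J, (b.repr (a' σ) j).den) hg)
    obtain ⟨m, hm⟩ := hd
    have h1 : (N : ℝ) * co j (fun i => g • σ i) =
        ((m * (b.repr (a' (fun i => g • σ i)) j).num : ℤ) : ℝ) := by
      simp only [co]
      set q := b.repr (a' (fun i => g • σ i)) j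
      have h2 : ((q.den : ℚ) * q) = q.num := by
        rw [mul_comm]; exact Rat.mul_den_eq_num q
      have h3 : ((q.den : ℝ) * (q : ℝ)) = q.num := by exact_mod_cast h2
      rw [hm]
      push_cast
      rw [← h3]
      ring
    rw [co_tw j g σ] at h1
    rcases sg_eq χ g with h | h
    · exact ⟨_, by rw [← h1, h, one_mul]⟩
    · refine ⟨-(m * (b.repr (a' (fun i => g • σ i)) j).num), ?_⟩
      rw [Int.cast_neg, ← h1, h]
      ring
  by_contra hcon
  have hle : ∀ j ∈ J, LE χ (fun x : Fin (k + 1) → Y =>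
      alt (fun σ => (N : ℝ) * co j σ) (fun i => yl (x i))) := by
    intro j hj
    by_contra hj'
    refine hcon ⟨fun σ => (N : ℝ) * co j σ, (co_tw j).const_mul _, ?_, hint j hj, hj'⟩
    funext y
    rw [cob_mul, co_cob]
    simp
  have hsum : ∀ s : Finset _, s ⊆ J → LE χ (fun x : Fin (k + 1) → Y =>
      ∑ j ∈ s, (b j / N) * alt (fun σ => (N : ℝ) * co j σ) (fun i => yl (x i))) := by
    intro s
    induction s using Finset.induction_on with
    | empty =>
      intro _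
      exact LE.of_cob (γ := fun _ => 0) (fun g y => by simp) (fun y => by simp [cob])
    | insert j s hj ih =>
      intro hs
      simp only [Finset.sum_insert hj]
      exact ((hle j (hs (Finset.mem_insert_self _ _))).const_mul _).add
        (ih ((Finset.subset_insert _ _).trans hs))
  have h1 : LE χ (fun x : Fin (k + 1) → Y => alt a (fun i => pos (yl (x i)))) := by
    refine (hsum J subset_rfl).congr fun x₀ => ?_
    obtain ⟨W, hW, hx⟩ := hnear x₀
    refine ⟨W, hW, fun x hxW => ?_⟩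
    simp only [alt, Finset.mul_sum]
    rw [Finset.sum_comm]
    refine Finset.sum_congr rfl fun ρ _ => ?_
    have h2 := hexp _ (hperm _ (hx x hxW) ρ)
    simp only [ha'] at h2
    rw [h2, Finset.mul_sum]
    refine Finset.sum_congr rfl fun j _ => ?_
    field_simp
  obtain ⟨γ, hγ, e⟩ := alt_comp_cohom ht ha (φ := fun y => pos (yl y))
    (fun g y => by rw [hyl, hpos])
  have h2 : LE χ (fun y => (-1) * cob γ y) := (LE.of_cob hγ fun _ => rfl).const_mul _
  have h3 := (h1.add h2).const_mul (((k + 1).factorial : ℝ)⁻¹)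
  refine hn (h3.congr fun x₀ => ⟨univ, univ_mem, fun x _ => ?_⟩)
  have hk : ((k + 1).factorial : ℝ) ≠ 0 := by positivity
  rw [← e x]
  field_simp
  ring

end LE

end Crest.Agent.N222.C
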