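import Crest.Agent.N222.C.Alg

/-!
# Row 222, part C: two counting lemmas
-/

set_option autoImplicit false
set_option maxHeartbeats 400000

open Set

noncomputable section

namespace Crest.Agent.N222.C

/-- injective partial labelling -/
def PInj {α β : Type} (lam : α → Option β) : Prop :=
  ∀ c c' y, lam c = some y → lam c' = some y → c = c'

theorem exists_option {β : Type} {P : β → Prop} (h : ∀ y y', P y → P y' → y = y') :
    ∃ o : Option β, ∀ y, o = some y ↔ P y := by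
  by_cases hP : ∃ y, P y
  · obtain ⟨y, hy⟩ := hP
    exact ⟨some y, fun y' => ⟨fun e => Option.some_injective _ e ▸ hy,
      fun h' => congrArg some (h _ _ hy h')⟩⟩
  · exact ⟨none, fun y => ⟨fun e => by simp at e, fun h' => absurd ⟨y, h'⟩ hP⟩⟩

/-- the number of injective partial labellings with image `A` which agree with `lam₀` on `B ⊆ A` -/
theorem card_ext {α β : Type} [Fintype α] {A B : Set β} (hA : A.Finite) (hB : B ⊆ A)
    {lam₀ : α → Option β} (h₀ : ∀ y ∈ B, ∃! c, lam₀ c = some y) :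
    Nat.card {lam : α → Option β // PInj lam ∧ (∀ y, (∃ c, lam c = some y) ↔ y ∈ A) ∧
        ∀ c, ∀ y ∈ B, lam c = some y ↔ lam₀ c = some y} =
      (Fintype.card α - B.ncard).descFactorial (A.ncard - B.ncard) := by
  classical
  set C₀ : Set α := {c | ∃ y ∈ B, lam₀ c = some y} with hC₀
  have hc : B.ncard = C₀.ncard := by
    choose f hf hu using h₀
    exact Set.ncard_congr f (fun y hy => ⟨y, hy, hf y hy⟩)
      (fun y y' hy hy' e => Option.some_injective _ ((hf y hy).symm.trans (e ▸ hf y' hy')))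
      fun c ⟨y, hy, e⟩ => ⟨y, hy, (hu y hy c e).symm⟩
  have := (hA.sdiff (t := B)).fintype
  have hcard : Nat.card (↥(A \ B) ↪ ↥(univ \ C₀)) =
      (Fintype.card α - B.ncard).descFactorial (A.ncard - B.ncard) := by
    rw [Nat.card_eq_fintype_card, Fintype.card_embedding_eq, Set.fintypeCard_eq_ncard,
      Set.fintypeCard_eq_ncard, Set.ncard_sdiff' hB hA, Set.ncard_sdiff' (subset_univ _),
      Set.ncard_univ, Nat.card_eq_fintype_card, hc]
  rw [← hcard]
  have ex : ∀ (e : ↥(A \ B) ↪ ↥(univ \ C₀)) (c : α), ∃ o : Option β, ∀ y, o = some y ↔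
      (y ∈ B ∧ lam₀ c = some y) ∨ ∃ h : y ∈ A \ B, (e ⟨y, h⟩ : α) = c := fun e c => by
    refine exists_option fun y y' h h' => ?_
    rcases h with h | ⟨h, e1⟩ <;> rcases h' with h' | ⟨h', e2⟩
    · exact Option.some_injective _ (h.2.symm.trans h'.2)
    · exact absurd ⟨y, h.1, e2 ▸ h.2⟩ (e ⟨y', h'⟩).2.2
    · exact absurd ⟨y', h'.1, e1 ▸ h'.2⟩ (e ⟨y, h⟩).2.2
    · exact congrArg Subtype.val (e.injective (Subtype.ext (e1.trans e2.symm)))
  choose F hF using ex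
  have p1 : ∀ e, PInj (F e) := fun e c c' y h h' => by
    rcases (hF _ _ _).1 h with h | ⟨h, e1⟩ <;> rcases (hF _ _ _).1 h' with h' | ⟨h', e2⟩
    · exact (h₀ y h.1).unique h.2 h'.2
    · exact absurd h.1 h'.2
    · exact absurd h'.1 h.2
    · exact e1.symm.trans e2
  have p2 : ∀ e y, (∃ c, F e c = some y) ↔ y ∈ A := fun e y => by
    simp only [hF]
    refine ⟨fun ⟨c, h⟩ => h.elim (fun h => hB h.1) fun h => h.1.1, fun hy => ?_⟩
    by_cases hb : y ∈ B
    · exact (h₀ y hb).exists.imp fun c h => Or.inl ⟨hb, h⟩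
    · exact ⟨_, Or.inr ⟨⟨hy, hb⟩, rfl⟩⟩
  have p3 : ∀ e c, ∀ y ∈ B, F e c = some y ↔ lam₀ c = some y := fun e c y hy => by
    rw [hF]
    exact ⟨fun h => h.elim (fun h => h.2) fun h => absurd hy h.1.2, fun h => Or.inl ⟨hy, h⟩⟩
  refine (Nat.card_eq_of_bijective (fun e => ⟨F e, p1 e, p2 e, p3 e⟩)
    ⟨fun e e' h => ?_, fun ⟨lam, h1, h2, h3⟩ => ?_⟩).symm
  · ext ⟨y, hy⟩
    have h1 : F e = F e' := congrArg Subtype.val h
    have h2 := (hF e (e ⟨y, hy⟩) y).2 (Or.inr ⟨hy, rfl⟩)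
    rcases (hF e' _ _).1 (h1 ▸ h2) with h3 | ⟨_, h3⟩
    · exact absurd h3.1 hy.2
    · exact h3.symm
  · choose f hf using fun y : ↥(A \ B) => (h2 y).2 y.2.1
    refine ⟨⟨fun y => ⟨f y, mem_univ _, fun ⟨y', hy', e⟩ => y.2.2 ?_⟩, fun y y' e => ?_⟩,
      Subtype.ext (funext fun c => Option.ext fun y => (hF _ _ _).trans
        ⟨fun h => ?_, fun h => ?_⟩)⟩
    · rwa [Option.some_injective _ ((hf y).symm.trans ((h3 _ _ hy').2 e))]
    · have e' : f y = f y' := congrArg Subtype.val e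
      exact Subtype.ext (Option.some_injective _ ((hf y).symm.trans (e' ▸ hf y')))
    · rcases h with h | ⟨h, e⟩
      · exact (h3 _ _ h.1).2 h.2
      · exact e ▸ hf ⟨y, h⟩
    · by_cases hb : y ∈ B
      · exact Or.inl ⟨hb, (h3 _ _ hb).1 h⟩
      · have hy : y ∈ A \ B := ⟨(h2 y).1 ⟨c, h⟩, hb⟩
        exact Or.inr ⟨hy, h1 _ _ y (hf ⟨y, hy⟩) h⟩

theorem finite_ext {α β : Type} [Finite α] {A : Set β} (hA : A.Finite) :
    {lam : α → Option β | ∀ c y, lam c = some y → y ∈ A}.Finite := by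
  refine (Set.Finite.pi' fun _ : α => (hA.image some).insert none).subset fun lam h c => ?_
  rcases e : lam c with _ | y
  · exact mem_insert _ _
  · exact mem_insert_of_mem _ (mem_image_of_mem _ (h c y e))

theorem exists_inv_finset {U : Type} (S : Finset U) (s : U → ℝ) (hs : ∀ u, s u = 1 ∨ s u = -1)
    (h : ∑ u ∈ S, s u = 0) : ∃ I : U → U, ∀ u ∈ S, I u ∈ S ∧ I (I u) = u ∧ s (I u) = -s u := by
  classical
  have hm : ∀ u ∈ S.filter fun u => ¬ s u = 1, s u = -1 := fun u hu =>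
    (hs u).resolve_left (Finset.mem_filter.1 hu).2
  rw [← Finset.sum_filter_add_sum_filter_not S fun u => s u = 1,
    Finset.sum_congr rfl fun u hu => (Finset.mem_filter.1 hu).2, Finset.sum_congr rfl hm] at h
  simp only [Finset.sum_const, nsmul_eq_mul, mul_one, mul_neg, add_neg_eq_zero, Nat.cast_inj] at h
  set P := S.filter fun u => s u = 1 with hP
  set M := S.filter fun u => ¬ s u = 1 with hM
  let e : P ≃ M := Finset.equivOfCardEq h
  have hd : ∀ u ∈ M, u ∉ P := fun u h h' => (Finset.mem_filter.1 h).2 (Finset.mem_filter.1 h').2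
  refine ⟨fun u => if h : u ∈ P then e ⟨u, h⟩ else if h : u ∈ M then e.symm ⟨u, h⟩ else u,
    fun u hu => ?_⟩
  by_cases h1 : s u = 1
  · have h2 : u ∈ P := Finset.mem_filter.2 ⟨hu, h1⟩
    have h3 := (e ⟨u, h2⟩).2
    simp only [dif_pos h2, dif_neg (hd _ h3), dif_pos h3, Subtype.coe_eta, Equiv.symm_apply_apply,
      hm _ h3, h1, and_true]
    exact (Finset.mem_filter.1 h3).1
  · have h2 : u ∈ M := Finset.mem_filter.2 ⟨hu, h1⟩
    have h3 := (e.symm ⟨u, h2⟩).2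
    simp only [dif_neg (hd _ h2), dif_pos h2, dif_pos h3, Subtype.coe_eta, Equiv.apply_symm_apply,
      hm _ h2, (Finset.mem_filter.1 h3).2, neg_neg, and_true]
    exact (Finset.mem_filter.1 h3).1

/-- equivariant sign reversing involutions -/
theorem exists_inv {Γ U : Type} [Group Γ] [MulAction Γ U] (χ : Γ →* ℤˣ) (r : U → U → Prop)
    (hr : Equivalence r) (hrs : ∀ (g : Γ) u u', r u u' → r (g • u) (g • u'))
    (gl : U → Prop) (hgr : ∀ u u', r u u' → gl u → gl u') (hgs : ∀ (g : Γ) u, gl u → gl (g • u))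
    (hfree : ∀ (g : Γ) u, gl u → r u (g • u) → g = 1)
    (s : U → ℝ) (hs : ∀ u, s u = 1 ∨ s u = -1) (hsg : ∀ (g : Γ) u, s (g • u) = sg χ g * s u)
    (hfin : ∀ u, gl u → {u' | r u u'}.Finite)
    (hsum : ∀ u, gl u → ∑ᶠ u' ∈ {u' | r u u'}, s u' = 0) :
    ∃ Λ : Equiv.Perm U, Λ * Λ = 1 ∧ (∀ (g : Γ) u, Λ (g • u) = g • Λ u) ∧ (∀ u, r u (Λ u)) ∧
      (∀ u, gl u → s (Λ u) = -s u) ∧ ∀ u, ¬ gl u → Λ u = u := by
  classical
  let ρ : Setoid U := ⟨fun u u' => ∃ g : Γ, r (g • u) u', fun u => ⟨1, by simpa using hr.refl u⟩,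
    fun {u u'} ⟨g, h⟩ => ⟨g⁻¹, by simpa using hr.symm (hrs g⁻¹ _ _ h)⟩,
    fun {u u' u''} ⟨g, h⟩ ⟨g', h'⟩ => ⟨g' * g, by
      rw [mul_smul]; exact hr.trans (hrs g' _ _ h) h'⟩⟩
  obtain ⟨p, hp, hp'⟩ : ∃ p : U → U, (∀ u, ∃ g : Γ, r (g • p u) u) ∧
      ∀ (g : Γ) u u', r (g • u) u' → p u' = p u :=
    ⟨fun u => (Quotient.mk ρ u).out, fun u => Quotient.mk_out (s := ρ) u,
      fun g u u' h => congrArg Quotient.out (Quotient.sound (s := ρ) ⟨g, h⟩).symm⟩
  choose γ hγ using hp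
  have hv : ∀ u, r (p u) ((γ u)⁻¹ • u) := fun u => by simpa using hrs (γ u)⁻¹ _ _ (hγ u)
  have hg : ∀ u, gl u → gl (p u) := fun u h => hgr _ _ (hr.symm (hv u)) (hgs _ _ h)
  have hu : ∀ u, gl u → ∀ g : Γ, r (g • p u) u → γ u = g := fun u h g e => by
    have h1 := hrs g⁻¹ _ _ (hr.trans e (hr.symm (hγ u)))
    rw [inv_smul_smul, smul_smul] at h1
    exact (inv_mul_eq_one.1 (hfree _ _ (hg u h) h1)).symm
  have ex : ∀ u₀, ∃ I : U → U, gl u₀ → ∀ u, r u₀ u → r u₀ (I u) ∧ I (I u) = u ∧ s (I u) = -s u :=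
    fun u₀ => by
      by_cases h : gl u₀
      · obtain ⟨I, hI⟩ := exists_inv_finset (hfin u₀ h).toFinset s hs
          (by rw [← finsum_mem_eq_finite_toFinset_sum]; exact hsum u₀ h)
        exact ⟨I, fun _ u e => by simpa using hI u (by simpa using e)⟩
      · exact ⟨id, fun h' => absurd h' h⟩
  choose I hI using ex
  set Λ : U → U := fun u => if gl u then γ u • I (p u) ((γ u)⁻¹ • u) else u with hΛ
  have e1 : ∀ u, gl u → Λ u = γ u • I (p u) ((γ u)⁻¹ • u) := fun u h => if_pos h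
  have e2 : ∀ u, ¬ gl u → Λ u = u := fun u h => if_neg h
  have r1 : ∀ u, gl u → r (γ u • p u) (Λ u) := fun u h => by
    rw [e1 u h]
    exact hrs _ _ _ (hI _ (hg u h) _ (hv u)).1
  have r2 : ∀ u, r u (Λ u) := fun u => by
    by_cases h : gl u
    · exact hr.trans (hr.symm (hγ u)) (r1 u h)
    · rw [e2 u h]
      exact hr.refl u
  have inv : Function.Involutive Λ := fun u => by
    by_cases h : gl u
    · have h' := hgr _ _ (r2 u) h
      have p1 : p (Λ u) = p u := hp' 1 _ _ (by simpa using r2 u)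
      have g1 : γ (Λ u) = γ u := hu _ h' _ (p1 ▸ r1 u h)
      rw [e1 _ h', p1, g1, e1 u h, inv_smul_smul, (hI _ (hg u h) _ (hv u)).2.1, smul_inv_smul]
    · rw [e2 u h, e2 u h]
  refine ⟨inv.toPerm, Equiv.ext inv, fun g u => ?_, r2, fun u h => ?_, e2⟩
  · show Λ (g • u) = g • Λ u
    by_cases h : gl u
    · have h' := hgs g u h
      have p1 : p (g • u) = p u := hp' g _ _ (hr.refl _)
      have g1 : γ (g • u) = g * γ u := hu _ h' _ (by
        rw [p1, mul_smul]; exact hrs g _ _ (hγ u))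
      rw [e1 _ h', p1, g1, e1 u h, mul_inv_rev, mul_smul, mul_smul, inv_smul_smul]
    · rw [e2 u h, e2 _ fun h' => h (by simpa using hgs g⁻¹ _ h')]
  · show s (Λ u) = -s u
    rw [e1 u h, hsg, (hI _ (hg u h) _ (hv u)).2.2, mul_neg, ← hsg, smul_inv_smul]

/-- equivariant choice on a free `Γ`-set -/
theorem exists_eqv {Γ B N : Type} [Group Γ] [MulAction Γ B] [MulAction Γ N]
    (hfree : ∀ (g : Γ) (b : B), g • b = b → g = 1) (R : B → N → Prop)
    (hR : ∀ (g : Γ) b x, R b x → R (g • b) (g • x)) (hex : ∀ b, ∃ x, R b x) :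
    ∃ f : B → N, (∀ (g : Γ) b, f (g • b) = g • f b) ∧ ∀ b, R b (f b) := by
  obtain ⟨p, hp, hp'⟩ : ∃ p : B → B, (∀ b, ∃ g : Γ, g • p b = b) ∧ ∀ (g : Γ) b, p (g • b) = p b :=
    ⟨fun b => (Quotient.mk (MulAction.orbitRel Γ B) b).out,
      fun b => (MulAction.orbitRel Γ B).symm (Quotient.mk_out (s := MulAction.orbitRel Γ B) b),
      fun g b => congrArg Quotient.out (Quotient.sound (s := MulAction.orbitRel Γ B) ⟨g, rfl⟩)⟩
  choose γ hγ using hp
  choose x hx using hex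
  refine ⟨fun b => γ b • x (p b), fun g b => ?_, fun b => ?_⟩
  · have h := hfree ((g * γ b)⁻¹ * γ (g • b)) (p b) (by
      rw [mul_smul, inv_smul_eq_iff, mul_smul, hγ, ← hp' g b, hγ])
    simp only [hp', ← inv_mul_eq_one.1 h, mul_smul]
  · simpa only [hγ] using hR (γ b) _ _ (hx (p b))

end Crest.Agent.N222.C
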