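import Crest.Agent.N222.C.Simp1

/-!
# Row 222, part C: equivariant singular simplices spanned by tuples in a weakly contractible cover

`exists_simp`: induction on `k`.  The faces already chosen glue to a map on the boundary of `Dn (k+1)`
(simplicial identities); among its extensions `σ` choose (`exists_eqv`) one with
`diam (p ∘ σ) ≤ 2 diam (p ∘ σ')` for all extensions `σ'` (any metric on `S`; if the infimum is `0` the
boundary map is constant).  Near `x₀` the boundary map lands in a sheet over a small closed chart ball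
and extends inside it (Tietze), so the chosen simplex is small and stays in the sheet.
-/

set_option autoImplicit false

open Set Filter Topology
open Crest.Agent.R251.Sm (Dn face)

noncomputable section

namespace Crest.Agent.N222.C

namespace Si2

open Crest.Agent.R251.Sm (face_apply continuous_coord)

theorem face_succAbove {n : ℕ} (i : Fin (n + 2)) (s : Dn n) (k : Fin (n + 1)) :
    face i s (i.succAbove k) = s k := by
  simp [face_apply]

theorem face_self {n : ℕ} (i : Fin (n + 2)) (s : Dn n) : face i s i = 0 := by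
  simp [face_apply]

theorem face_inj {n : ℕ} (i : Fin (n + 2)) {s t : Dn n} (h : face i s = face i t) : s = t := by
  ext k
  rw [← face_succAbove i s k, ← face_succAbove i t k, h]

theorem exists_face {n : ℕ} {s : Dn (n + 1)} {j : Fin (n + 2)} (h : s j = 0) :
    ∃ r, s = face j r := by
  refine ⟨⟨fun k => s (j.succAbove k), fun k => s.2.1 _, ?_⟩, ?_⟩
  · have := s.2.2
    rw [Fin.sum_univ_succAbove _ j] at this
    change s j + _ = _ at this
    rwa [h, zero_add] at this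
  · ext a
    refine Fin.succAboveCases j ?_ (fun k => ?_) a
    · rw [face_self, h]
    · rw [face_succAbove]; rfl

theorem face_face {n : ℕ} (i : Fin (n + 3)) (j : Fin (n + 2)) (r : Dn n) :
    face (i.succAbove j) (face (j.predAbove i) r) = face i (face j r) := by
  simp only [face, ContinuousMap.coe_mk, stdSimplex.map_comp_apply]
  congr 1
  funext k
  exact Fin.succAbove_succAbove_succAbove_predAbove i j k

theorem isClosed_bdry (k : ℕ) : IsClosed (bdry k) := by
  have : bdry k = ⋃ i, {t : Dn k | t i = 0} := by ext; simp [bdry]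
  rw [this]
  exact isClosed_iUnion_of_finite fun i => isClosed_eq (continuous_coord i) continuous_const

variable {T : Type} [TopologicalSpace T] {k : ℕ}

/-- the faces are compatible -/
def Cpt (σ : (Fin (k + 1) → T) → C(Dn k, T)) : Prop := ∀ (x : Fin (k + 2) → T) i j s t,
  face i s = face j t → σ (fun a => x (i.succAbove a)) s = σ (fun a => x (j.succAbove a)) t

theorem cpt_zero (σ : (Fin 1 → T) → C(Dn 0, T)) : Cpt σ := fun x i j s t h => by
  obtain rfl | hij := eq_or_ne j i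
  · rw [face_inj _ h]
  obtain ⟨j, rfl⟩ := Fin.exists_succAbove_eq hij
  have h1 := face_succAbove i s j
  rw [h, face_self] at h1
  have h2 := s.2.2
  rw [Fin.sum_univ_one] at h2
  obtain rfl : j = 0 := Subsingleton.elim _ _
  exact absurd (h1.trans h2) zero_ne_one

theorem cpt_succ {σ : (Fin (k + 1) → T) → C(Dn k, T)} {σ' : (Fin (k + 2) → T) → C(Dn (k + 1), T)}
    (H : ∀ x i, (σ' x).comp (face i) = σ fun j => x (i.succAbove j)) : Cpt σ' := by
  intro x i j s t h
  obtain rfl | hij := eq_or_ne j i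
  · rw [face_inj _ h]
  obtain ⟨j, rfl⟩ := Fin.exists_succAbove_eq hij
  have h1 := face_succAbove i s j
  rw [h, face_self] at h1
  obtain ⟨r, rfl⟩ := exists_face h1.symm
  obtain rfl := face_inj _ ((face_face i j r).trans h)
  rw [← ContinuousMap.comp_apply, ← ContinuousMap.comp_apply, H, H]
  simp only [Fin.succAbove_succAbove_succAbove_predAbove]

variable {n : ℕ} {S : Type} [PseudoMetricSpace S] (C : Cov S)

/-- the size of a simplex -/
def sz (τ : C(Dn k, C.T)) : ℝ := Metric.diam (range fun t => C.p (τ t))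

theorem dist_le_sz (τ : C(Dn k, C.T)) (s t : Dn k) : dist (C.p (τ s)) (C.p (τ t)) ≤ sz C τ :=
  Metric.dist_le_diam_of_mem (isCompact_range (C.cov.continuous.comp τ.continuous)).isBounded
    (mem_range_self s) (mem_range_self t)

/-- small simplices stay in a sheet -/
theorem sheet (x₀ : C.T) {V : Set C.T} (hV : V ∈ 𝓝 x₀) : ∃ ε > (0 : ℝ), ∃ W ∈ 𝓝 x₀,
    ∀ (τ : C(Dn k, C.T)) (t₀ : Dn k), τ t₀ ∈ W → sz C τ ≤ ε → range τ ⊆ V := by
  obtain ⟨U₀, hU₀, hd⟩ := C.qc.disjoint x₀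
  obtain ⟨U, hU, hUo, hx⟩ := mem_nhds_iff.1 (inter_mem hU₀ hV)
  obtain ⟨ε, hε, hb⟩ := Metric.mem_nhds_iff.1 (C.loc.isOpenMap.image_mem_nhds (hUo.mem_nhds hx))
  refine ⟨ε / 2, by positivity, U ∩ C.p ⁻¹' Metric.ball (C.p x₀) (ε / 2), inter_mem
    (hUo.mem_nhds hx) (C.cov.continuous.continuousAt.preimage_mem_nhds
      (Metric.ball_mem_nhds _ (by positivity))), fun τ t₀ h0 hs => ?_⟩
  have : PreconnectedSpace (Dn k) :=
    isPreconnected_iff_preconnectedSpace.1 (convex_stdSimplex ℝ _).isPreconnected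
  refine ((isPreconnected_range τ.continuous).subset_left_of_subset_union hUo
    (v := ⋃ g ∈ {g : C.Γ | g ≠ 1}, (g • ·) ⁻¹' U)
    (isOpen_biUnion fun g _ => hUo.preimage (continuous_const_smul g)) ?_ ?_
    ⟨_, mem_range_self t₀, h0.1⟩).trans fun y hy => (hU hy).2
  · refine disjoint_left.2 fun y hy hy' => ?_
    obtain ⟨g, hg, h⟩ := mem_iUnion₂.1 hy'
    exact hg (hd g ⟨_, ⟨y, (hU hy).1, rfl⟩, (hU h).1⟩)
  · rintro _ ⟨t, rfl⟩
    obtain ⟨y, hy, e⟩ := hb (show C.p (τ t) ∈ Metric.ball (C.p x₀) ε by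
      have h1 := dist_le_sz C τ t t₀
      have h2 : dist (C.p (τ t₀)) (C.p x₀) < ε / 2 := h0.2
      have h3 := dist_triangle (C.p (τ t)) (C.p (τ t₀)) (C.p x₀)
      rw [Metric.mem_ball]
      linarith)
    obtain ⟨g, rfl⟩ := C.exists_smul e
    by_cases hg : g = 1
    · left
      simpa [hg] using hy
    · exact Or.inr (mem_iUnion₂.2 ⟨g, hg, hy⟩)

/-- small boundaries have small extensions -/
theorem loc_ext [ChartedSpace (EuclideanSpace ℝ (Fin n)) S] (x₀ : C.T) {V : Set C.T}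
    (hV : V ∈ 𝓝 x₀) : ∃ W ∈ 𝓝 x₀, ∀ g : Dn k → C.T, ContinuousOn g (bdry k) →
      MapsTo g (bdry k) W → ∃ G : C(Dn k, C.T), (∀ t ∈ bdry k, G t = g t) ∧ range G ⊆ V := by
  obtain ⟨e₀, hx₀, -⟩ := C.loc x₀
  let e := e₀.trans (chartAt (EuclideanSpace ℝ (Fin n)) (e₀ x₀))
  have hx : x₀ ∈ e.source := ⟨hx₀, mem_chart_source _ _⟩
  obtain ⟨r, hr, hb⟩ := Metric.nhds_basis_closedBall.mem_iff.1
    (inter_mem (e.open_target.mem_nhds (e.map_source hx))
      ((e.continuousAt_symm (e.map_source hx)).preimage_mem_nhds (by rwa [e.left_inv hx])) :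
        e.target ∩ e.symm ⁻¹' V ∈ 𝓝 (e x₀))
  refine ⟨e.source ∩ e ⁻¹' Metric.closedBall (e x₀) r, inter_mem (e.open_source.mem_nhds hx)
    ((e.continuousAt hx).preimage_mem_nhds (Metric.closedBall_mem_nhds _ hr)), fun g hg hm => ?_⟩
  have := Metric.instTietzeExtensionClosedBall.{0} ℝ (e x₀) hr
  obtain ⟨G, hG, hG'⟩ := ContinuousMap.exists_forall_mem_restrict_eq (isClosed_bdry k)
    ⟨_, (e.continuousOn.comp hg fun t ht => (hm ht).1).restrict⟩
    (t := Metric.closedBall (e x₀) r) fun t => (hm t.2).2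
  refine ⟨⟨fun t => e.symm (G t),
    e.continuousOn_symm.comp_continuous G.continuous fun t => (hb (hG t)).1⟩, fun t ht => ?_, ?_⟩
  · have h1 : G t = e (g t) := congrArg (fun f : C(bdry k, _) => f ⟨t, ht⟩) hG'
    show e.symm (G t) = g t
    rw [h1, e.left_inv (hm ht).1]
  · rintro _ ⟨t, rfl⟩
    exact (hb (hG t)).2

/-- the inductive hypothesis -/
structure Good (σ : (Fin (k + 1) → C.T) → C(Dn k, C.T)) : Prop where
  eqv : ∀ (g : C.Γ) x, σ (fun i => g • x i) = g • σ x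
  vert : ∀ x, vert (σ x) = x
  cpt : Cpt σ
  small : ∀ x₀, ∀ V ∈ 𝓝 x₀, ∃ W ∈ 𝓝 x₀, ∀ x, (∀ i, x i ∈ W) → range (σ x) ⊆ V

theorem good_zero : Good C (k := 0) fun x => ContinuousMap.const _ (x 0) where
  eqv _ _ := rfl
  vert x := funext fun i => by rw [Fin.eq_zero i]; rfl
  cpt := cpt_zero _
  small x₀ V hV := ⟨V, hV, fun x hx => by rintro _ ⟨t, rfl⟩; exact hx 0⟩

variable {C}

theorem Good.vert_of {σ : (Fin (k + 1) → C.T) → C(Dn k, C.T)} (H : Good C σ)
    {x : Fin (k + 2) → C.T} {τ : C(Dn (k + 1), C.T)}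
    (h : ∀ i, τ.comp (face i) = σ fun j => x (i.succAbove j)) : N222.C.vert τ = x := by
  funext i
  obtain ⟨j, hj⟩ := exists_ne i
  obtain ⟨i, rfl⟩ := Fin.exists_succAbove_eq hj.symm
  have := congrFun (vert_face τ j) i
  rw [h, H.vert] at this
  exact this.symm

theorem step [T1Space C.T] [ChartedSpace (EuclideanSpace ℝ (Fin n)) S] (h : WC C.T)
    {σ : (Fin (k + 1) → C.T) → C(Dn k, C.T)} (H : Good C σ) :
    ∃ σ' : (Fin (k + 2) → C.T) → C(Dn (k + 1), C.T), Good C σ' ∧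
      ∀ x i, (σ' x).comp (face i) = σ fun j => x (i.succAbove j) := by
  let Ex : (Fin (k + 2) → C.T) → C(Dn (k + 1), C.T) → Prop := fun x τ =>
    ∀ i, τ.comp (face i) = σ fun j => x (i.succAbove j)
  have hE : ∀ (g : C.Γ) x τ, Ex x τ → Ex (g • x) (g • τ) := fun g x τ hτ i => by
    rw [ContinuousMap.smul_comp, hτ i]
    exact (H.eqv g _).symm
  have hsz : ∀ (g : C.Γ) (τ : C(Dn (k + 1), C.T)), sz C (g • τ) = sz C τ := fun g τ => by
    simp only [sz, ContinuousMap.smul_apply, C.p_smul]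
  have hb := fun x : Fin (k + 2) → C.T => exists_bdry _ (H.cpt x)
  choose b hb1 hb2 hb3 using hb
  have hEb : ∀ x (τ : C(Dn (k + 1), C.T)), (∀ t ∈ bdry (k + 1), τ t = b x t) → Ex x τ :=
    fun x τ hτ i => by
      ext s
      rw [ContinuousMap.comp_apply, hτ _ ⟨i, face_self i s⟩, hb2]
  obtain ⟨σ', h1, h2⟩ := exists_eqv (Γ := C.Γ)
    (fun g (x : Fin (k + 2) → C.T) e => C.free g (x 0) (congrFun e 0))
    (fun x τ => Ex x τ ∧ ∀ τ', Ex x τ' → sz C τ ≤ 2 * sz C τ')
    (fun g x τ hτ => ⟨hE g x τ hτ.1, fun τ' h' => by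
      have := hτ.2 _ (by simpa only [inv_smul_smul] using hE g⁻¹ _ _ h')
      rwa [hsz] at this ⊢⟩)
    fun x => by
      obtain ⟨τ₀, h₀⟩ := h.ext_simplex (hb1 x)
      by_contra! hn
      have key : ∀ ε > (0 : ℝ), ∃ τ, Ex x τ ∧ sz C τ ≤ ε := fun ε hε => by
        have : ∀ m : ℕ, ∃ τ, Ex x τ ∧ sz C τ ≤ sz C τ₀ * (1 / 2) ^ m := fun m => by
          induction m with
          | zero => exact ⟨τ₀, hEb x τ₀ h₀, by simp⟩
          | succ m ih =>
            obtain ⟨τ, a1, a2⟩ := ih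
            obtain ⟨τ', b1, b2⟩ := hn τ a1
            exact ⟨τ', b1, by rw [pow_succ]; linarith⟩
        have h3 := (tendsto_pow_atTop_nhds_zero_of_lt_one (r := (1 / 2 : ℝ)) (by norm_num)
          (by norm_num)).const_mul (sz C τ₀)
        rw [mul_zero] at h3
        obtain ⟨m, hm⟩ := (h3.eventually (eventually_le_nhds hε)).exists
        obtain ⟨τ, a1, a2⟩ := this m
        exact ⟨τ, a1, a2.trans hm⟩
      have hc : Ex x (ContinuousMap.const _ (x 0)) := fun i => by
        ext s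
        refine (specializes_iff_eq.1 (specializes_iff_pure.2 fun V hV => ?_)).symm
        obtain ⟨ε, hε, W, hW, k1⟩ := sheet C (k := k + 1) (x 0) hV
        obtain ⟨τ, a1, a2⟩ := key ε hε
        have a3 : τ (stdSimplex.vertex 0) = x 0 := congrFun (H.vert_of a1) 0
        rw [← a1 i]
        exact k1 τ _ (a3 ▸ mem_of_mem_nhds hW) a2 (mem_range_self _)
      obtain ⟨τ', -, h'⟩ := hn _ hc
      have h4 : sz C (ContinuousMap.const (Dn (k + 1)) (x 0)) = 0 := by simp [sz]
      have h5 : 0 ≤ sz C τ' := Metric.diam_nonneg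
      linarith
  refine ⟨σ', ⟨h1, fun x => H.vert_of (h2 x).1, cpt_succ fun x => (h2 x).1, fun x₀ V hV => ?_⟩,
    fun x => (h2 x).1⟩
  obtain ⟨ε, hε, W₁, hW₁, k1⟩ := sheet C (k := k + 1) x₀ hV
  obtain ⟨V', hV', k2⟩ := loc_ext C (n := n) (k := k + 1) x₀
    (C.cov.continuous.continuousAt.preimage_mem_nhds
      (Metric.closedBall_mem_nhds (C.p x₀) (show 0 < ε / 4 by positivity)))
  obtain ⟨W₂, hW₂, k3⟩ := H.small x₀ V' hV'
  refine ⟨W₁ ∩ W₂, inter_mem hW₁ hW₂, fun x hx => k1 _ (stdSimplex.vertex 0) ?_ ?_⟩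
  · have := congrFun (H.vert_of (h2 x).1) 0
    rw [N222.C.vert] at this
    rw [this]
    exact (hx 0).1
  · obtain ⟨G, g1, g2⟩ := k2 (b x) (hb1 x) fun t ht => by
      obtain ⟨i, s, rfl⟩ := hb3 x t ht
      rw [hb2]
      exact k3 _ (fun j => (hx _).2) (mem_range_self s)
    have g3 : sz C G ≤ 2 * (ε / 4) := (Metric.diam_mono (by
      rintro _ ⟨t, rfl⟩
      exact g2 (mem_range_self t)) Metric.isBounded_closedBall).trans
        (Metric.diam_closedBall (by positivity))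
    linarith [(h2 x).2 G (hEb x G g1)]

end Si2

/-- **simplices spanned by tuples** -/
theorem exists_simp {n : ℕ} {S : Type} [TopologicalSpace S] [T2Space S] [CompactSpace S]
    [ChartedSpace (EuclideanSpace ℝ (Fin n)) S] (C : Cov S) (h : WC C.T) :
    ∃ σ : ∀ k : ℕ, (Fin (k + 1) → C.T) → C(Dn k, C.T),
      (∀ k (g : C.Γ) x, σ k (fun i => g • x i) = g • σ k x) ∧ (∀ k x, vert (σ k x) = x) ∧
      (∀ k x i, (σ (k + 1) x).comp (face i) = σ k fun j => x (i.succAbove j)) ∧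
      ∀ k x₀, ∀ V ∈ 𝓝 x₀, ∃ W ∈ 𝓝 x₀, ∀ x, (∀ i, x i ∈ W) → range (σ k x) ⊆ V := by
  have := ChartedSpace.secondCountable_of_sigmaCompact (EuclideanSpace ℝ (Fin n)) S
  let _ := TopologicalSpace.metrizableSpaceMetric S
  choose st h1 h2 using fun k σ H => Si2.step (n := n) (k := k) (σ := σ) h H
  let F : ∀ k, {σ : (Fin (k + 1) → C.T) → C(Dn k, C.T) // Si2.Good C σ} := fun k =>
    Nat.rec ⟨_, Si2.good_zero C⟩ (fun k p => ⟨st k p.1 p.2, h1 k p.1 p.2⟩) k
  exact ⟨fun k => (F k).1, fun k => (F k).2.eqv, fun k => (F k).2.vert,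
    fun k => h2 k (F k).1 (F k).2, fun k => (F k).2.small⟩

/-- a twisted cocycle near the diagonal which is not locally exact gives a class -/
theorem cls_of_loc {n : ℕ} {S : Type} [TopologicalSpace S] [T2Space S] [CompactSpace S]
    [ChartedSpace (EuclideanSpace ℝ (Fin n)) S] (C : Cov S) (h : WC C.T) {m : ℕ} {χ : C.Γ →* ℤˣ}
    {l : (Fin (m + 1) → C.T) → ℝ} (ht : Tw χ l)
    (hc : ∀ x₀ : C.T, ∃ W ∈ 𝓝 x₀, ∀ x : Fin (m + 2) → C.T, (∀ i, x i ∈ W) → cob l x = 0)
    (hn : ¬ LE χ l) : Nonempty (Cls C m) := by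
  obtain ⟨σ, h1, h2, h3, h4⟩ := exists_simp (n := n) C h
  obtain ⟨φ, g1, g2, g3⟩ := extend_small (ht.vert (n := m)) fun x₀ => by
    obtain ⟨W, hW, e⟩ := hc x₀
    exact ⟨W, hW, fun τ hτ => by rw [scob_vert]; exact e _ fun i => hτ (mem_range_self _)⟩
  refine ⟨⟨χ, fun x => φ (σ m x), fun g x => (congrArg φ (h1 m g x)).trans (g1 g _), funext fun x => ?_,
    fun hl => hn (hl.congr fun x₀ => ?_)⟩⟩
  · simpa only [scob, h3, cob, Pi.zero_apply] using g2 (σ (m + 1) x)
  · obtain ⟨V, hV, e⟩ := g3 x₀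
    obtain ⟨W, hW, e'⟩ := h4 m x₀ V hV
    exact ⟨W, hW, fun x hx => by rw [e _ (e' x hx), h2]⟩

end Crest.Agent.N222.C
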