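import Crest.Agent.N222.C.SDefs

/-!
# Row 222, part C: the action of the deck group on a covering of the target

`X` is arbitrary (not locally path connected), so the bijections `ρ g` need not be continuous; they
map paths to paths and simplices to simplices.  Let `D` be the group of the permutations `δ` of `E`
over `X` such that `δ ∘ ω` is continuous for every path `ω`; it acts freely and transitively on the
fibres (monodromy theorem, `E` is simply connected); `ρ g` is the element of `D` with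
`ρ g (c' t₀) = c' (g • t₀)`.
-/

set_option autoImplicit false

open Set Filter Topology
open Crest.Agent.R251.Sm (Dn face)

noncomputable section

namespace Crest.Agent.N222.C

/-- an action by bijections which preserve singular simplices -/
structure SAct (Γ E : Type) [Group Γ] [TopologicalSpace E] where
  ρ : Γ →* Equiv.Perm E
  cont : ∀ (g : Γ) (k : ℕ) (σ : C(Dn k, E)), Continuous fun t => ρ g (σ t)

/-- the action on simplices -/
def SAct.act {Γ E : Type} [Group Γ] [TopologicalSpace E] (A : SAct Γ E) (g : Γ) {k : ℕ}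
    (σ : C(Dn k, E)) : C(Dn k, E) := ⟨fun t => A.ρ g (σ t), A.cont g k σ⟩

namespace Act

open unitInterval

theorem lpc {T S : Type} [TopologicalSpace T] [TopologicalSpace S] [LocallyPathConnectedSpace S]
    {p : T → S} (hp : IsLocalHomeomorph p) : LocallyPathConnectedSpace T := by
  choose e he _ using hp
  let _ : ChartedSpace S T := ⟨range e, e, he, mem_range_self⟩
  exact ChartedSpace.locallyPathConnectedSpace S T

variable {X E : Type} [TopologicalSpace X] [TopologicalSpace E] {q : E → X}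

/-- maps over `X` that preserve paths -/
def PF (q : E → X) (δ : E → E) : Prop :=
  (∀ e, q (δ e) = q e) ∧ ∀ ω : C(I, E), Continuous fun t => δ (ω t)

omit [TopologicalSpace X] in
theorem PF.comp {δ δ' : E → E} (h : PF q δ) (h' : PF q δ') : PF q fun e => δ (δ' e) :=
  ⟨fun e => (h.1 _).trans (h'.1 e), fun ω => h.2 ⟨_, h'.2 ω⟩⟩

/-- comparison with a lift -/
theorem PF.eq_lift (hq : IsCoveringMap q) {δ : E → E} (h : PF q δ) {A : Type} [TopologicalSpace A]
    [PathConnectedSpace A] (s : C(A, E)) {F : A → E}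
    (hF : ∀ γ : C(I, A), Continuous fun t => F (γ t)) (e : ∀ a, q (F a) = q (s a)) {a₀ : A}
    (h0 : δ (s a₀) = F a₀) (a : A) : δ (s a) = F a := by
  let γ := PathConnectedSpace.somePath a₀ a
  have := congrFun (hq.eq_of_comp_eq (h.2 (s.comp γ)) (hF γ)
    (funext fun t => (h.1 _).trans (e _).symm) 0 (by simpa using h0)) 1
  simpa using this

theorem PF.cont (hq : IsCoveringMap q) {δ : E → E} (h : PF q δ) {A : Type} [TopologicalSpace A]
    [SimplyConnectedSpace A] [LocallyPathConnectedSpace A] (s : C(A, E)) :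
    Continuous fun a => δ (s a) := by
  obtain ⟨a₀⟩ : Nonempty A := inferInstance
  obtain ⟨F, ⟨h0, hF⟩, -⟩ := hq.existsUnique_continuousMap_lifts
    (ContinuousMap.comp ⟨q, hq.continuous⟩ s) a₀ (δ (s a₀)) (h.1 _)
  rw [funext (h.eq_lift hq s (fun γ => (F.comp γ).continuous) (congrFun hF) h0.symm)]
  exact F.continuous

theorem exists_PF [SimplyConnectedSpace E] (hq : IsCoveringMap q) {e₀ e₁ : E} (h : q e₀ = q e₁) :
    ∃ δ, PF q δ ∧ δ e₀ = e₁ := by
  let Q : C(E, X) := ⟨q, hq.continuous⟩
  have h0 : ∀ {ω : C(I, E)}, ω 0 = e₀ → Q.comp ω 0 = q e₁ := fun hω => (congrArg q hω).trans h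
  let δ : E → E := fun e => hq.liftPath (Q.comp (PathConnectedSpace.somePath e₀ e)) e₁
    (h0 (Path.source _)) 1
  have key : ∀ ω ω' : C(I, E), ω 0 = e₀ → ω' 0 = e₁ → (∀ t, q (ω' t) = q (ω t)) →
      δ (ω 1) = ω' 1 := fun ω ω' h1 h2 h3 => by
    have e : ω' = hq.liftPath (Q.comp ω) e₁ (h0 h1) := (hq.eq_liftPath_iff' _).2 ⟨funext h3, h2⟩
    rw [e]
    exact hq.liftPath_apply_one_eq_of_homotopicRel (ContinuousMap.HomotopicRel.comp_continuousMap
      (SimplyConnectedSpace.paths_homotopic (PathConnectedSpace.somePath e₀ (ω 1)) ⟨ω, h1, rfl⟩) Q)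
      e₁ _ _
  have key2 : ∀ β : C(I, E), β 0 = e₀ → Continuous fun t => δ (β t) := fun β hβ => by
    have e : (fun t => δ (β t)) = hq.liftPath (Q.comp β) e₁ (h0 hβ) := funext fun s => by
      let r : C(I, I) := ⟨fun t => s * t, by fun_prop⟩
      have := key (β.comp r) ((hq.liftPath (Q.comp β) e₁ (h0 hβ)).comp r) (by simpa [r] using hβ)
        (by simpa [r] using hq.liftPath_zero _ _ _) fun t => congrFun (hq.liftPath_lifts _ _ _) _
      simpa [r] using this
    rw [e]
    exact ContinuousMap.continuous _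
  refine ⟨δ, ⟨fun e => (congrFun (hq.liftPath_lifts _ _ _) 1).trans (congrArg q (Path.target _)),
    fun ω => ?_⟩, key (.const I e₀) (.const I e₁) rfl rfl fun _ => h.symm⟩
  let β := (PathConnectedSpace.somePath e₀ (ω 0)).trans (⟨ω, rfl, rfl⟩ : Path (ω 0) (ω 1))
  have e : (fun t => δ (ω t)) = fun t : I => δ (β (projIcc 0 1 zero_le_one ((1 + t) / 2))) := by
    funext t
    congr 1
    have := Path.extend_trans_of_half_le (PathConnectedSpace.somePath e₀ (ω 0))
      (⟨ω, rfl, rfl⟩ : Path (ω 0) (ω 1)) (t := (1 + t) / 2) (by linarith [t.2.1])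
    rw [show 2 * ((1 + (t : ℝ)) / 2) - 1 = t by ring, Path.extend_extends'] at this
    exact this.symm
  rw [e]
  exact (key2 β β.source).comp (continuous_projIcc.comp (by fun_prop))

end Act

open Act in
theorem exists_act {S X E : Type} [TopologicalSpace S] [LocallyPathConnectedSpace S]
    [TopologicalSpace X] [TopologicalSpace E] [SimplyConnectedSpace E] (C : Cov S) {q : E → X}
    (hq : IsCoveringMap q) (hs : Function.Surjective q) (c : C(S, X)) :
    ∃ (c' : C(C.T, E)) (A : SAct C.Γ E), (∀ t, q (c' t) = c (C.p t)) ∧ (∀ g e, q (A.ρ g e) = q e) ∧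
      ∀ (g : C.Γ) t, A.ρ g (c' t) = c' (g • t) := by
  have := C.sc
  have := lpc C.qc.isCoveringMap.isLocalHomeomorph
  have := C.qc.toContinuousConstSMul
  obtain ⟨t₀⟩ : Nonempty C.T := inferInstance
  obtain ⟨e₀, he₀⟩ := hs (c (C.p t₀))
  obtain ⟨c', ⟨-, hc⟩, -⟩ := hq.existsUnique_continuousMap_lifts
    (c.comp ⟨C.p, C.qc.isCoveringMap.continuous⟩) t₀ e₀ he₀
  have hc' : ∀ t, q (c' t) = c (C.p t) := congrFun hc
  have hg : ∀ (g : C.Γ) t, q (c' (g • t)) = q (c' t) := fun g t => by
    rw [hc', hc', C.qc.map_smul g]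
  choose δ hδ h0 using fun g : C.Γ => exists_PF hq (hg g t₀).symm
  have h1 : ∀ (g : C.Γ) t, δ g (c' t) = c' (g • t) := fun g =>
    (hδ g).eq_lift hq c' (F := fun t => c' (g • t)) (fun γ => by fun_prop) (hg g) (h0 g)
  have uniq : ∀ {f f' : E → E}, PF q f → PF q f' → f (c' t₀) = f' (c' t₀) → ∀ e, f e = f' e :=
    fun h h' e => h.eq_lift hq (.id E) h'.2 h'.1 e
  have e1 : ∀ e, δ 1 e = e :=
    uniq (f' := fun e => e) (hδ 1) ⟨fun _ => rfl, fun ω => ω.continuous⟩ (by rw [h0, one_smul])
  have e2 : ∀ g h e, δ (g * h) e = δ g (δ h e) := fun g h =>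
    uniq (hδ (g * h)) ((hδ g).comp (hδ h)) (by rw [h0, h0, h1, mul_smul])
  let _ : MulAction C.Γ E := { smul := δ, one_smul := e1, mul_smul := e2 }
  refine ⟨c', ⟨MulAction.toPermHom C.Γ E, fun g k σ => ?_⟩, hc', fun g => (hδ g).1, h1⟩
  have : ContractibleSpace (Dn k) := (convex_stdSimplex ℝ (Fin (k + 1))).contractibleSpace
    ⟨_, (stdSimplex.vertex 0 : Dn k).2⟩
  have : LocallyPathConnectedSpace (Dn k) :=
    (convex_stdSimplex ℝ (Fin (k + 1))).locallyPathConnectedSpace
  exact (hδ g).cont hq σ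

end Crest.Agent.N222.C
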