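import Crest.Agent.N222.C.Pou
import Crest.Agent.N222.C.Simp

/-!
# Row 222, part C: `asph_stmt : AsphStmt`
-/

set_option autoImplicit false

open Set Filter Topology Metric
open scoped ContDiff

noncomputable section

namespace Crest.Agent.N222.C

namespace Asph

variable {Γ T : Type} [Group Γ] [TopologicalSpace T] [MulAction Γ T] {n : ℕ} {A : OA Γ T n}

theorem norm_grid {M : ℕ} (hM : 0 < M) (m : GA n M) : ‖fun l => (m.1 l : ℝ) / M‖ ≤ 2 := by
  have hM' : (0 : ℝ) < M := Nat.cast_pos.2 hM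
  refine (pi_norm_le_iff_of_nonneg zero_le_two).2 fun l => ?_
  have h := Finset.mem_Icc.1 (Fintype.mem_piFinset.1 m.2 l)
  rw [Real.norm_eq_abs, abs_div, abs_of_pos hM', div_le_iff₀ hM', abs_le]
  exact ⟨by exact_mod_cast h.1, by exact_mod_cast h.2⟩

theorem ts_sub {M : ℕ} (hM : 0 < M) (m : GA n M) : tsupport (thM M m.1) ⊆ closedBall 0 4 := by
  refine (tsupport_thM hM m.1).trans (closedBall_subset_closedBall' ?_)
  have h1 : (1 : ℝ) / M ≤ 1 := div_le_one_of_le₀ (Nat.one_le_cast.2 hM) (Nat.cast_nonneg M)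
  rw [dist_zero_right]
  linarith [norm_grid hM m]

theorem contDiff_thM (M : ℕ) (m : Fin n → ℤ) : ContDiff ℝ ∞ (thM M m) :=
  contDiff_th.comp (contDiff_pi.2 fun l =>
    (contDiff_const.mul (contDiff_apply ℝ ℝ l)).sub contDiff_const)

theorem ts_source [T2Space T] {M : ℕ} (hM : 0 < M) (m : GA n M) :
    tsupport ((A.e A.i₀).source.indicator fun x => thM M m.1 (A.e A.i₀ x))
      ⊆ (A.e A.i₀).source := by
  have hs := (ts_sub hM m).trans A.big
  rw [(OA.sm_indicator A.i₀ (contDiff_thM M m.1)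
    ((isCompact_closedBall 0 4).of_isClosed_subset (isClosed_tsupport _) (ts_sub hM m)) hs).2]
  rintro _ ⟨z, hz, rfl⟩
  exact (A.e A.i₀).map_target (hs hz)

theorem mem_ts [ContinuousConstSMul Γ T] {ι : Type} (P : A.Pou ι) {y : Lb Γ ι} {x : T}
    (h : x ∈ tsupport (P.fy y)) : y.g⁻¹ • x ∈ tsupport (P.f y.i) :=
  map_mem_closure (f := fun x => y.g⁻¹ • x) (continuous_const_smul _) h fun _ hx => hx

theorem W_grid [T2Space T] [ContinuousConstSMul Γ T] {M : ℕ} (hM : 0 < M) {ι : Type}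
    (P : A.Pou (GA n M ⊕ ι)) (hP : ∀ m : GA n M, P.f (Sum.inl m) =
      (A.e A.i₀).source.indicator fun x => thM M m.1 (A.e A.i₀ x)) (m : Fin (n + 1) → GA n M) :
    P.W (fun a => ⟨1, Sum.inl (m a)⟩) = A.o A.i₀ * wG M fun a => m a := by
  have e : ∀ k : GA n M, ∀ z ∈ (A.e A.i₀).target,
      P.f (Sum.inl k) ((A.e A.i₀).symm z) = thM M k.1 z := fun k z hz => by
    rw [hP, indicator_of_mem ((A.e A.i₀).map_target hz), (A.e A.i₀).right_inv hz]
  rw [P.W_eq _ (g := 1) (j := A.i₀) fun x hx => by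
    have := mem_ts P (hx 0)
    rw [hP] at this
    simpa using ts_source hM _ this]
  simp only [OA.wJ, OA.Pou.fy, inv_one, one_smul, sg, map_one, Units.val_one, Int.cast_one,
    one_mul, wG]
  congr 1
  refine Eq.trans ?_ (MeasureTheory.setIntegral_eq_integral_of_forall_compl_eq_zero
    (s := (A.e A.i₀).target) fun z hz => ?_)
  · refine MeasureTheory.setIntegral_congr_fun (A.e A.i₀).open_target.measurableSet fun z hz => ?_
    simp only [e _ z hz, jac]
    congr 2
    refine Filter.EventuallyEq.fderiv_eq ?_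
    filter_upwards [(A.e A.i₀).open_target.mem_nhds hz] with w hw
    funext a
    exact e _ w hw
  · rw [image_eq_zero_of_notMem_tsupport fun h => hz (A.big (ts_sub hM _ h)), zero_mul]

theorem loc_grid {M : ℕ} (hM : 0 < M) (m : Fin (n + 1) → GA n M) :
    A.loc (fun a => (A.e A.i₀).symm fun l => ((m a).1 l : ℝ) / M)
      = VV fun a l => ((m a).1 l : ℝ) / M := by
  have ht : ∀ a, (fun l => ((m a).1 l : ℝ) / M) ∈ (A.e A.i₀).target := fun a =>
    A.big (mem_closedBall_zero_iff.2 ((norm_grid hM _).trans (by norm_num)))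
  rw [A.loc_eq (g := 1) fun a => by
    rw [one_smul]
    refine ⟨(A.e A.i₀).map_target (ht a), ?_⟩
    rw [mem_preimage, (A.e A.i₀).right_inv (ht a), mem_ball_zero_iff]
    exact (norm_grid hM _).trans_lt (by norm_num)]
  simp only [sg, map_one, Units.val_one, Int.cast_one, one_mul, one_smul,
    (A.e A.i₀).right_inv (ht _)]

/-- only the tuples `(1, inl m_a)` contribute -/
theorem pair_eq {α ι : Type} [Fintype α] [Fintype ι] {W φ : (Fin (n + 1) → Lb Γ (α ⊕ ι)) → ℝ}
    (h : ∀ y : Fin (n + 1) → Lb Γ (α ⊕ ι), (y 0).g = 1 → W y * φ y ≠ 0 →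
      ∀ a, ∃ k, y a = ⟨1, Sum.inl k⟩) :
    pair W φ = ∑ m : Fin (n + 1) → α,
      W (fun a => ⟨1, Sum.inl (m a)⟩) * φ fun a => ⟨1, Sum.inl (m a)⟩ := by
  classical
  rw [pair, Fintype.sum_sum_type, Finset.sum_eq_zero (s := (Finset.univ : Finset ι)) fun j _ =>
    finsum_eq_zero_of_forall_eq_zero fun y => by
      by_contra hne
      obtain ⟨k, hk⟩ := h _ rfl hne 0
      simp at hk, add_zero, ← (Fin.consEquiv fun _ => α).sum_comp, Fintype.sum_prod_type]
  refine Finset.sum_congr rfl fun k _ => ?_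
  let emb : (Fin n → α) ↪ (Fin n → Lb Γ (α ⊕ ι)) := ⟨fun m a => ⟨1, Sum.inl (m a)⟩,
    fun m m' e => funext fun a => Sum.inl_injective (congrArg Lb.i (congrFun e a))⟩
  rw [finsum_eq_sum_of_support_subset (s := Finset.univ.map emb) _ fun y hy => ?_, Finset.sum_map]
  · refine Finset.sum_congr rfl fun m _ => ?_
    have e : (Fin.cons ⟨1, Sum.inl k⟩ (emb m) : Fin (n + 1) → Lb Γ (α ⊕ ι))
        = fun a => ⟨1, Sum.inl ((Fin.consEquiv fun _ => α) (k, m) a)⟩ := by
      funext a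
      refine Fin.cases rfl (fun a => rfl) a
    rw [e]
  · choose m hm using h _ rfl hy
    exact Finset.mem_coe.2 (Finset.mem_map.2 ⟨fun a => m a.succ, Finset.mem_univ _,
      funext fun a => (hm a.succ).symm⟩)

end Asph

/-- If `loc = cob γ` near the diagonal, apply `exists_star` to
`G = {u | loc u = cob γ u ∧ ((∃ a, ∀ g, g • u a ∉ B 2) → loc u = 0)}` (`loc_far`), then
`exists_special`; with `pos' y = y.g • pos y.i` one has `pair W (loc ∘ pos') = pair W (cob (γ ∘ pos')) = 0`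
(`W_supp`, `pair_cob`), while only the tuples `(1, inl m_a)` contribute (`wand`), so that the left hand
side is `o i₀` times `grid_sum` (`W_eq` with `g = 1`, `loc_eq`). -/
theorem OA.not_le_loc {Γ T : Type} [Group Γ] [TopologicalSpace T] [MulAction Γ T]
    [ContinuousConstSMul Γ T] [T2Space T] [LocallyCompactSpace T] {m : ℕ} (A : OA Γ T (m + 1))
    (hp : Prp Γ T) {K₀ : Set T} (hK : IsCompact K₀) (hc : ∀ x, ∃ g : Γ, g • x ∈ K₀) :
    ¬ LE A.χ A.loc := by
  rintro ⟨γ, hγ, hloc⟩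
  obtain ⟨N, hN, hG⟩ := exists_star hp hK hc (k := m + 2)
    (G := {u | A.loc u = cob γ u ∧ ((∃ a, ∀ g : Γ, g • u a ∉ A.B 2) → A.loc u = 0)})
    (fun g u hu => ⟨by rw [A.tw_loc g, hγ.cob g, hu.1], fun ⟨a, ha⟩ => by
      rw [A.tw_loc g, hu.2 ⟨a, fun g' => by simpa [smul_smul] using ha (g' * g⁻¹)⟩, mul_zero]⟩)
    fun x₀ => by
      obtain ⟨W, hW, h1⟩ := hloc x₀
      obtain ⟨W', hW', h2⟩ := A.loc_far hp x₀
      exact ⟨W ∩ W', inter_mem hW hW', fun u hu =>
        ⟨h1 u fun a => (hu a).1, h2 u fun a => (hu a).2⟩⟩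
  obtain ⟨M, ι, _, P, pos, hM, h1, h2, h3⟩ := A.exists_special hp hK hc hN
  have hM0 : 0 < M := by omega
  let pos' : Lb Γ (GA (m + 1) M ⊕ ι) → T := fun y => y.g • pos y.i
  have key : ∀ (y : Fin (m + 2) → Lb Γ (GA (m + 1) M ⊕ ι)) (x : T),
      (∀ a, x ∈ tsupport (P.fy (y a))) → A.loc (fun a => pos' (y a)) = cob γ (fun a => pos' (y a))
        ∧ ((∃ a, ∀ g : Γ, g • pos' (y a) ∉ A.B 2) → A.loc (fun a => pos' (y a)) = 0) :=
    fun y x hx => hG x _ fun a => by
      obtain ⟨z, hz, hz'⟩ := h1 (y a).i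
      exact ⟨(y a).g⁻¹, z, hz (Asph.mem_ts P (hx a)), by rwa [inv_smul_smul]⟩
  have e1 := pair_cob P.tw_W (P.W_fin hp) (OA.Pou.W_bd P hp)
    (hγ.comp (φ := pos') fun g y => mul_smul g y.g _)
  have e2 : pair P.W (fun y => A.loc fun a => pos' (y a))
      = pair P.W (cob fun y => γ fun a => pos' (y a)) := by
    refine Finset.sum_congr rfl fun i _ => finsum_congr fun y => ?_
    by_cases h0 : P.W (Fin.cons ⟨1, i⟩ y) = 0
    · rw [h0, zero_mul, zero_mul]
    · obtain ⟨x, hx⟩ := P.W_supp h0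
      exact congrArg _ (key _ x hx).1
  rw [e1, Asph.pair_eq] at e2
  · refine grid_sum (n := m + 1) hM ((mul_eq_zero.1 (?_ : A.o A.i₀ * _ = 0)).resolve_left ?_)
    · rw [← e2, Finset.mul_sum]
      refine Finset.sum_congr rfl fun k _ => ?_
      rw [Asph.W_grid hM0 P (fun k => (h2 k).1), ← Asph.loc_grid (A := A) hM0 k, mul_assoc]
      simp only [pos', one_smul, (h2 _).2]
    · rcases A.o_eq A.i₀ with e | e <;> simp [e]
  · intro y hy hne
    obtain ⟨x, hx⟩ := P.W_supp (left_ne_zero_of_mul hne)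
    have hl : ∀ a, ∃ k, (y a).i = Sum.inl k := fun a => by
      rcases e : (y a).i with k | j
      · exact ⟨k, rfl⟩
      · refine absurd ((key y x hx).2 ⟨a, ?_⟩) (right_ne_zero_of_mul hne)
        rcases h3 j with h | h
        · have := Asph.mem_ts P (hx a)
          rw [e, h] at this
          simp [tsupport] at this
        · intro g
          simp only [pos', e, smul_smul]
          exact h _
    have hs : ∀ a, (y a).g⁻¹ • x ∈ (A.e A.i₀).source := fun a => by
      obtain ⟨k, hk⟩ := hl a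
      have := Asph.mem_ts P (hx a)
      rw [hk, (h2 k).1] at this
      exact Asph.ts_source hM0 k this
    intro a
    obtain ⟨k, hk⟩ := hl a
    have h0 := hs 0
    rw [hy, inv_one, one_smul] at h0
    exact ⟨k, Lb.ext (inv_eq_one.1 (A.wand _ x h0 (hs a))) hk⟩

theorem asph_stmt : AsphStmt := by
  intro n S _ _ _ _ _ C hn hπ
  obtain ⟨m, rfl⟩ := Nat.exists_eq_add_of_le' hn
  have : LocallyCompactSpace S := inferInstance
  obtain ⟨A⟩ := exists_OA (n := m + 1) C
  obtain ⟨K, hK, hc⟩ := C.exists_compact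
  exact cls_of_loc (n := m + 1) C (C.wc hπ) A.tw_loc (A.loc_cob C.prp) (A.not_le_loc C.prp hK hc)

end Crest.Agent.N222.C
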