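import Crest.Agent.N222.C.Defs

/-!
# Row 222, part C: Stokes on a box for pull-backs of a top degree form

`bint w O F a b = ∫_{[a,b] ∩ O} w (F x) det DF(x) dx`.
Proof of `box_stokes`: `M i x = (-1)^i · dens w (ins ⁻¹ O) (F ∘ ins i (x i)) (x ∘ succAbove i)` is, on `O`,
the value of the pull-back `F^*(w vol)` on the frame `e_{succAbove i j}`; `extDeriv_pullback` and
`extDeriv_apply` give `∑ ∂_i M_i = 0` (an alternating `(N+1)`-form on `ℝ^N` vanishes); then
`MeasureTheory.integral_divergence_of_hasFDerivAt_off_countable'`.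
-/

set_option autoImplicit false

open Set Filter Topology MeasureTheory

noncomputable section

namespace Crest.Agent.N222.C

variable {N : ℕ}

/-- Jacobian determinant -/
def jac (F : (Fin N → ℝ) → Fin N → ℝ) (x : Fin N → ℝ) : ℝ := (fderiv ℝ F x).det

/-- density of the pull-back, cut off outside `O` -/
def dens (w : (Fin N → ℝ) → ℝ) (O : Set (Fin N → ℝ)) (F : (Fin N → ℝ) → Fin N → ℝ) :
    (Fin N → ℝ) → ℝ := O.indicator fun x => w (F x) * jac F x

/-- integral over a box -/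
def bint (w : (Fin N → ℝ) → ℝ) (O : Set (Fin N → ℝ)) (F : (Fin N → ℝ) → Fin N → ℝ)
    (a b : Fin N → ℝ) : ℝ := ∫ x in Icc a b, dens w O F x

/-- face inclusion -/
def ins (i : Fin (N + 1)) (c : ℝ) (z : Fin N → ℝ) : Fin (N + 1) → ℝ := Fin.insertNth i c z

/-- the volume form -/
def vol (N : ℕ) : (Fin N → ℝ) [⋀^Fin N]→L[ℝ] ℝ :=
  { (Matrix.detRowAlternating : (Fin N → ℝ) [⋀^Fin N]→ₗ[ℝ] ℝ) with
    cont := Continuous.matrix_det (A := fun M : Fin N → Fin N → ℝ => Matrix.of M) continuous_id }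

theorem vol_apply (v : Fin N → Fin N → ℝ) : vol N v = (Matrix.of v).det := rfl

theorem det_eq_vol (L : (Fin N → ℝ) →L[ℝ] Fin N → ℝ) :
    L.det = vol N fun j => L (Pi.single j 1) := by
  rw [vol_apply, ContinuousLinearMap.det, ← LinearMap.det_toMatrix', ← Matrix.det_transpose]
  congr 1

/-- linear part of `ins` -/
def insL (i : Fin (N + 1)) : (Fin N → ℝ) →L[ℝ] Fin (N + 1) → ℝ :=
  ∑ j, (ContinuousLinearMap.proj j : (Fin N → ℝ) →L[ℝ] ℝ).smulRight (Pi.single (i.succAbove j) 1)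

theorem insL_single (i : Fin (N + 1)) (j : Fin N) :
    insL i (Pi.single j 1) = Pi.single (i.succAbove j) 1 := by
  simp [insL, Pi.single_apply]

theorem hasFDerivAt_ins (i : Fin (N + 1)) (c : ℝ) (z : Fin N → ℝ) :
    HasFDerivAt (ins i c) (insL i) z := by
  have : ins i c = fun z : Fin N → ℝ => Pi.single i c + insL i z := by
    funext z k
    rcases Fin.eq_self_or_eq_succAbove i k with rfl | ⟨j, rfl⟩
    · simp [ins, insL, Pi.single_apply]
    · simp [ins, insL, Pi.single_apply]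
  rw [this]
  exact (insL i).hasFDerivAt.const_add _

/-- the pull-back of `w vol` -/
def pb (w : (Fin N → ℝ) → ℝ) (F : (Fin (N + 1) → ℝ) → Fin N → ℝ) (x : Fin (N + 1) → ℝ) :
    (Fin (N + 1) → ℝ) [⋀^Fin N]→L[ℝ] ℝ :=
  (w (F x) • vol N).compContinuousLinearMap (fderiv ℝ F x)

theorem differentiableAt_pb {w : (Fin N → ℝ) → ℝ} (hw : ContDiff ℝ 1 w)
    {F : (Fin (N + 1) → ℝ) → Fin N → ℝ} {x : Fin (N + 1) → ℝ} (hF : ContDiffAt ℝ 2 F x) :
    DifferentiableAt ℝ (pb w F) x :=
  DifferentiableAt.continuousAlternatingMapCompContinuousLinearMap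
    (((hw.differentiable one_ne_zero _).comp x (hF.differentiableAt two_ne_zero)).smul_const _)
    ((hF.fderiv_right (m := 1) le_rfl).differentiableAt one_ne_zero)

theorem extDeriv_pb {w : (Fin N → ℝ) → ℝ} (hw : ContDiff ℝ 1 w)
    {F : (Fin (N + 1) → ℝ) → Fin N → ℝ} {x : Fin (N + 1) → ℝ} (hF : ContDiffAt ℝ 2 F x)
    (v : Fin (N + 1) → Fin (N + 1) → ℝ) : extDeriv (pb w F) x v = 0 := by
  have h := extDeriv_pullback (ω := fun t => w t • vol N)
    ((hw.differentiable one_ne_zero _).smul_const _) hF (by simp)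
  change extDeriv (pb w F) x = _ at h
  rw [h, ContinuousAlternatingMap.compContinuousLinearMap_apply]
  refine (extDeriv (fun t => w t • vol N) (F x)).toAlternatingMap.map_linearDependent _ fun hl => ?_
  simpa using hl.fintype_card_le_finrank

theorem pb_ins {w : (Fin N → ℝ) → ℝ} {F : (Fin (N + 1) → ℝ) → Fin N → ℝ} {i : Fin (N + 1)} {c : ℝ}
    {z : Fin N → ℝ} (hF : DifferentiableAt ℝ F (ins i c z)) :
    pb w F (ins i c z) (fun j => Pi.single (i.succAbove j) 1) =
      w ((F ∘ ins i c) z) * jac (F ∘ ins i c) z := by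
  rw [jac, (hF.hasFDerivAt.comp z (hasFDerivAt_ins i c z)).fderiv, det_eq_vol]
  simp only [ContinuousLinearMap.comp_apply, insL_single]
  rfl

/-- **Stokes on a box** -/
theorem box_stokes {w : (Fin N → ℝ) → ℝ} (hw : ContDiff ℝ 1 w) {a b : Fin (N + 1) → ℝ} (hab : a ≤ b)
    {O : Set (Fin (N + 1) → ℝ)} (hO : IsOpen O) {F : (Fin (N + 1) → ℝ) → Fin N → ℝ}
    (hF : ContDiffOn ℝ 2 F O) {K : Set (Fin (N + 1) → ℝ)} (hK : IsCompact K) (hKO : K ⊆ O)
    (h0 : ∀ x ∈ Icc a b, x ∈ O → x ∉ K → w (F x) = 0) :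
    ∑ i : Fin (N + 1), (-1 : ℝ) ^ (i : ℕ) *
      (bint w (ins i (b i) ⁻¹' O) (F ∘ ins i (b i)) (fun j => a (i.succAbove j))
          (fun j => b (i.succAbove j)) -
        bint w (ins i (a i) ⁻¹' O) (F ∘ ins i (a i)) (fun j => a (i.succAbove j))
          (fun j => b (i.succAbove j))) = 0 := by
  classical
  set m : Fin (N + 1) → (Fin (N + 1) → ℝ) → ℝ :=
    fun i x => pb w F x (fun j => Pi.single (i.succAbove j) 1) with hm
  have hc : ∀ x ∈ O, ContDiffAt ℝ 2 F x := fun x hx => hF.contDiffAt (hO.mem_nhds hx)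
  have hd : ∀ i : Fin (N + 1), ∀ x ∈ O, HasFDerivAt (O.indicator fun x => (-1 : ℝ) ^ (i : ℕ) * m i x)
      ((-1 : ℝ) ^ (i : ℕ) • fderiv ℝ (m i) x) x := fun i x hx =>
    (((differentiableAt_pb hw (hc x hx)).continuousAlternatingMap_apply_const _).hasFDerivAt.const_mul
      _).congr_of_eventuallyEq ((hO.eventually_mem hx).mono fun y hy => indicator_of_mem hy _)
  have hz : ∀ i : Fin (N + 1), ∀ x, x ∉ O → ∀ᶠ y in 𝓝 x, y ∈ Icc a b →
      O.indicator (fun x => (-1 : ℝ) ^ (i : ℕ) * m i x) y = 0 := fun i x hx => by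
    filter_upwards [hK.isClosed.isOpen_compl.mem_nhds fun h => hx (hKO h)] with y hy hy'
    by_cases hyO : y ∈ O
    · simp [hyO, hm, pb, h0 y hy' hyO hy]
    · exact indicator_of_notMem hyO _
  have hs : ∀ x, ∑ i : Fin (N + 1), (O.indicator fun x => (-1 : ℝ) ^ (i : ℕ) • fderiv ℝ (m i) x) x
      (Pi.single i 1) = 0 := fun x => by
    by_cases hx : x ∈ O
    · have h := extDeriv_apply (differentiableAt_pb hw (hc x hx)) fun k => Pi.single k 1
      rw [extDeriv_pb hw (hc x hx)] at h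
      simp only [indicator_of_mem hx]
      refine Eq.trans (Finset.sum_congr rfl fun i _ => ?_) h.symm
      rw [ContinuousLinearMap.smul_apply, smul_eq_mul, zsmul_eq_mul]
      push_cast
      rfl
    · simp [hx]
  have key := integral_divergence_of_hasFDerivAt_off_countable' a b hab
    (fun i => O.indicator fun x => (-1 : ℝ) ^ (i : ℕ) * m i x)
    (fun i => O.indicator fun x => (-1 : ℝ) ^ (i : ℕ) • fderiv ℝ (m i) x) ∅ countable_empty
    (fun i x hx => by
      by_cases hxO : x ∈ O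
      · exact (hd i x hxO).continuousAt.continuousWithinAt
      · refine (continuousWithinAt_const (b := (0 : ℝ))).congr_of_eventuallyEq ?_
          (indicator_of_notMem hxO _)
        filter_upwards [nhdsWithin_le_nhds (hz i x hxO), self_mem_nhdsWithin] with y h1 h2
        exact h1 h2)
    (fun x hx i => by
      by_cases hxO : x ∈ O
      · rw [indicator_of_mem hxO]; exact hd i x hxO
      · rw [indicator_of_notMem hxO]
        refine (hasFDerivAt_const (0 : ℝ) x).congr_of_eventuallyEq ?_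
        filter_upwards [hz i x hxO, pi_Icc_mem_nhds (fun k => (hx.1 k trivial).1)
          fun k => (hx.1 k trivial).2] with y h1 h2
        exact h1 h2)
    (by simp only [hs]; exact integrableOn_zero)
  simp only [hs, integral_zero] at key
  have hf : ∀ (i : Fin (N + 1)) (c : ℝ) (z : Fin N → ℝ),
      O.indicator (fun x => (-1 : ℝ) ^ (i : ℕ) * m i x) (Fin.insertNth i c z) =
        (-1 : ℝ) ^ (i : ℕ) * dens w (ins i c ⁻¹' O) (F ∘ ins i c) z := fun i c z => by
    by_cases hz : ins i c z ∈ O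
    · rw [dens, indicator_of_mem (show z ∈ ins i c ⁻¹' O from hz),
        ← pb_ins ((hc _ hz).differentiableAt two_ne_zero)]
      exact indicator_of_mem hz _
    · rw [dens, indicator_of_notMem (show z ∉ ins i c ⁻¹' O from hz), mul_zero]
      exact indicator_of_notMem hz _
  simp only [hf, integral_const_mul, ← mul_sub] at key
  exact key.symm

/-- permuting the coordinates of the target -/
theorem jac_perm (F : (Fin N → ℝ) → Fin N → ℝ) (ϖ : Equiv.Perm (Fin N)) (x : Fin N → ℝ) :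
    jac (fun z i => F z (ϖ i)) x = ((Equiv.Perm.sign ϖ : ℤ) : ℝ) * jac F x := by
  have h := (LinearEquiv.funCongrLeft ℝ ℝ ϖ).toContinuousLinearEquiv.comp_fderiv (f := F) (x := x)
  have e : (fun z i => F z (ϖ i)) = (LinearEquiv.funCongrLeft ℝ ℝ ϖ).toContinuousLinearEquiv ∘ F :=
    rfl
  rw [jac, jac, e, h, det_eq_vol, det_eq_vol, vol_apply, vol_apply]
  exact Matrix.det_permute' ϖ (Matrix.of fun j => fderiv ℝ F x (Pi.single j 1))

theorem jac_eq_zero {F : (Fin N → ℝ) → Fin N → ℝ} {x v : Fin N → ℝ} (hv : v ≠ 0)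
    (h : fderiv ℝ F x v = 0) : jac F x = 0 := by
  exact LinearMap.det_eq_zero_iff_ker_ne_bot.2 fun hk => hv (LinearMap.ker_eq_bot'.1 hk v h)

/-- a map which is locally independent of one coordinate has zero Jacobian -/
theorem jac_eq_zero_of_update {F : (Fin N → ℝ) → Fin N → ℝ} {x : Fin N → ℝ} (j : Fin N)
    (h : ∀ᶠ c in 𝓝 (x j), F (Function.update x j c) = F x) : jac F x = 0 := by
  refine jac_eq_zero (v := Pi.single j 1) (by simp) ?_
  by_cases hF : DifferentiableAt ℝ F x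
  · have h1 : HasFDerivAt F (fderiv ℝ F x) (Function.update x j (x j)) := by
      rw [Function.update_eq_self]; exact hF.hasFDerivAt
    exact (h1.comp_hasDerivAt (x j) (hasDerivAt_update x j (x j))).unique
      ((hasDerivAt_const (x j) (F x)).congr_of_eventuallyEq h)
  · rw [fderiv_zero_of_not_differentiableAt hF]; rfl

theorem jac_ne_zero {F : (Fin N → ℝ) → Fin N → ℝ} {x : Fin N → ℝ}
    (h : ∀ v, fderiv ℝ F x v = 0 → v = 0) : jac F x ≠ 0 := by
  exact fun h0 => LinearMap.det_eq_zero_iff_ker_ne_bot.1 h0 (LinearMap.ker_eq_bot'.2 h)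

theorem bint_congr {w : (Fin N → ℝ) → ℝ} {O : Set (Fin N → ℝ)} (hO : IsOpen O)
    {F F' : (Fin N → ℝ) → Fin N → ℝ} (h : EqOn F F' O) (a b : Fin N → ℝ) :
    bint w O F a b = bint w O F' a b := by
  unfold bint dens
  congr 1
  refine indicator_congr fun x hx => ?_
  simp only [jac, h hx, (h.eventuallyEq_of_mem (hO.mem_nhds hx)).fderiv_eq]

theorem bint_eq_zero {w : (Fin N → ℝ) → ℝ} {O : Set (Fin N → ℝ)} {F : (Fin N → ℝ) → Fin N → ℝ}
    {a b : Fin N → ℝ} (h : ∀ x ∈ Icc a b, x ∈ O → w (F x) * jac F x = 0) : bint w O F a b = 0 := by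
  refine setIntegral_eq_zero_of_forall_eq_zero fun x hx => ?_
  by_cases hxO : x ∈ O
  · exact (indicator_of_mem hxO _).trans (h x hx hxO)
  · exact indicator_of_notMem hxO _

/-- changing the domain -/
theorem bint_dom {w : (Fin N → ℝ) → ℝ} {O O' : Set (Fin N → ℝ)} {F : (Fin N → ℝ) → Fin N → ℝ}
    {a b : Fin N → ℝ} (h : ∀ x ∈ Icc a b, x ∈ O → w (F x) ≠ 0 → x ∈ O')
    (h' : ∀ x ∈ Icc a b, x ∈ O' → w (F x) ≠ 0 → x ∈ O) : bint w O F a b = bint w O' F a b := by
  refine setIntegral_congr_fun measurableSet_Icc fun x hx => ?_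
  by_cases hw : w (F x) = 0
  · simp [dens, indicator, hw]
  · by_cases h1 : x ∈ O
    · simp only [dens, indicator_of_mem h1, indicator_of_mem (h x hx h1 hw)]
    · simp only [dens, indicator_of_notMem h1,
        indicator_of_notMem (fun h2 => h1 (h' x hx h2 hw) : x ∉ O')]

/-- non vanishing: the Jacobian has a sign -/
theorem bint_ne_zero {w : (Fin N → ℝ) → ℝ} (hw : Continuous w) (hw0 : ∀ t, 0 ≤ w t)
    {F : (Fin N → ℝ) → Fin N → ℝ} (hF : ContDiff ℝ 1 F) {a b : Fin N → ℝ} {U : Set (Fin N → ℝ)}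
    (hU : IsOpen U) (hc : IsPreconnected U) (hj : ∀ x ∈ U, jac F x ≠ 0)
    (hout : ∀ x ∈ Icc a b, x ∉ closure U → jac F x = 0) {x₀ : Fin N → ℝ} (hx₀ : x₀ ∈ U)
    (hin : ∀ i, a i < x₀ i ∧ x₀ i < b i) (hw1 : 0 < w (F x₀)) : bint w univ F a b ≠ 0 := by
  have cj : Continuous (jac F) :=
    ContinuousLinearMap.continuous_det.comp (hF.continuous_fderiv one_ne_zero)
  have cg : Continuous fun x => jac F x₀ * jac F x := continuous_const.mul cj
  have g0 : 0 < jac F x₀ * jac F x₀ := mul_self_pos.2 (hj x₀ hx₀)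
  have h1 : ∀ x ∈ U, 0 ≤ jac F x₀ * jac F x := fun x hx => by
    by_contra hn
    obtain ⟨y, hy, h⟩ := hc.intermediate_value hx hx₀ cg.continuousOn ⟨(not_le.1 hn).le, g0.le⟩
    exact mul_ne_zero (hj x₀ hx₀) (hj y hy) h
  have h2 : ∀ x ∈ Icc a b, 0 ≤ jac F x₀ * (w (F x) * jac F x) := fun x hx => by
    rw [mul_left_comm]
    refine mul_nonneg (hw0 _) ?_
    by_cases hx' : x ∈ closure U
    · exact closure_minimal h1 (isClosed_le continuous_const cg) hx'
    · rw [hout x hx hx', mul_zero]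
  have cf : Continuous fun x => jac F x₀ * (w (F x) * jac F x) :=
    continuous_const.mul ((hw.comp hF.continuous).mul cj)
  have h3 : 0 < ∫ x in Icc a b, jac F x₀ * (w (F x) * jac F x) := by
    rw [setIntegral_pos_iff_support_of_nonneg_ae
      ((ae_restrict_iff' measurableSet_Icc).2 (ae_of_all _ h2)) cf.integrableOn_Icc]
    refine Measure.measure_pos_of_mem_nhds _ (inter_mem (cf.isOpen_support.mem_nhds ?_)
      (pi_Icc_mem_nhds (fun i => (hin i).1) fun i => (hin i).2))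
    rw [Function.mem_support, mul_left_comm]
    exact (mul_pos hw1 g0).ne'
  intro h
  rw [bint, dens, indicator_univ] at h
  rw [integral_const_mul, h, mul_zero] at h3
  exact lt_irrefl _ h3

/-- the bump `w(t) = ∏ β(t_i)`, positive exactly on the open unit cube -/
def bmp (N : ℕ) (t : Fin N → ℝ) : ℝ := ∏ i, expNegInvGlue (1 - t i ^ 2)

theorem contDiff_bmp : ContDiff ℝ 1 (bmp N) := by
  exact contDiff_prod fun i _ => expNegInvGlue.contDiff.comp (by fun_prop)

theorem bmp_nonneg (t : Fin N → ℝ) : 0 ≤ bmp N t := by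
  exact Finset.prod_nonneg fun i _ => expNegInvGlue.nonneg _

theorem bmp_perm (t : Fin N → ℝ) (ϖ : Equiv.Perm (Fin N)) : bmp N (fun i => t (ϖ i)) = bmp N t := by
  exact Equiv.prod_comp ϖ fun i => expNegInvGlue (1 - t i ^ 2)

theorem bmp_pos_iff {t : Fin N → ℝ} : 0 < bmp N t ↔ ‖t‖ < 1 := by
  rw [pi_norm_lt_iff one_pos]
  refine ⟨fun h i => ?_, fun h => Finset.prod_pos fun i _ => expNegInvGlue.pos_of_pos ?_⟩
  · by_contra hn
    refine h.ne' (Finset.prod_eq_zero (Finset.mem_univ i) (expNegInvGlue.zero_of_nonpos ?_))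
    rw [sub_nonpos, one_le_sq_iff_one_le_abs]
    exact not_lt.1 hn
  · rw [sub_pos, sq_lt_one_iff_abs_lt_one]
    exact h i

theorem bmp_eq_zero {t : Fin N → ℝ} (h : 1 ≤ ‖t‖) : bmp N t = 0 := by
  exact le_antisymm (not_lt.1 fun h' => not_lt.2 h (bmp_pos_iff.1 h')) (bmp_nonneg t)

end Crest.Agent.N222.C
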