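import Crest.Agent.N222.C.Glue
import Crest.Agent.N222.C.Box

/-!
# Row 222, part C: integration over the cells of the parameter space, Stokes

The source is `Fin (r + q) → ℝ`: first the `r` fibre coordinates (through `eκ`), then a cube of
dimension `q`.  The cell `(g, v)` is parametrised by `ξ ↦ sec g v (flp g ξ)`, `ξ` in the box
`[-L, L] × [0, L]^JJ`.

Proof of `cell_stokes`: apply `box_stokes` in every cell (`Fin (r + q + 1) = Fin (r + (q + 1))`; the
compact set is `{z ∈ box | flp g (fib z) ∈ trace of K}`, see `Gl.isCompact_trace`); the faces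
`natAdd r j` give the stated terms (sign `(-1)^(r+j)`); the faces `m = ±L`, `y_I = L` vanish (outside
`K`); the faces `y_I = 0` of the cells `(g, v)` and `(g ∆ {I}, Φ I v)` have the same domain and the
same map (`flp_symmDiff`, `sec_change`) and opposite signs, or an empty domain.
-/

set_option autoImplicit false

open Set Filter Topology
open scoped symmDiff

noncomputable section

namespace Crest.Agent.N222.C

variable {k r q : ℕ}

/-- fibre coordinates -/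
def fib (eκ : Fin r ≃ KK k) (z : Fin (r + q) → ℝ) : KK k → ℝ :=
  fun c => z (Fin.castAdd q (eκ.symm c))

/-- cube coordinates -/
def cub (r : ℕ) (z : Fin (r + q) → ℝ) : Fin q → ℝ := fun j => z (Fin.natAdd r j)

/-- lower corner -/
def lo (eκ : Fin r ≃ KK k) (L : ℝ) (q : ℕ) : Fin (r + q) → ℝ :=
  Fin.append (fun i => (eκ i).elim (-L) fun _ => 0) fun _ => 0

/-- upper corner -/
def hi (r : ℕ) (L : ℝ) (q : ℕ) : Fin (r + q) → ℝ := Fin.append (fun _ => L) fun _ => 1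

theorem mem_box {eκ : Fin r ≃ KK k} {L : ℝ} {z : Fin (r + q) → ℝ} :
    z ∈ Icc (lo eκ L q) (hi r L q) ↔ (-L ≤ fib eκ z none ∧ fib eκ z none ≤ L) ∧
      (∀ K, 0 ≤ fib eκ z (some K) ∧ fib eκ z (some K) ≤ L) ∧
      ∀ j, 0 ≤ cub r z j ∧ cub r z j ≤ 1 := by
  simp only [mem_Icc, Pi.le_def, Fin.forall_fin_add, lo, hi, Fin.append_left, Fin.append_right,
    fib, cub]
  constructor
  · rintro ⟨⟨h1, h2⟩, h3, h4⟩
    refine ⟨⟨?_, h3 _⟩, fun K => ⟨?_, h3 _⟩, fun j => ⟨h2 j, h4 j⟩⟩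
    · simpa using h1 (eκ.symm none)
    · simpa using h1 (eκ.symm (some K))
  · rintro ⟨h1, h2, h3⟩
    refine ⟨⟨fun i => ?_, fun j => (h3 j).1⟩, fun i => ?_, fun j => (h3 j).2⟩
    · obtain ⟨c, rfl⟩ := eκ.symm.surjective i
      cases c with
      | none => simpa using h1.1
      | some K => simpa using (h2 K).1
    · obtain ⟨c, rfl⟩ := eκ.symm.surjective i
      cases c with
      | none => exact h1.2
      | some K => exact (h2 K).2

theorem contDiff_fib (eκ : Fin r ≃ KK k) :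
    ContDiff ℝ (⊤ : ℕ∞) (fib eκ : (Fin (r + q) → ℝ) → KK k → ℝ) := by
  exact contDiff_pi.2 fun c => contDiff_apply ℝ ℝ _

theorem contDiff_cub : ContDiff ℝ (⊤ : ℕ∞) (cub r : (Fin (r + q) → ℝ) → Fin q → ℝ) := by
  exact contDiff_pi.2 fun c => contDiff_apply ℝ ℝ _

theorem cell_succAbove_castAdd (j : Fin (q + 1)) (i : Fin r) :
    Fin.succAbove (n := r + q) (Fin.natAdd r j) (Fin.castAdd q i) = Fin.castAdd (q + 1) i := by
  rw [Fin.succAbove_of_castSucc_lt]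
  · rfl
  · rw [Fin.lt_def]
    have := i.2
    simp only [Fin.val_castSucc, Fin.val_castAdd, Fin.val_natAdd]
    omega

theorem cell_succAbove_natAdd (j : Fin (q + 1)) (i : Fin q) :
    Fin.succAbove (n := r + q) (Fin.natAdd r j) (Fin.natAdd r i)
      = Fin.natAdd r (j.succAbove i) := by
  by_cases h : i.castSucc < j
  · rw [Fin.succAbove_of_castSucc_lt j i h, Fin.succAbove_of_castSucc_lt]
    · rfl
    · rw [Fin.lt_def] at h ⊢
      simp only [Fin.val_castSucc, Fin.val_natAdd] at h ⊢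
      omega
  · rw [Fin.succAbove_of_le_castSucc j i (not_lt.1 h), Fin.succAbove_of_le_castSucc]
    · rfl
    · rw [not_lt, Fin.le_def] at h
      rw [Fin.le_def]
      simp only [Fin.val_castSucc, Fin.val_natAdd] at h ⊢
      omega

theorem fib_ins (eκ : Fin r ≃ KK k) (j : Fin (q + 1)) (c : ℝ) (z : Fin (r + q) → ℝ) :
    fib (q := q + 1) eκ (ins (N := r + q) (Fin.natAdd r j) c z) = fib eκ z := by
  funext K
  simp only [fib, ins, ← cell_succAbove_castAdd j, Fin.insertNth_apply_succAbove]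

theorem cub_ins (j : Fin (q + 1)) (c : ℝ) (z : Fin (r + q) → ℝ) :
    cub (q := q + 1) r (ins (N := r + q) (Fin.natAdd r j) c z) = ins j c (cub r z) := by
  funext i
  rcases Fin.eq_self_or_eq_succAbove j i with rfl | ⟨i, rfl⟩
  · simp only [cub, ins, Fin.insertNth_apply_same]
  · simp only [cub, ins, ← cell_succAbove_natAdd j, Fin.insertNth_apply_succAbove]

theorem lo_succAbove (eκ : Fin r ≃ KK k) (L : ℝ) (j : Fin (q + 1)) :
    (fun i => lo eκ L (q + 1) (Fin.succAbove (n := r + q) (Fin.natAdd r j) i)) = lo eκ L q := by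
  funext i
  refine Fin.addCases (fun i => ?_) (fun i => ?_) i
  · simp only [cell_succAbove_castAdd, lo, Fin.append_left]
  · simp only [cell_succAbove_natAdd, lo, Fin.append_right]

theorem hi_succAbove (L : ℝ) (j : Fin (q + 1)) :
    (fun i => hi r L (q + 1) (Fin.succAbove (n := r + q) (Fin.natAdd r j) i)) = hi r L q := by
  funext i
  refine Fin.addCases (fun i => ?_) (fun i => ?_) i
  · simp only [cell_succAbove_castAdd, hi, Fin.append_left]
  · simp only [cell_succAbove_natAdd, hi, Fin.append_right]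

theorem lo_le_hi (eκ : Fin r ≃ KK k) {L : ℝ} (hL : 0 ≤ L) : lo eκ L q ≤ hi r L q := by
  intro i
  refine Fin.addCases (fun i => ?_) (fun i => ?_) i
  · simp only [lo, hi, Fin.append_left]
    cases eκ i with
    | none => simp only [Option.elim]; linarith
    | some K => exact hL
  · simp [lo, hi, Fin.append_right]

theorem cub_mem {eκ : Fin r ≃ KK k} {L : ℝ} {z : Fin (r + q) → ℝ}
    (hz : z ∈ Icc (lo eκ L q) (hi r L q)) : cub r z ∈ Icc (0 : Fin q → ℝ) 1 :=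
  ⟨fun j => ((mem_box.1 hz).2.2 j).1, fun j => ((mem_box.1 hz).2.2 j).2⟩

theorem mem_Ug_symmDiff {g : Finset (JJ k)} {I : JJ k} {η : KK k → ℝ} (h : η (some I) = 0)
    (hη : η ∈ Ug g) : η ∈ Ug (g ∆ {I}) := by
  refine ⟨hη.1, fun K => ?_⟩
  by_cases hK : K = I
  · subst hK; simp [h]
  · simpa [Finset.mem_symmDiff, hK] using hη.2 K

namespace Gl

variable {Γ V : Type} [Group Γ] [MulAction Γ V] (G : Gl Γ V k) (eκ : Fin r ≃ KK k)

/-- the point of the parameter space -/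
def pt (g : Finset (JJ k)) (v : V) (z : Fin (r + q) → ℝ) : G.YY := G.sec g v (flp g (fib eκ z))

/-- the domain in a cell -/
def Oc (D : Set G.YY) (g : Finset (JJ k)) (v : V) : Set (Fin (r + q) → ℝ) :=
  {z | flp g (fib eκ z) ∈ Ug g ∧ G.pt eκ g v z ∈ D}

/-- the map in a cell -/
def Fc {E : Type} (Φ : (Fin q → ℝ) → G.YY → E) (g : Finset (JJ k)) (v : V)
    (z : Fin (r + q) → ℝ) : E := Φ (cub r z) (G.pt eκ g v z)

/-- the integral over all cells -/
def CI (s : V → ℝ) (w : (Fin (r + q) → ℝ) → ℝ) (L : ℝ) (D : Set G.YY)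
    (Φ : (Fin q → ℝ) → G.YY → Fin (r + q) → ℝ) : ℝ :=
  ∑ g : Finset (JJ k), ∑ᶠ v : V,
    s v * bint w (G.Oc eκ D g v) (G.Fc eκ Φ g v) (lo eκ L q) (hi r L q)

/-- admissible domains: open, meeting finitely many sheets, signs change on the walls -/
structure Dom (s : V → ℝ) (D : Set G.YY) : Prop where
  op : IsOpen D
  fin : {v | ∃ g η, η ∈ Ug g ∧ G.sec g v η ∈ D}.Finite
  wall : ∀ g v η I, η ∈ Ug g → η (some I) = 0 → G.sec g v η ∈ D → s (G.Φ I v) = -s v

/-- `Φ` is `C²` on `ℝ^q × D` -/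
def Sm2 {E : Type} [NormedAddCommGroup E] [NormedSpace ℝ E] (D : Set G.YY)
    (Φ : (Fin q → ℝ) → G.YY → E) : Prop :=
  ∀ g v, ContDiffOn ℝ 2 (fun z : (Fin q → ℝ) × (KK k → ℝ) => Φ z.1 (G.sec g v z.2))
    {z | z.2 ∈ Ug g ∧ G.sec g v z.2 ∈ D}

variable {G eκ}

theorem isOpen_Oc {D : Set G.YY} (hD : IsOpen D) (g : Finset (JJ k)) (v : V) :
    IsOpen (G.Oc (q := q) eκ D g v) := by
  have h1 : Continuous fun z : Fin (r + q) → ℝ => flp g (fib eκ z) :=
    (contDiff_flp g).continuous.comp (contDiff_fib eκ).continuous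
  exact ((G.continuousOn_sec g v).isOpen_inter_preimage (isOpen_Ug g) hD).preimage h1

/-- the two cells on the sides of a wall -/
theorem wall_flip (g : Finset (JJ k)) (I : JJ k) (v : V) {z : Fin (r + q) → ℝ}
    (hz : fib eκ z (some I) = 0) (h : flp g (fib eκ z) ∈ Ug g) :
    flp (g ∆ {I}) (fib eκ z) ∈ Ug (g ∆ {I}) ∧ G.pt eκ (g ∆ {I}) (G.Φ I v) z = G.pt eκ g v z := by
  have h0 : flp g (fib eκ z) (some I) = 0 := by simp [flp, hz]
  have h1 := mem_Ug_symmDiff h0 h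
  have h2 := G.sec_change v h h1
  rw [symmDiff_symmDiff_cancel_left, G.ΦS_singleton] at h2
  rw [pt, pt, flp_symmDiff g I hz]
  exact ⟨h1, h2⟩

theorem wall_zero {N : ℕ} {s : V → ℝ} (w : (Fin N → ℝ) → ℝ) {D : Set G.YY} (hD : G.Dom s D)
    (Φ : (Fin q → ℝ) → G.YY → Fin N → ℝ) {ψ : (Fin N → ℝ) → Fin (r + q) → ℝ}
    (hψ : Continuous ψ) {I : JJ k} (h0 : ∀ z, fib eκ (ψ z) (some I) = 0) (a b : Fin N → ℝ) :
    ∑ g : Finset (JJ k), ∑ᶠ v : V,
      s v * bint w (ψ ⁻¹' G.Oc eκ D g v) (G.Fc eκ Φ g v ∘ ψ) a b = 0 := by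
  have hI : ∀ v, G.Φ I (G.Φ I v) = v := fun v => by
    rw [← Equiv.Perm.mul_apply, G.sq, Equiv.Perm.one_apply]
  have key : ∀ g v, s (G.Φ I v) * bint w (ψ ⁻¹' G.Oc eκ D (g ∆ {I}) (G.Φ I v))
      (G.Fc eκ Φ (g ∆ {I}) (G.Φ I v) ∘ ψ) a b
      = -(s v * bint w (ψ ⁻¹' G.Oc eκ D g v) (G.Fc eκ Φ g v ∘ ψ) a b) := by
    intro g v
    have e1 : ψ ⁻¹' G.Oc eκ D (g ∆ {I}) (G.Φ I v) = ψ ⁻¹' G.Oc eκ D g v := by
      ext z
      constructor
      · rintro ⟨h1, h2⟩
        have := wall_flip (G := G) (g ∆ {I}) I (G.Φ I v) (h0 z) h1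
        rw [symmDiff_symmDiff_cancel_right, hI] at this
        exact ⟨this.1, this.2 ▸ h2⟩
      · rintro ⟨h1, h2⟩
        have := wall_flip (G := G) g I v (h0 z) h1
        exact ⟨this.1, this.2 ▸ h2⟩
    have e2 : EqOn (G.Fc eκ Φ (g ∆ {I}) (G.Φ I v) ∘ ψ) (G.Fc eκ Φ g v ∘ ψ)
        (ψ ⁻¹' G.Oc eκ D g v) := fun z hz => by
      simp only [Function.comp_apply, Fc, (wall_flip (G := G) g I v (h0 z) hz.1).2]
    rw [e1, bint_congr ((isOpen_Oc hD.op g v).preimage hψ) e2]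
    rcases (ψ ⁻¹' G.Oc eκ D g v).eq_empty_or_nonempty with he | ⟨z, hz⟩
    · rw [bint_eq_zero fun x _ hx => by rw [he] at hx; exact hx.elim]
      simp
    · rw [hD.wall g v _ I hz.1 (by simp [flp, h0 z]) hz.2, neg_mul]
  have hinv : Function.Involutive fun g : Finset (JJ k) => g ∆ {I} := fun g =>
    symmDiff_symmDiff_cancel_right _ _
  have h1 := Equiv.sum_comp hinv.toPerm fun g => ∑ᶠ v : V,
    s v * bint w (ψ ⁻¹' G.Oc eκ D g v) (G.Fc eκ Φ g v ∘ ψ) a b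
  have h2 : ∀ g : Finset (JJ k), ∑ᶠ v : V, s v * bint w (ψ ⁻¹' G.Oc eκ D (g ∆ {I}) v)
      (G.Fc eκ Φ (g ∆ {I}) v ∘ ψ) a b = -∑ᶠ v : V,
      s v * bint w (ψ ⁻¹' G.Oc eκ D g v) (G.Fc eκ Φ g v ∘ ψ) a b := fun g => by
    rw [← finsum_comp_equiv (G.Φ I), ← finsum_neg_distrib]
    exact finsum_congr (key g)
  simp only [Function.Involutive.coe_toPerm, h2, Finset.sum_neg_distrib] at h1
  linarith

/-- **Stokes** -/
theorem cell_stokes {s : V → ℝ} {w : (Fin (r + q) → ℝ) → ℝ} (hw : ContDiff ℝ 1 w) {L : ℝ}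
    (hL : 0 ≤ L) {D : Set G.YY} (hD : G.Dom s D)
    {Φ : (Fin (q + 1) → ℝ) → G.YY → Fin (r + q) → ℝ} (hΦ : G.Sm2 D Φ)
    {K : Set G.YY} (hK : IsCompact K) (hKD : K ⊆ D) (hKL : ∀ p ∈ K, ‖p.1.2‖ < L)
    (h0 : ∀ c ∈ Icc (0 : Fin (q + 1) → ℝ) 1, ∀ p ∈ D, p ∉ K → w (Φ c p) = 0) :
    ∑ j : Fin (q + 1), (-1 : ℝ) ^ (j : ℕ) *
      (G.CI eκ s w L D (fun z => Φ (ins j 1 z)) - G.CI eκ s w L D (fun z => Φ (ins j 0 z))) = 0 := by
  classical
  set a : Fin (r + q + 1) → ℝ := lo eκ L (q + 1) with ha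
  set b : Fin (r + q + 1) → ℝ := hi r L (q + 1) with hb
  have hab : a ≤ b := lo_le_hi eκ hL
  have hfl : ∀ g, ContDiff ℝ (⊤ : ℕ∞) fun z : Fin (r + (q + 1)) → ℝ => flp g (fib eκ z) :=
    fun g => (contDiff_flp g).comp (contDiff_fib eκ)
  -- the face integrals
  set B : Fin (r + q + 1) → ℝ → Finset (JJ k) → V → ℝ := fun i c g v =>
    bint w (ins i c ⁻¹' G.Oc (q := q + 1) eκ D g v) (G.Fc eκ Φ g v ∘ ins i c)
      (fun j => a (i.succAbove j)) fun j => b (i.succAbove j) with hB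
  have st : ∀ g v, ∑ i : Fin (r + q + 1),
      (-1 : ℝ) ^ (i : ℕ) * (B i (b i) g v - B i (a i) g v) = 0 := by
    intro g v
    refine box_stokes hw hab (isOpen_Oc (q := q + 1) hD.op g v) ?_
      (K := Icc a b ∩ (fun z => flp g (fib (q := q + 1) eκ z)) ⁻¹'
        {η | η ∈ UU k ∧ η ∈ Cg g ∧ G.sec g v η ∈ K})
      (isCompact_Icc.inter_right ((G.isCompact_trace hK g v).isClosed.preimage
        (hfl g).continuous)) (fun z hz => ⟨mem_Ug_of_Cg hz.2.1 hz.2.2.1, hKD hz.2.2.2⟩) ?_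
    · have h2 : (2 : WithTop ℕ∞) ≤ ((⊤ : ℕ∞) : WithTop ℕ∞) :=
        (WithTop.coe_le_coe.2 le_top : ((2 : ℕ∞) : WithTop ℕ∞) ≤ ((⊤ : ℕ∞) : WithTop ℕ∞))
      exact (hΦ g v).comp ((contDiff_cub.prodMk (hfl g)).of_le h2).contDiffOn fun z hz => hz
    · intro z hz hzO hzK
      refine h0 _ (cub_mem hz) _ hzO.2 fun hp => hzK ⟨hz, hzO.1.1, ?_, hp⟩
      exact flp_mem_Cg g fun K => ((mem_box.1 hz).2.1 K).1
  have fs : ∀ i c g, ∑ᶠ v, s v * B i c g v = ∑ v ∈ hD.fin.toFinset, s v * B i c g v := by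
    intro i c g
    refine finsum_eq_sum_of_support_subset _ fun v hv => ?_
    by_contra hn
    refine hv ?_
    beta_reduce
    rw [show B i c g v = 0 from bint_eq_zero fun x _ hx => (hn ?_).elim, mul_zero]
    simp only [Finite.coe_toFinset]
    exact ⟨g, _, hx.1, hx.2⟩
  have tot : ∑ i : Fin (r + (q + 1)), (-1 : ℝ) ^ (i : ℕ) *
      (∑ g, ∑ᶠ v, s v * B i (b i) g v - ∑ g, ∑ᶠ v, s v * B i (a i) g v) = 0 := by
    simp only [fs, ← Finset.sum_sub_distrib, ← mul_sub, Finset.mul_sum]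
    rw [Finset.sum_comm]
    refine Finset.sum_eq_zero fun g _ => ?_
    rw [Finset.sum_comm]
    refine Finset.sum_eq_zero fun v _ => ?_
    rw [← mul_zero (s v), ← st g v, Finset.mul_sum]
    exact Finset.sum_congr rfl fun i _ => mul_left_comm _ _ _
  have far : ∀ (i : Fin r) (c : ℝ), c ∈ Icc (a (Fin.castAdd (q + 1) i)) (b (Fin.castAdd (q + 1) i)) →
      |c| = L → ∑ g, ∑ᶠ v, s v * B (Fin.castAdd (q + 1) i) c g v = 0 := by
    intro i c hc hcL
    refine Finset.sum_eq_zero fun g _ => finsum_eq_zero_of_forall_eq_zero fun v => ?_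
    rw [show B (Fin.castAdd (q + 1) i) c g v = 0 from bint_eq_zero fun x hx hxO => ?_, mul_zero]
    have hin : ins (N := r + q) (Fin.castAdd (q + 1) i) c x ∈ Icc a b :=
      Fin.insertNth_mem_Icc.2 ⟨hc, hx⟩
    refine mul_eq_zero_of_left (h0 _ (cub_mem hin) _ hxO.2 fun hp => ?_) _
    have h1 := hKL _ hp
    rw [pt, G.sec_val g v hxO.1.1, norm_flp] at h1
    have h2 := (norm_le_pi_norm _ (eκ i)).trans_lt h1
    simp only [fib, Equiv.symm_apply_apply, ins, Fin.insertNth_apply_same, Real.norm_eq_abs,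
      hcL, lt_self_iff_false] at h2
  have side : ∀ i : Fin r, ∑ g, ∑ᶠ v, s v * B (Fin.castAdd (q + 1) i) (b (Fin.castAdd (q + 1) i)) g v
      - ∑ g, ∑ᶠ v, s v * B (Fin.castAdd (q + 1) i) (a (Fin.castAdd (q + 1) i)) g v = 0 := by
    intro i
    rw [far i _ (right_mem_Icc.2 (hab _)) (by simp [hb, hi, abs_of_nonneg hL]), zero_sub,
      neg_eq_zero]
    rcases hi' : eκ i with _ | I
    · exact far i _ (left_mem_Icc.2 (hab _)) (by simp [ha, lo, hi', abs_of_nonneg hL])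
    · refine wall_zero w hD Φ (I := I)
        (continuous_iff_continuousAt.2 fun z => (hasFDerivAt_ins _ _ z).continuousAt)
        (fun z => ?_) _ _
      simp only [fib, ← hi', Equiv.symm_apply_apply, ins, Fin.insertNth_apply_same]
      simp [ha, lo, hi']
  have mid : ∀ (j : Fin (q + 1)) (c : ℝ), ∑ g, ∑ᶠ v, s v * B (Fin.natAdd r j) c g v
      = G.CI eκ s w L D fun z => Φ (ins j c z) := by
    intro j c
    refine Finset.sum_congr rfl fun g _ => finsum_congr fun v => ?_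
    have e1 : ins (N := r + q) (Fin.natAdd r j) c ⁻¹' G.Oc (q := q + 1) eκ D g v
        = G.Oc eκ D g v := by
      ext z
      change _ ∧ _ ↔ _ ∧ _
      simp only [pt, fib_ins]
    have e2 : G.Fc eκ Φ g v ∘ ins (N := r + q) (Fin.natAdd r j) c
        = G.Fc eκ (fun z => Φ (ins j c z)) g v := by
      funext z
      simp only [Function.comp_apply, Fc, pt, fib_ins, cub_ins]
    simp only [hB, e1, e2, ha, hb, lo_succAbove, hi_succAbove]
  rw [Fin.sum_univ_add] at tot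
  simp only [side, mul_zero, Finset.sum_const_zero, zero_add, mid, Fin.val_natAdd, pow_add,
    mul_assoc, ← Finset.mul_sum] at tot
  simp only [ha, hb, lo, hi, Fin.append_right] at tot
  exact (mul_eq_zero.1 tot).resolve_left (pow_ne_zero _ (by norm_num))

theorem CI_congr (s : V → ℝ) (w : (Fin (r + q) → ℝ) → ℝ) (L : ℝ) {D : Set G.YY} (hD : IsOpen D)
    {Φ Φ' : (Fin q → ℝ) → G.YY → Fin (r + q) → ℝ} (h : ∀ c, ∀ p ∈ D, Φ c p = Φ' c p) :
    G.CI eκ s w L D Φ = G.CI eκ s w L D Φ' := by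
  refine Finset.sum_congr rfl fun g _ => finsum_congr fun v => ?_
  exact congrArg _ (bint_congr (isOpen_Oc hD g v) (fun z hz => h _ _ hz.2) _ _)

theorem CI_dom (s : V → ℝ) (w : (Fin (r + q) → ℝ) → ℝ) (L : ℝ) {D D' : Set G.YY} (hD : D ⊆ D')
    {Φ : (Fin q → ℝ) → G.YY → Fin (r + q) → ℝ}
    (h : ∀ c ∈ Icc (0 : Fin q → ℝ) 1, ∀ p ∈ D', w (Φ c p) ≠ 0 → p ∈ D) :
    G.CI eκ s w L D Φ = G.CI eκ s w L D' Φ := by
  refine Finset.sum_congr rfl fun g _ => finsum_congr fun v => ?_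
  exact congrArg _ (bint_dom (fun z _ hz _ => ⟨hz.1, hD hz.2⟩)
    fun z hz hz' hw => ⟨hz'.1, h _ (cub_mem hz) _ hz'.2 hw⟩)

theorem CI_eq_zero (s : V → ℝ) {w : (Fin (r + q) → ℝ) → ℝ} (L : ℝ) {D : Set G.YY}
    {Φ : (Fin q → ℝ) → G.YY → Fin (r + q) → ℝ}
    (h : ∀ c ∈ Icc (0 : Fin q → ℝ) 1, ∀ p ∈ D, w (Φ c p) = 0) : G.CI eκ s w L D Φ = 0 := by
  refine Finset.sum_eq_zero fun g _ => finsum_eq_zero_of_forall_eq_zero fun v => ?_
  exact mul_eq_zero_of_right _ (bint_eq_zero fun z hz hz' =>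
    mul_eq_zero_of_left (h _ (cub_mem hz) _ hz'.2) _)

/-- degenerate families -/
theorem CI_eq_zero_of_update (s : V → ℝ) (w : (Fin (r + q) → ℝ) → ℝ) (L : ℝ) (D : Set G.YY)
    {Φ : (Fin q → ℝ) → G.YY → Fin (r + q) → ℝ} (j : Fin q)
    (h : ∀ c t p, Φ (Function.update c j t) p = Φ c p) : G.CI eκ s w L D Φ = 0 := by
  refine Finset.sum_eq_zero fun g _ => finsum_eq_zero_of_forall_eq_zero fun v => ?_
  rw [bint_eq_zero fun z _ _ => mul_eq_zero_of_right _
    (jac_eq_zero_of_update (Fin.natAdd r j) (Eventually.of_forall fun c => ?_)), mul_zero]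
  have e1 : fib eκ (Function.update z (Fin.natAdd r j) c) = fib eκ z := by
    funext K
    refine Function.update_of_ne (fun e => ?_) _ _
    have h1 := congrArg Fin.val e
    have h2 := (eκ.symm K).2
    simp only [Fin.val_castAdd, Fin.val_natAdd] at h1
    omega
  have e2 : cub r (Function.update z (Fin.natAdd r j) c) = Function.update (cub r z) j c :=
    Function.update_comp_eq_of_injective z (Fin.natAdd_injective _ _) j c
  simp only [Fc, pt, e1, e2, h]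

/-- equivariance -/
theorem CI_smul {s : V → ℝ} {γ : Γ} {ε : ℝ} (hs : ∀ v, s (γ • v) = ε * s v)
    (w : (Fin (r + q) → ℝ) → ℝ) (L : ℝ) {D D' : Set G.YY} (hD : IsOpen D)
    (h : ∀ p, γ • p ∈ D' ↔ p ∈ D) {Φ Φ' : (Fin q → ℝ) → G.YY → Fin (r + q) → ℝ}
    (hΦ : ∀ c, ∀ p ∈ D, Φ' c (γ • p) = Φ c p) :
    G.CI eκ s w L D' Φ' = ε * G.CI eκ s w L D Φ := by
  rw [CI, CI, Finset.mul_sum]
  refine Finset.sum_congr rfl fun g _ => ?_
  rw [mul_finsum, ← finsum_comp_equiv (MulAction.toPerm γ)]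
  refine finsum_congr fun v => ?_
  have e1 : G.Oc (q := q) eκ D' g (γ • v) = G.Oc eκ D g v := by
    ext z
    simp only [Oc, pt, mem_ofPred_eq, G.sec_smul, h]
  have e2 : EqOn (G.Fc eκ Φ' g (γ • v)) (G.Fc eκ Φ g v) (G.Oc eκ D g v) := fun z hz => by
    simp only [Fc, pt, G.sec_smul]
    exact hΦ _ _ hz.2
  rw [MulAction.toPerm_apply, hs, e1, bint_congr (isOpen_Oc hD g v) e2, mul_assoc]

end Gl

end Crest.Agent.N222.C
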