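import Crest.Agent.N222.T.Cov

/-!
# Row 222, part C: elementary facts on Galois coverings and saturations
-/

set_option autoImplicit false

open Set Filter Topology

noncomputable section

namespace Crest.Agent.N222.C

/-- the action is proper -/
def Prp (Γ T : Type) [Group Γ] [MulAction Γ T] [TopologicalSpace T] : Prop :=
  ∀ A B : Set T, IsCompact A → IsCompact B → {g : Γ | ∃ x ∈ A, g • x ∈ B}.Finite

namespace Cov

variable {S : Type} [TopologicalSpace S] (C : Cov S)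

instance : ContinuousConstSMul C.Γ C.T := C.qc.toContinuousConstSMul

instance : SimplyConnectedSpace C.T := C.sc

instance : Countable C.Γ := C.cnt

/-- `Cov.free'` (in `T/Cov`) with explicit arguments -/
theorem free (g : C.Γ) (x : C.T) (h : g • x = x) : g = 1 := C.free' h

instance [T2Space S] : T2Space C.T := C.t2

instance [LocallyCompactSpace S] : LocallyCompactSpace C.T := C.lc

theorem prp [T2Space S] : Prp C.Γ C.T := fun _ _ hA hB => C.fin hA hB

/-- a compact set which meets every orbit -/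
theorem exists_compact [CompactSpace S] [LocallyCompactSpace S] :
    ∃ K : Set C.T, IsCompact K ∧ ∀ x, ∃ g : C.Γ, g • x ∈ K := C.cocpt

end Cov

section Sat

variable {Γ T Y : Type} [Group Γ] [MulAction Γ T] [MulAction Γ Y] [TopologicalSpace T]
  [TopologicalSpace Y] [ContinuousConstSMul Γ T] [ContinuousConstSMul Γ Y] [T2Space T] [T2Space Y]
  [LocallyCompactSpace T]

theorem isCompact_sat_inter (h : Prp Γ T) {Q : Set (T × Y)} (hQ : IsCompact Q) {N : Set T}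
    (hN : IsCompact N) : IsCompact (sat Γ Q ∩ N ×ˢ univ) := by
  have e : sat Γ Q ∩ N ×ˢ univ = ⋃ g ∈ {g : Γ | ∃ x ∈ N, g • x ∈ Prod.fst '' Q},
      ((g⁻¹ • ·) '' Q) ∩ N ×ˢ univ := by
    ext z
    simp only [mem_iUnion₂]
    constructor
    · rintro ⟨⟨g, hg⟩, hz⟩
      exact ⟨g, ⟨z.1, hz.1, g • z, hg, rfl⟩, ⟨g • z, hg, inv_smul_smul g z⟩, hz⟩
    · rintro ⟨g, -, ⟨q, hq, rfl⟩, hz⟩
      exact ⟨⟨g, by simpa using hq⟩, hz⟩
  rw [e]
  exact (h N _ hN (hQ.image continuous_fst)).isCompact_biUnion fun g _ =>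
    (hQ.image (continuous_const_smul _)).inter_right (hN.isClosed.prod isClosed_univ)

theorem isClosed_sat (h : Prp Γ T) {Q : Set (T × Y)} (hQ : IsCompact Q) : IsClosed (sat Γ Q) := by
  refine isOpen_compl_iff.1 (isOpen_iff_mem_nhds.2 fun z hz => ?_)
  obtain ⟨N, hN, hN'⟩ := exists_compact_mem_nhds z.1
  filter_upwards [(isCompact_sat_inter h hQ hN).isClosed.isOpen_compl.mem_nhds fun h => hz h.1,
    continuous_fst.continuousAt.preimage_mem_nhds hN'] with w h1 h2 h3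
  exact h1 ⟨h3, h2, trivial⟩

omit [ContinuousConstSMul Γ T] [ContinuousConstSMul Γ Y] in
/-- a tube around the slice of a set with compact slices -/
theorem exists_tube {A Ω : Set (T × Y)} (hA : ∀ N, IsCompact N → IsCompact (A ∩ N ×ˢ univ))
    (hΩ : IsOpen Ω) (hAΩ : A ⊆ Ω) (x₀ : T) :
    ∃ W ∈ 𝓝 x₀, ∃ K : Set Y, IsCompact K ∧ (∀ p ∈ K, ∃ x, (x, p) ∈ A) ∧
      (∀ x ∈ W, ∀ p ∈ K, (x, p) ∈ Ω) ∧ ∀ x ∈ W, ∀ p, (x, p) ∈ A → p ∈ K := by
  obtain ⟨N, hN, hN'⟩ := exists_compact_mem_nhds x₀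
  obtain ⟨u, v, hu, hv, h1, h2, h3⟩ := generalized_tube_lemma (isCompact_singleton (x := x₀))
    ((hA _ (isCompact_singleton (x := x₀))).image continuous_snd) hΩ (by
      rintro ⟨x, p⟩ ⟨rfl, q, hq, rfl⟩
      exact hAΩ (show (x, q.2) ∈ A from (show q.1 = x from hq.2.1) ▸ hq.1))
  have h4 : IsClosed (Prod.fst '' (A ∩ N ×ˢ univ ∩ univ ×ˢ vᶜ)) :=
    (((hA N hN).inter_right (isClosed_univ.prod hv.isClosed_compl)).image continuous_fst).isClosed
  obtain ⟨W, hW, h5, h6⟩ := local_compact_nhds (inter_mem (inter_mem hN'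
    (hu.mem_nhds (h1 rfl))) (h4.isOpen_compl.mem_nhds (x := x₀) (by
      rintro ⟨q, hq, e⟩
      exact hq.2.2 (h2 ⟨q, ⟨hq.1.1, e, trivial⟩, rfl⟩))))
  refine ⟨W, hW, Prod.snd '' (A ∩ W ×ˢ univ), (hA W h6).image continuous_snd, ?_, ?_,
    fun x hx p hp => ⟨(x, p), ⟨hp, hx, trivial⟩, rfl⟩⟩
  · rintro _ ⟨q, hq, rfl⟩
    exact ⟨q.1, hq.1⟩
  · rintro x hx _ ⟨q, hq, rfl⟩
    refine h3 ⟨(h5 hx).1.2, by_contra fun h7 => (h5 hq.2.1).2 ?_⟩
    exact ⟨q, ⟨⟨hq.1, (h5 hq.2.1).1.1, trivial⟩, trivial, h7⟩, rfl⟩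

omit [ContinuousConstSMul Γ T] [ContinuousConstSMul Γ Y] [T2Space T] [T2Space Y]
  [LocallyCompactSpace T] in
/-- uniform continuity along a compact slice -/
theorem eventually_close {E : Type} [NormedAddCommGroup E] {Ω : Set (T × Y)} (hΩ : IsOpen Ω)
    {b : T × Y → E} (hb : ContinuousOn b Ω) {x₀ : T} {K : Set Y} (hK : IsCompact K)
    (h : ∀ p ∈ K, (x₀, p) ∈ Ω) {ε : ℝ} (hε : 0 < ε) :
    ∀ᶠ x in 𝓝 x₀, ∀ p ∈ K, ‖b (x, p) - b (x₀, p)‖ < ε := by
  refine hK.eventually_forall_of_forall_eventually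
    (P := fun x p => ‖b (x, p) - b (x₀, p)‖ < ε) fun p hp => ?_
  have h1 := hb.continuousAt (hΩ.mem_nhds (h p hp))
  have h2 : ContinuousAt (fun z : T × Y => b (x₀, z.2)) (x₀, p) :=
    ContinuousAt.comp (f := fun z : T × Y => (x₀, z.2)) h1 (by fun_prop)
  exact (h1.sub h2).norm.eventually_lt continuousAt_const (by simpa using hε)

omit [T2Space T] in
/-- locally finite closed families -/
theorem eventually_sub {L : Type} {F : L → Set T} (hc : ∀ y, IsClosed (F y))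
    (hf : ∀ N, IsCompact N → {y | (F y ∩ N).Nonempty}.Finite) (x₀ : T) :
    ∀ᶠ x in 𝓝 x₀, ∀ y, x ∈ F y → x₀ ∈ F y := by
  obtain ⟨N, hN, hN'⟩ := exists_compact_mem_nhds x₀
  have h1 : ∀ᶠ x in 𝓝 x₀, ∀ y ∈ {y | (F y ∩ N).Nonempty}, x ∈ F y → x₀ ∈ F y :=
    (eventually_all_finite (hf N hN)).2 fun y _ => by
      by_cases h : x₀ ∈ F y
      · exact Eventually.of_forall fun _ _ => h
      · filter_upwards [(hc y).isOpen_compl.mem_nhds h] with x hx h' using absurd h' hx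
  filter_upwards [h1, hN'] with x h2 h3 y hy using h2 y ⟨x, hy, h3⟩ hy

end Sat

end Crest.Agent.N222.C
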