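import Crest.Agent.N222.C.Hom
import Crest.Agent.N222.C.Cnt

/-!
# Row 222, part C: smoothing a continuous field in the parameter

`G.YY` is a manifold (atlas `G.chart g v`, all transition maps are the identity); use
`Continuous.exists_contMDiff_approx` on the open subset `D`, then `exists_eqv` on the free `Γ`-set `T`
(with values in `G.YY → E`, `arrowAction`).
-/

set_option autoImplicit false

open Set Filter Topology
open scoped Manifold ContDiff

noncomputable section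

namespace Crest.Agent.N222.C

namespace Gl

variable {k : ℕ} {Γ V T E : Type} [Group Γ] [MulAction Γ V] [MulAction Γ T] [Countable Γ]
  [NormedAddCommGroup E] [NormedSpace ℝ E] (G : Gl Γ V k)

/-- the atlas of the sections -/
@[reducible] def chs : ChartedSpace (KK k → ℝ) G.YY where
  atlas := range fun c : Finset (JJ k) × V => G.chart c.1 c.2
  chartAt p := G.chart (neg p.1.2) p.1.1
  mem_chart_source p := G.in_self p
  chart_mem_atlas _ := ⟨(_, _), rfl⟩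

omit [Countable Γ] in
theorem isManifold_chs : letI := G.chs; IsManifold 𝓘(ℝ, KK k → ℝ) ∞ G.YY := by
  let _ := G.chs
  refine isManifold_of_contDiffOn _ _ _ ?_
  rintro _ _ ⟨c, rfl⟩ ⟨c', rfl⟩
  exact contDiffOn_id.congr fun η hη => (G.chart c.1 c.2).right_inv hη.1.1

theorem exists_smooth_slice {D : Set G.YY} (hD : IsOpen D) {f : G.YY → E} (hf : ContinuousOn f D)
    {ε : ℝ} (hε : 0 < ε) : ∃ f' : G.YY → E,
      (∀ g v, ContDiffOn ℝ 2 (fun ξ => f' (G.sec g v ξ)) {ξ | ξ ∈ Ug g ∧ G.sec g v ξ ∈ D}) ∧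
      ∀ p ∈ D, ‖f' p - f p‖ < ε := by
  classical
  let _ := G.chs
  have := G.isManifold_chs
  have := G.secondCountable
  let U : TopologicalSpace.Opens G.YY := ⟨D, hD⟩
  have : LocallyCompactSpace U := ChartedSpace.locallyCompactSpace (KK k → ℝ) U
  obtain ⟨F, hF, -⟩ := Continuous.exists_contMDiff_approx 𝓘(ℝ, KK k → ℝ) (M := U)
    (f := fun p => f p) (ε := fun _ => ε) 2 (continuousOn_iff_continuous_domRestrict.1 hf)
    continuous_const fun _ => hε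
  have e : ∀ p : U, (if h : p.1 ∈ D then F ⟨p.1, h⟩ else 0) = F p := fun p => dif_pos p.2
  refine ⟨fun p => if h : p ∈ D then F ⟨p, h⟩ else 0, fun g v ξ hξ => ?_, fun p hp => ?_⟩
  · have h1 : ContMDiffAt 𝓘(ℝ, KK k → ℝ) 𝓘(ℝ, E) 2
        (fun p : G.YY => if h : p ∈ D then F ⟨p, h⟩ else 0) (G.sec g v ξ) := by
      refine (contMDiffAt_subtype_iff (U := U) (x := ⟨_, hξ.2⟩)).1 ?_
      simp only [e]
      exact F.contMDiff _
    have h2 : ContMDiffAt 𝓘(ℝ, KK k → ℝ) 𝓘(ℝ, KK k → ℝ) ∞ (G.chart g v).symm ξ :=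
      (contMDiffOn_symm_of_mem_maximalAtlas (e := G.chart g v) (IsManifold.subset_maximalAtlas
        (mem_range_self (f := fun c : Finset (JJ k) × V => G.chart c.1 c.2) (g, v)))).contMDiffAt
        ((isOpen_Ug g).mem_nhds hξ.1)
    have h3 : ((2 : ℕ∞) : ℕ∞ω) ≤ ∞ := by exact_mod_cast le_top
    exact (h1.comp ξ (h2.of_le h3)).contDiffAt.contDiffWithinAt
  · simp only [dif_pos hp, ← dist_eq_norm]
    exact hF ⟨p, hp⟩

theorem exists_fld [TopologicalSpace T] (hfree : ∀ (g : Γ) (x : T), g • x = x → g = 1)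
    {Ω : Set (T × G.YY)} (hΩ : IsOpen Ω) (hi : Inv Γ Ω) {b : T × G.YY → E}
    (hb : ∀ (g : Γ), ∀ z ∈ Ω, b (g • z) = b z) (hc : ContinuousOn b Ω) {ε : ℝ} (hε : 0 < ε) :
    ∃ b' : T × G.YY → E, G.Fld Ω b' ∧ ∀ z ∈ Ω, ‖b' z - b z‖ < ε := by
  let _ : MulAction Γ (G.YY → E) := arrowAction
  have hm : ∀ (γ : Γ) x p, (γ • x, p) ∈ Ω → (x, γ⁻¹ • p) ∈ Ω := fun γ x p h => by
    simpa using hi γ⁻¹ _ h
  have key : ∀ (γ : Γ) x (F : G.YY → E), ((∀ g v, ContDiffOn ℝ 2 (fun ξ => F (G.sec g v ξ))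
      {ξ | ξ ∈ Ug g ∧ (x, G.sec g v ξ) ∈ Ω}) ∧ ∀ p, (x, p) ∈ Ω → ‖F p - b (x, p)‖ < ε) →
      (∀ g v, ContDiffOn ℝ 2 (fun ξ => (γ • F) (G.sec g v ξ))
        {ξ | ξ ∈ Ug g ∧ (γ • x, G.sec g v ξ) ∈ Ω}) ∧
      ∀ p, (γ • x, p) ∈ Ω → ‖(γ • F) p - b (γ • x, p)‖ < ε := by
    refine fun γ x F h => ⟨fun g v => ?_, fun p hp => ?_⟩
    · refine ((h.1 g (γ⁻¹ • v)).mono fun ξ hξ => ⟨hξ.1, ?_⟩).congr fun ξ _ => ?_
      · rw [sec_smul]; exact hm γ x _ hξ.2
      · rw [sec_smul]; rfl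
    · have h1 := hb γ _ (hm γ x p hp)
      have h2 : γ • (x, γ⁻¹ • p) = (γ • x, p) := by simp
      rw [h2] at h1
      rw [h1]
      exact h.2 _ (hm γ x p hp)
  obtain ⟨F, hF, hR⟩ := exists_eqv (N := G.YY → E) hfree _ key
    fun x => G.exists_smooth_slice (D := {p | (x, p) ∈ Ω}) (f := fun p => b (x, p))
      (hΩ.preimage (Continuous.prodMk_right x))
      (hc.comp (Continuous.prodMk_right x).continuousOn fun _ h => h) hε
  refine ⟨fun z => F z.1 z.2, ⟨fun γ z _ => ?_, fun x => (hR x).1⟩, fun z hz => (hR z.1).2 _ hz⟩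
  change F (γ • z.1) (γ • z.2) = _
  rw [hF]
  change F z.1 (γ⁻¹ • γ • z.2) = _
  rw [inv_smul_smul]

end Gl

end Crest.Agent.N222.C
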