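import Crest.Agent.N222.C.Eval
import Crest.Agent.N222.C.Smooth
import Crest.Agent.N222.C.CovF

/-!
# Row 222, part C: essentiality and the assembly `core : CoreStmt`
-/

set_option autoImplicit false

open Set Filter Topology

noncomputable section

namespace Crest.Agent.N222.C

variable {Γ T L : Type} [Group Γ] [MulAction Γ T] [MulAction Γ L] [TopologicalSpace T] {n k : ℕ}

/-- topological hypotheses on the data -/
structure Dat.Top (d : Dat Γ T L (n + 1) k) (F : L → Set T) (yl : T → L) : Prop where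
  sub : d.Sub F
  cl : ∀ y, IsClosed (F y)
  op : ∀ y, IsOpen (d.O y)
  lf : ∀ N, IsCompact N → {y | (d.O y ∩ N).Nonempty}.Finite
  eqv : ∀ (g : Γ) x, yl (g • x) = g • yl x
  mem : ∀ x, x ∈ F (yl x)
  nle : ¬ LE d.χ (fun x : Fin (n + 1 + 1) → T => alt d.α fun i => yl (x i))

/-- **essentiality**: `ε = m / 2` with `m ≤ min 1 (inf ‖b‖)`, `b'` an `m / 4` smoothing of `b`;
`II b' = 0` near the diagonal, `II b' - II Hv = cob JH`, `II Hv = C · alt α ∘ yl`. -/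
theorem Dat.Top.ess [T2Space T] [LocallyCompactSpace T] [ContinuousConstSMul Γ T] [Countable Γ]
    {d : Dat Γ T L (n + 1) k} {F : L → Set T} {yl : T → L} (h : d.Top F yl)
    (hfree : ∀ (g : Γ) (x : T), g • x = x → g = 1) (hp : Prp Γ T)
    {Q : Set (T × d.gl.YY)} (hQ : IsCompact Q) (hQK : d.KC F ⊆ sat Γ Q)
    {Ω : Set (T × d.gl.YY)} (hΩ : IsOpen Ω) (hi : Inv Γ Ω) (hQΩ : Q ⊆ Ω) (hZ : Ω ⊆ d.ZZ)
    {b : T × d.gl.YY → TT (n + 1) k → ℝ} (hb : ∀ (g : Γ), ∀ z ∈ Ω, b (g • z) = b z)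
    (hc : ContinuousOn b Ω) {Q' : Set (T × d.gl.YY)} (hQ' : IsCompact Q') (hQ'Ω : Q' ⊆ Ω)
    (hG : ∀ z ∈ Ω, z ∉ sat Γ Q' → ∃ t, Prob F z.1 t ∧ b z = d.GG t z.2) : ∃ z ∈ Ω, b z = 0 := by
  classical
  by_contra hne
  push Not at hne
  have hQQ := hQ.union hQ'
  have hQQΩ : Q ∪ Q' ⊆ Ω := union_subset hQΩ hQ'Ω
  have hAΩ : sat Γ (Q ∪ Q') ⊆ Ω := fun z ⟨g, hg⟩ => inv_smul_smul g z ▸ hi g⁻¹ _ (hQQΩ hg)
  have hKA : d.KC F ⊆ sat Γ (Q ∪ Q') := fun z hz => (hQK hz).imp fun g hg => Or.inl hg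
  obtain ⟨m₀, hm₀, hm₀'⟩ := hQQ.exists_forall_le' (hc.mono hQQΩ).norm
    fun z hz => norm_pos_iff.2 (hne z (hQQΩ hz))
  set m := min 1 m₀ with hm
  have hm0 : 0 < m := lt_min one_pos hm₀
  have hm1 : m ≤ 1 := min_le_left _ _
  have hbm : ∀ z ∈ Ω, m ≤ ‖b z‖ := fun z hz => by
    by_cases hA : z ∈ sat Γ (Q ∪ Q')
    · obtain ⟨g, hg⟩ := hA
      rw [← hb g z hz]
      exact (min_le_right _ _).trans (hm₀' _ hg)
    · obtain ⟨t, ht, e⟩ := hG z hz fun ⟨g, hg⟩ => hA ⟨g, Or.inr hg⟩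
      rw [e]
      exact hm1.trans (not_le.1 fun h1 => hA (hKA (h.sub.mem_KC (hZ hz) ht h1))).le
  obtain ⟨B, hB⟩ := hQQ.exists_bound_of_continuousOn
    (d.gl.continuous_snd.comp continuous_snd).continuousOn
  obtain ⟨Lb, hBL, hL⟩ := exists_big k B
  let eκ : Fin (Fintype.card (KK k)) ≃ KK k := (Fintype.equivFin _).symm
  let eτ : Fin (Fintype.card (KK k) + (n + 1)) ≃ TT (n + 1) k :=
    (Fintype.equivFinOfCardEq (by rw [card_TT, add_comm])).symm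
  have hnτ : ∀ s : TT (n + 1) k → ℝ, ‖fun i => s (eτ i)‖ = ‖s‖ := fun s =>
    eτ.surjective.pi_norm_comp s
  have hcτ : ContinuousOn (fun z i => b z (eτ i)) Ω :=
    continuousOn_pi.2 fun i => continuousOn_pi.1 hc _
  obtain ⟨b', hb', hbb⟩ := d.gl.exists_fld hfree hΩ hi (b := fun z i => b z (eτ i))
    (fun g z hz => by simp only [hb g z hz]) hcτ (show 0 < m / 4 by positivity)
  obtain ⟨w, hw⟩ := exists_isBump (Fintype.card (KK k) + (n + 1)) (half_pos hm0)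
  obtain ⟨C, hC, hev⟩ := Dat.eval eκ eτ h.sub hw (half_pos hm0) (by linarith) hL
  have h0 := Dat.set0 hΩ hi hZ
  have hH := Dat.fld_Hv eτ hZ h.eqv fun x => h.sub.sub _ (h.mem x)
  refine h.nle ⟨_, (Gl.tw_JH (eκ := eκ) h0 w Lb hb' hH).const_mul C⁻¹, fun x₀ => ?_⟩
  obtain ⟨W, hW, K, hK, hKA', hKΩ, hAK⟩ :=
    exists_tube (fun N hN => isCompact_sat_inter hp hQQ hN) hΩ hAΩ x₀
  have hx₀ := mem_of_mem_nhds hW
  have hfin : {y | x₀ ∈ F y}.Finite :=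
    (h.lf _ isCompact_singleton).subset fun y hy => ⟨x₀, h.sub.sub _ hy, rfl⟩
  have e1 := eventually_sub h.cl (fun N hN => (h.lf N hN).subset
    fun y hy => hy.mono (inter_subset_inter_left _ (h.sub.sub y))) x₀
  have e2 : ∀ᶠ x in 𝓝 x₀, ∀ y ∈ {y | x₀ ∈ F y}, x ∈ d.O y :=
    (eventually_all_finite hfin).2 fun y hy => (h.op y).mem_nhds (h.sub.sub _ hy)
  have e3 := eventually_close hΩ hcτ hK (hKΩ _ hx₀) (show 0 < m / 4 by positivity)
  refine ⟨_, inter_mem hW (e1.and (e2.and e3)), fun x hx => ?_⟩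
  have hout : ∀ p, p ∉ K → ∃ D : Set (Fin (Fintype.card (KK k) + (n + 1)) → ℝ), Convex ℝ D ∧
      (∀ t ∈ D, w t = 0) ∧ ∀ x ∈ W ∩ {x | (∀ y, x ∈ F y → x₀ ∈ F y) ∧
        (∀ y ∈ {y | x₀ ∈ F y}, x ∈ d.O y) ∧
        ∀ p ∈ K, ‖(fun i => b (x, p) (eτ i)) - fun i => b (x₀, p) (eτ i)‖ < m / 4},
        (x, p) ∈ Ω → b' (x, p) ∈ D ∧ d.Hv eτ yl (x, p) ∈ D := by
    intro p hpK
    by_cases hex : ∃ x₁, (∀ y ∈ {y | x₀ ∈ F y}, x₁ ∈ d.O y) ∧ (x₁, p) ∈ Ω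
    swap
    · exact ⟨∅, convex_empty, fun _ ht => ht.elim, fun x hx h1 => (hex ⟨x, hx.2.2.1, h1⟩).elim⟩
    obtain ⟨x₁, hx₁, hx₁'⟩ := hex
    refine ⟨Metric.thickening (m / 4) (LinearMap.funLeft ℝ ℝ eτ ''
      {z | ∃ t, Prob F x₀ t ∧ z = Gs (d.sh p) t p.1.2}),
      ((convex_Gs hfin _ _).linear_image _).thickening _, fun ζ hζ => hw.zero _ ?_,
      fun x hx h1 => ⟨?_, ?_⟩⟩
    · obtain ⟨_, ⟨_, ⟨t, ht, rfl⟩, rfl⟩, h2⟩ := Metric.mem_thickening_iff.1 hζ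
      have h3 : 1 < ‖Gs (d.sh p) t p.1.2‖ := not_le.1 fun h3 => hpK (hAK _ hx₀ _ (hKA
        (Dat.kc_of_norm p.1.1.u.2 ht (fun y hy => ⟨x₁, hx₁ y hy,
          Dat.X_anti (Finset.empty_subset _) _ (hZ hx₁')⟩) h3)))
      rw [← hnτ] at h3
      have h4 := norm_sub_norm_le (LinearMap.funLeft ℝ ℝ eτ (Gs (d.sh p) t p.1.2)) ζ
      rw [← dist_eq_norm, dist_comm] at h4
      change 1 < ‖LinearMap.funLeft ℝ ℝ eτ (Gs (d.sh p) t p.1.2)‖ at h3
      linarith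
    · obtain ⟨t, ht, e⟩ := hG _ h1 fun ⟨g, hg⟩ => hpK (hAK _ hx.1 _ ⟨g, Or.inr hg⟩)
      refine Metric.mem_thickening_iff.2 ⟨_, ⟨_, ⟨t, ⟨ht.nn, fun y hy => hx.2.1 y (ht.supp y hy),
        ht.sum⟩, rfl⟩, rfl⟩, ?_⟩
      have h2 := hbb _ h1
      rw [e] at h2
      rw [dist_eq_norm]
      exact h2
    · exact Metric.self_subset_thickening (by positivity) _
        ⟨_, ⟨_, prob_single (hx.2.1 _ (h.mem x)), rfl⟩, rfl⟩
  have h1 := Gl.hom (eκ := eκ) h0 hw.sm (by linarith [hL.1]) hb' hH ⟨K, hK, fun p hp => by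
    obtain ⟨x, g, hg⟩ := hKA' p hp
    exact (hB _ hg).trans_lt hBL, fun x hx => hKΩ x hx.1, hout⟩ hx
  have h2 : d.gl.II eκ (fun v => d.sgn v.u) w Lb Ω b' x = 0 := by
    refine Gl.II_eq_zero _ _ fun p => ?_
    by_cases hpK : p ∈ K
    · refine ⟨Metric.ball (fun i => b (x₀, p) (eτ i)) (m / 2), convex_ball _ _,
        fun ζ hζ => hw.zero _ ?_, fun h3 i => ?_⟩
      · have h3 := hbm _ (hKΩ _ hx₀ p hpK)
        have h4 := norm_sub_norm_le (fun i => b (x₀, p) (eτ i)) ζ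
        rw [hnτ, ← dist_eq_norm, dist_comm] at h4
        linarith [Metric.mem_ball.1 hζ]
      · have h4 := hbb _ (h3 i)
        have h5 := (hx i).2.2.2 p hpK
        rw [← dist_eq_norm] at h4 h5
        exact ((dist_triangle _ _ _).trans_lt (add_lt_add h4 h5)).trans_eq (by ring)
    · obtain ⟨D, hD, hD0, hD1⟩ := hout p hpK
      exact ⟨D, hD, hD0, fun h3 i => (hD1 _ (hx i) (h3 i)).1⟩
  rw [h2, sub_zero, hev Ω hΩ hZ yl x₀ x fun i => ⟨(hx i).2.1 _ (h.mem _), (hx i).2.2.1,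
    fun p hp => hKΩ _ (hx i).1 p (hAK _ hx₀ _ (hKA hp))⟩] at h1
  rw [cob_mul, ← h1, inv_mul_cancel_left₀ hC]

section Reg

variable {ι : Type} {F : ι → Set T}

omit [TopologicalSpace T] in
theorem reg_smul (g : Γ) (y : Lb Γ ι) (x : T) : g • x ∈ reg F (g • y) ↔ x ∈ reg F y := by
  simp only [reg, mem_ofPred_eq, Lb.smul_g, Lb.smul_i, mul_inv_rev, mul_smul, inv_smul_smul]

theorem finite_reg [Finite ι] (hp : Prp Γ T) (hF : ∀ i, IsCompact (F i)) {N : Set T}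
    (hN : IsCompact N) : {y : Lb Γ ι | (reg F y ∩ N).Nonempty}.Finite :=
  (finite_iUnion fun i => (hp N (F i) hN (hF i)).image fun g => (⟨g⁻¹, i⟩ : Lb Γ ι)).subset
    fun y ⟨x, h1, h2⟩ => mem_iUnion.2 ⟨y.i, y.g⁻¹, ⟨x, h2, h1⟩, Lb.ext (inv_inv _) rfl⟩

variable [ContinuousConstSMul Γ T]

theorem isCompact_reg (hF : ∀ i, IsCompact (F i)) (y : Lb Γ ι) : IsCompact (reg F y) := by
  convert (hF y.i).image (continuous_const_smul y.g) using 1
  ext x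
  refine ⟨fun h => ⟨_, h, smul_inv_smul _ _⟩, ?_⟩
  rintro ⟨z, h, rfl⟩
  change y.g⁻¹ • y.g • z ∈ F y.i
  rwa [inv_smul_smul]

theorem isOpen_reg (hF : ∀ i, IsOpen (F i)) (y : Lb Γ ι) : IsOpen (reg F y) :=
  (hF y.i).preimage (continuous_const_smul y.g⁻¹)

end Reg

/-- the data: `O` relatively compact open neighbourhoods, `exists_eqv`, `exists_int_class` -/
theorem exists_dat {S : Type} [TopologicalSpace S] [T2Space S] [LocallyCompactSpace S] (C : Cov S)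
    (a : Cls C (n + 1)) {ι : Type} [Fintype ι] {F : ι → Set C.T} (hF : ∀ i, IsCompact (F i))
    (hcov : ∀ x, ∃ y : Lb C.Γ ι, x ∈ reg F y) :
    ∃ (k : ℕ) (d : Dat C.Γ C.T (Lb C.Γ ι) (n + 1) k) (yl : C.T → Lb C.Γ ι), d.Top (reg F) yl := by
  classical
  choose K hK hFK using fun i => exists_compact_superset (hF i)
  obtain ⟨O, hO⟩ : ∃ O : Lb C.Γ ι → Set C.T, O = reg fun i => interior (K i) := ⟨_, rfl⟩
  have OK : ∀ y, O y ⊆ reg K y := fun y x hx => by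
    rw [hO] at hx; exact interior_subset (s := K y.i) hx
  have FO : ∀ y, reg F y ⊆ O y := fun y x hx => by rw [hO]; exact hFK _ hx
  have Os : ∀ (g : C.Γ) y x, g • x ∈ O (g • y) ↔ x ∈ O y := fun g y x => by
    rw [hO]; exact reg_smul g y x
  have lf : ∀ N, IsCompact N → {y | (O y ∩ N).Nonempty}.Finite := fun N hN =>
    (finite_reg C.prp hK hN).subset fun y hy => hy.mono (inter_subset_inter_left _ (OK y))
  have nb : ∀ y, {y' | (O y ∩ O y').Nonempty}.Finite := fun y =>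
    (lf _ (isCompact_reg hK y)).subset fun y' ⟨x, h1, h2⟩ => ⟨x, h2, OK y h1⟩
  have e1 : ∀ y : Lb C.Γ ι, y.g⁻¹ • y = ⟨1, y.i⟩ := fun y => Lb.ext (inv_mul_cancel _) rfl
  have cl : ∀ y : Lb C.Γ ι, IsClosed (reg F y) := fun y => (isCompact_reg hF y).isClosed
  obtain ⟨yl, hyl, hmem⟩ := exists_eqv C.free (fun x (y : Lb C.Γ ι) => x ∈ reg F y)
    (fun g x y h => (reg_smul g y x).2 h) hcov
  obtain ⟨x₀⟩ : Nonempty C.T := inferInstance
  have hR₀ : {σ : Fin (n + 1 + 1) → Lb C.Γ ι |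
      ∀ j, σ j ∈ ⋃ i : ι, {y' | (O ⟨1, i⟩ ∩ O y').Nonempty}}.Finite :=
    Set.Finite.pi' fun _ => finite_iUnion fun i => nb _
  obtain ⟨α, tw, coc, int, nle⟩ := exists_int_class a.tw a.coc a.nle
    (pos := fun y : Lb C.Γ ι => y.g • x₀) (fun g y => mul_smul _ _ _) hyl
    {σ | ∃ x, ∀ i, x ∈ O (σ i)}
    ⟨hR₀.toFinset, fun σ ⟨x, hx⟩ => ⟨(σ 0).g⁻¹, hR₀.mem_toFinset.2 fun j => mem_iUnion.2
      ⟨(σ 0).i, (σ 0).g⁻¹ • x, e1 (σ 0) ▸ (Os _ _ _).2 (hx 0), (Os _ _ _).2 (hx j)⟩⟩⟩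
    (fun σ ⟨x, hx⟩ ρ => ⟨x, fun i => hx _⟩)
    fun x => ⟨_, eventually_sub cl (fun N hN => finite_reg C.prp hF hN) x,
      fun z hz => ⟨x, fun i => FO _ (hz i _ (hmem _))⟩⟩
  refine ⟨∑ i : ι, {y' | (O ⟨1, i⟩ ∩ O y').Nonempty}.ncard,
    { χ := a.χ
      O := O
      O_smul := Os
      free := fun g y h => mul_eq_right.1 (congrArg Lb.g h)
      reps := Finset.univ.image fun i => ⟨1, i⟩
      cover := fun y => ⟨y.g⁻¹, e1 y ▸ Finset.mem_image_of_mem _ (Finset.mem_univ _)⟩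
      nb_fin := nb
      nb_card := fun y => ?_
      α := α
      tw := tw
      coc := coc
      int := int }, yl, ⟨FO, reg_smul⟩, cl, fun y => ?_, lf, hyl, hmem, nle⟩
  · have h1 : {y' | (O y ∩ O y').Nonempty} ⊆
        (fun y' => y.g • y') '' {y' | (O ⟨1, y.i⟩ ∩ O y').Nonempty} := fun y' ⟨x, h1, h2⟩ =>
      ⟨y.g⁻¹ • y', ⟨y.g⁻¹ • x, e1 y ▸ (Os _ _ _).2 h1, (Os _ _ _).2 h2⟩, smul_inv_smul _ _⟩
    refine ((ncard_le_ncard h1 ((nb _).image _)).trans (ncard_image_le (nb _))).trans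
      (le_add_left ?_)
    exact Finset.single_le_sum (f := fun i : ι => {y' | (O ⟨1, i⟩ ∩ O y').Nonempty}.ncard)
      (fun _ _ => Nat.zero_le _) (Finset.mem_univ _)
  · change IsOpen (O y)
    rw [hO]
    exact isOpen_reg (fun _ => isOpen_interior) y

theorem core : CoreStmt := by
  intro S _ _ _ _ C n hn a ι _ F hF hcov
  obtain ⟨n, rfl⟩ : ∃ m, n = m + 1 := ⟨n - 1, by omega⟩
  obtain ⟨k, d, yl, h⟩ := exists_dat C a hF hcov
  have hQ := h.sub.isCompact_KC h.cl (isCompact_iUnion hF) (h.lf _ (isCompact_iUnion hF))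
  have hQK : d.KC (reg F) ⊆ sat C.Γ (d.KC (reg F) ∩ (⋃ i, F i) ×ˢ univ) := fun z hz => by
    obtain ⟨y, hy⟩ := hcov z.1
    exact ⟨y.g⁻¹, h.sub.inv_KC _ z hz, mem_iUnion.2 ⟨y.i, hy⟩, mem_univ _⟩
  refine ⟨{ κ := KK k
            τ := TT (n + 1) k
            card := card_TT _ _
            Y := d.gl.par
            cntY := d.gl.secondCountable
            Z := d.ZZ
            Z_open := Dat.isOpen_ZZ h.op
            Z_inv := d.inv_ZZ
            Q := d.KC (reg F) ∩ (⋃ i, F i) ×ˢ univ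
            Q_cpt := hQ
            Q_sub := inter_subset_left.trans h.sub.KC_sub
            G := d.GG
            G_eqv := d.GG_smul
            M := MM (n + 1) k
            G_loc := fun w => ⟨lab w.2.1.u.1, Gf w.2.1.u.1, contDiff_Gf _, fun c c' y h1 h2 => ?_,
              fun x η t hz hη ht c => ?_⟩
            G_prop := fun x η t hz ht hG => hQK (h.sub.mem_KC hz ht hG)
            ess := fun Ω hΩ hi hQΩ hZ b hb hc Q' hQ' hQ'Ω hG =>
              h.ess C.free C.prp hQ hQK hΩ hi hQΩ hZ hb hc hQ' hQ'Ω hG }⟩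
  · rcases c with c | c
    · rcases c' with c' | c'
      · exact congrArg Sum.inl (w.2.1.u.2.inj c c' y h1 h2)
      · exact absurd h2 (by simp [lab])
    · exact absurd h1 (by simp [lab])
  · obtain ⟨h1, h2⟩ := d.gl.in_iff.1 hη
    have h3 := d.GG_sec h1 (x := x) (by rw [h2]; exact hz) (t := t) fun y hy => h.sub.sub y (ht y hy)
    rw [h2] at h3
    exact congrFun h3 c

end Crest.Agent.N222.C
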