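import Mathlib
import Crest.Prelude.Def_ClassifyingComplex

/-!
# Row 222, part C (helper25): definitions and interface

* tuple cochains `cob`, `alt`, twisted invariance `Tw`, local exactness `LE`;
* `Cov S` : the universal covering with its deck group; `Cls C n` : a twisted cocycle which is not
  locally exact;
* labels `Lb Γ ι`, regions `reg F y`; parameter spaces `Par Γ κ` (étale over `ℝ^κ`);
* `Res` : the output of part C (parameter space, domain, map `G`, essentiality).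
-/

set_option autoImplicit false

open Set Filter Topology

noncomputable section

namespace Crest.Agent.N222.C

/-! ### tuple cochains -/

/-- coboundary of a function on `k`-tuples -/
def cob {Y : Type} {k : ℕ} (f : (Fin k → Y) → ℝ) : (Fin (k + 1) → Y) → ℝ :=
  fun y => ∑ i : Fin (k + 1), (-1 : ℝ) ^ (i : ℕ) * f (fun j => y (i.succAbove j))

/-- antisymmetrisation (not normalised) -/
def alt {Y : Type} {k : ℕ} (f : (Fin k → Y) → ℝ) : (Fin k → Y) → ℝ :=
  fun y => ∑ ρ : Equiv.Perm (Fin k), ((Equiv.Perm.sign ρ : ℤ) : ℝ) * f (fun i => y (ρ i))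

/-- the sign given by a character -/
def sg {Γ : Type} [Group Γ] (χ : Γ →* ℤˣ) (g : Γ) : ℝ := ((χ g : ℤ) : ℝ)

/-- twisted invariance -/
def Tw {Γ Y : Type} [Group Γ] [MulAction Γ Y] (χ : Γ →* ℤˣ) {k : ℕ} (f : (Fin k → Y) → ℝ) : Prop :=
  ∀ (g : Γ) (y : Fin k → Y), f (fun i => g • y i) = sg χ g * f y

/-- `a` is, near the diagonal, the coboundary of a twisted invariant cochain -/
def LE {Γ Y : Type} [Group Γ] [MulAction Γ Y] [TopologicalSpace Y] (χ : Γ →* ℤˣ) {k : ℕ}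
    (a : (Fin (k + 1) → Y) → ℝ) : Prop :=
  ∃ γ : (Fin k → Y) → ℝ, Tw χ γ ∧
    ∀ x₀ : Y, ∃ W ∈ 𝓝 x₀, ∀ x : Fin (k + 1) → Y, (∀ i, x i ∈ W) → a x = cob γ x

/-! ### the universal covering -/

/-- a simply connected Galois covering -/
structure Cov (S : Type) [TopologicalSpace S] where
  T : Type
  Γ : Type
  [top : TopologicalSpace T]
  [grp : Group Γ]
  [act : MulAction Γ T]
  p : T → S
  qc : IsQuotientCoveringMap p Γ
  sc : SimplyConnectedSpace T
  cnt : Countable Γ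

attribute [instance] Cov.top Cov.grp Cov.act

/-- a twisted cocycle of degree `n` on the tuples of the covering which is not locally exact -/
structure Cls {S : Type} [TopologicalSpace S] (C : Cov S) (n : ℕ) where
  χ : C.Γ →* ℤˣ
  a : (Fin (n + 1) → C.T) → ℝ
  tw : Tw χ a
  coc : cob a = 0
  nle : ¬ LE χ a

/-! ### labels -/

/-- labels: a free `Γ`-set with orbit set `ι` -/
@[ext] structure Lb (Γ ι : Type) where
  g : Γ
  i : ι

instance {Γ ι : Type} [Group Γ] : MulAction Γ (Lb Γ ι) where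
  smul h y := ⟨h * y.g, y.i⟩
  one_smul y := by cases y; exact congrArg₂ Lb.mk (one_mul _) rfl
  mul_smul a b y := by cases y; exact congrArg₂ Lb.mk (mul_assoc _ _ _) rfl

@[simp] theorem Lb.smul_g {Γ ι : Type} [Group Γ] (h : Γ) (y : Lb Γ ι) : (h • y).g = h * y.g := rfl

@[simp] theorem Lb.smul_i {Γ ι : Type} [Group Γ] (h : Γ) (y : Lb Γ ι) : (h • y).i = y.i := rfl

/-- the region of the label `y = (g, i)` is `g • F i` -/
def reg {Γ ι T : Type} [Group Γ] [MulAction Γ T] (F : ι → Set T) (y : Lb Γ ι) : Set T :=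
  {x | y.g⁻¹ • x ∈ F y.i}

/-- `t` is a probability vector on the labels whose region contains `x` -/
structure Prob {L T : Type} (R : L → Set T) (x : T) (t : L → ℝ) : Prop where
  nn : ∀ y, 0 ≤ t y
  supp : ∀ y, t y ≠ 0 → x ∈ R y
  sum : ∑ᶠ y, t y = 1

/-! ### parameter spaces -/

/-- A parameter space: a free `Γ`-space with an invariant étale map `π` to `ℝ^κ`, finitely many
wandering charts modulo `Γ` and a smooth partition of unity. -/
structure Par (Γ : Type) [Group Γ] (κ : Type) [Fintype κ] where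
  Y : Type
  [top : TopologicalSpace Y]
  [act : MulAction Γ Y]
  cont : ContinuousConstSMul Γ Y
  t2 : T2Space Y
  π : Y → κ → ℝ
  π_smul : ∀ (g : Γ) (η : Y), π (g • η) = π η
  W : Type
  [fin : Fintype W]
  ch : W → OpenPartialHomeomorph Y (κ → ℝ)
  ch_eq : ∀ w η, ch w η = π η
  disj : ∀ w (g : Γ) η, η ∈ (ch w).source → g • η ∈ (ch w).source → g = 1
  t : W → (κ → ℝ) → ℝ
  t_smooth : ∀ w, ContDiff ℝ (⊤ : ℕ∞) (t w)
  t_nn : ∀ w ξ, 0 ≤ t w ξ
  t_supp : ∀ w η, π η ∈ tsupport (t w) → π η ∈ (ch w).target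
  t_sum : ∀ η, ∑ w, {ζ : Y | ∃ g : Γ, g • ζ ∈ (ch w).source}.indicator (fun ζ => t w (π ζ)) η = 1
  /-- the weights cut off by the saturated charts are smooth -/
  cls : ∀ w, IsClosed {ζ : Y | (∃ g : Γ, g • ζ ∈ (ch w).source) ∧ π ζ ∈ tsupport (t w)}
  /-- the action is proper -/
  prop : ∀ A B : Set Y, IsCompact A → IsCompact B → {g : Γ | ∃ η ∈ A, g • η ∈ B}.Finite

attribute [instance] Par.top Par.act Par.fin

/-- `Γ`-invariant set -/
def Inv (Γ : Type) {X : Type} [Group Γ] [MulAction Γ X] (Ω : Set X) : Prop :=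
  ∀ (g : Γ), ∀ z ∈ Ω, g • z ∈ Ω

/-- the saturation `Γ · Q` -/
def sat (Γ : Type) {X : Type} [Group Γ] [MulAction Γ X] (Q : Set X) : Set X :=
  {z | ∃ g : Γ, g • z ∈ Q}

/-- `f` is `C²` in the parameter on `Ω` -/
def C2 {Γ κ T V : Type} [Group Γ] [Fintype κ] [NormedAddCommGroup V] [NormedSpace ℝ V]
    (Y : Par Γ κ) (Ω : Set (T × Y.Y)) (f : T × Y.Y → V) : Prop :=
  ∀ x w, ContDiffOn ℝ 2 (fun ξ => f (x, (Y.ch w).symm ξ))
    {ξ | ξ ∈ (Y.ch w).target ∧ (x, (Y.ch w).symm ξ) ∈ Ω}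

/-- The output of part C for the regions `F`. -/
structure Res {S : Type} [TopologicalSpace S] (C : Cov S) (n : ℕ) {ι : Type} (F : ι → Set C.T) where
  κ : Type
  τ : Type
  [fκ : Fintype κ]
  [fτ : Fintype τ]
  card : Fintype.card τ = n + Fintype.card κ
  Y : Par C.Γ κ
  cntY : SecondCountableTopology Y.Y
  /-- the domain -/
  Z : Set (C.T × Y.Y)
  Z_open : IsOpen Z
  Z_inv : Inv C.Γ Z
  /-- the compact core -/
  Q : Set (C.T × Y.Y)
  Q_cpt : IsCompact Q
  Q_sub : Q ⊆ Z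
  /-- the map -/
  G : (Lb C.Γ ι → ℝ) → Y.Y → τ → ℝ
  G_eqv : ∀ (g : C.Γ) t η, G (fun y => t (g⁻¹ • y)) (g • η) = G t η
  M : ℝ
  /-- in a chart `G` is `M` times an injective colouring of `t` plus a smooth function of `π η` -/
  G_loc : ∀ w, ∃ (lab : τ → Option (Lb C.Γ ι)) (f : (κ → ℝ) → τ → ℝ), ContDiff ℝ (⊤ : ℕ∞) f ∧
    (∀ c c' y, lab c = some y → lab c' = some y → c = c') ∧
    ∀ x η t, (x, η) ∈ Z → η ∈ (Y.ch w).source → (∀ y, t y ≠ 0 → x ∈ reg F y) →
      ∀ c, G t η c = M * (lab c).elim 0 t + f (Y.π η) c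
  /-- properness -/
  G_prop : ∀ x η t, (x, η) ∈ Z → Prob (reg F) x t → ‖G t η‖ ≤ 1 → (x, η) ∈ sat C.Γ Q
  /-- essentiality: an invariant continuous map which, off a cocompact set, takes values of `G` has
  a zero -/
  ess : ∀ (Ω : Set (C.T × Y.Y)), IsOpen Ω → Inv C.Γ Ω → Q ⊆ Ω → Ω ⊆ Z →
    ∀ b : C.T × Y.Y → τ → ℝ, (∀ (g : C.Γ), ∀ z ∈ Ω, b (g • z) = b z) → ContinuousOn b Ω →
      ∀ Q' : Set (C.T × Y.Y), IsCompact Q' → Q' ⊆ Ω →
        (∀ z ∈ Ω, z ∉ sat C.Γ Q' → ∃ t, Prob (reg F) z.1 t ∧ b z = G t z.2) → ∃ z ∈ Ω, b z = 0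

attribute [instance] Res.fκ Res.fτ

/-- **C-core** -/
def CoreStmt : Prop :=
  ∀ (S : Type) [TopologicalSpace S] [T2Space S] [CompactSpace S] [LocallyCompactSpace S]
    (C : Cov S) (n : ℕ), 1 ≤ n → Cls C n → ∀ (ι : Type) [Fintype ι] (F : ι → Set C.T),
    (∀ i, IsCompact (F i)) → (∀ x, ∃ y : Lb C.Γ ι, x ∈ reg F y) → Nonempty (Res C n F)

/-- **existence of the universal covering** -/
def CovStmt : Prop :=
  ∀ (n : ℕ) (S : Type) [MetricSpace S] [CompactSpace S] [ConnectedSpace S]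
    [ChartedSpace (EuclideanSpace ℝ (Fin n)) S], Nonempty (Cov S)

/-- **C1**: a map to an aspherical space which is non zero on `H_n(-; ℚ)` gives a class -/
def SingStmt : Prop :=
  ∀ (n : ℕ) (S : Type) [TopologicalSpace S] [ChartedSpace (EuclideanSpace ℝ (Fin n)) S]
    (C : Cov S) (X : Type) [TopologicalSpace X], Crest.Topology.HasContractibleCover X →
    ∀ c : C(S, X), 1 ≤ n →
    ((AlgebraicTopology.singularHomologyFunctor (ModuleCat.{0} ℚ) n).obj (ModuleCat.of ℚ ℚ)).map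
        (TopCat.ofHom c) ≠ 0 → Nonempty (Cls C n)

open scoped Manifold ContDiff in
/-- **C1'**: a closed aspherical manifold carries a class -/
def AsphStmt : Prop :=
  ∀ (n : ℕ) (S : Type) [TopologicalSpace S] [T2Space S] [CompactSpace S]
    [ChartedSpace (EuclideanSpace ℝ (Fin n)) S] [IsManifold (𝓡 n) ∞ S] (C : Cov S), 1 ≤ n →
    (∀ k : ℕ, 2 ≤ k → ∀ x : S, Subsingleton (HomotopyGroup (Fin k) S x)) → Nonempty (Cls C n)

end Crest.Agent.N222.C
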