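import Crest.Agent.N222.C.Defs

/-!
# Row 222, part C: the parametrisation of the simplex by the cube (real polynomial version)
-/

set_option autoImplicit false

open Set Filter Topology

noncomputable section

namespace Crest.Agent.N222.C

/-- barycentric weights `1 - s₀, s₀ (1 - s₁), …, s₀ ⋯ s_{p-1}` -/
def wt : ∀ {p : ℕ}, (Fin p → ℝ) → Fin (p + 1) → ℝ
  | 0, _ => fun _ => 1
  | _ + 1, s => Fin.cons (1 - s 0) (fun i => s 0 * wt (fun j => s j.succ) i)

theorem wt_base (s : Fin 0 → ℝ) (i : Fin 1) : wt s i = 1 := rfl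

theorem wt_zero {p : ℕ} (s : Fin (p + 1) → ℝ) : wt s 0 = 1 - s 0 := rfl

theorem wt_succ {p : ℕ} (s : Fin (p + 1) → ℝ) (i : Fin (p + 1)) :
    wt s i.succ = s 0 * wt (fun j => s j.succ) i := rfl

theorem wt_cons {p : ℕ} (a : ℝ) (z : Fin p → ℝ) :
    wt (Fin.cons a z : Fin (p + 1) → ℝ) =
      (Fin.cons (1 - a) (fun i => a * wt z i) : Fin (p + 2) → ℝ) := rfl

theorem insertNth_zero_mul {p : ℕ} (i : Fin (p + 1)) (a : ℝ) (b : Fin p → ℝ) :
    (Fin.insertNth i (0 : ℝ) (fun l => a * b l) : Fin (p + 1) → ℝ) =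
      fun l => a * (Fin.insertNth i (0 : ℝ) b : Fin (p + 1) → ℝ) l := by
  funext l
  cases l using Fin.succAboveCases i with
  | x => simp
  | p l => simp

theorem wt_sum {p : ℕ} (s : Fin p → ℝ) : ∑ i, wt s i = 1 := by
  induction p with
  | zero => simp [wt_base]
  | succ k ih =>
    rw [Fin.sum_univ_succ, wt_zero]
    simp only [wt_succ]
    rw [← Finset.mul_sum, ih]
    ring

theorem wt_nonneg {p : ℕ} {s : Fin p → ℝ} (h0 : ∀ j, 0 ≤ s j) (h1 : ∀ j, s j ≤ 1) (i : Fin (p + 1)) :
    0 ≤ wt s i := by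
  induction p with
  | zero => exact zero_le_one
  | succ k ih =>
    refine Fin.cases ?_ (fun j => ?_) i
    · rw [wt_zero]; linarith [h1 0]
    · rw [wt_succ]; exact mul_nonneg (h0 0) (ih (fun j => h0 _) (fun j => h1 _) _)

theorem contDiff_wt {p : ℕ} (i : Fin (p + 1)) : ContDiff ℝ (⊤ : ℕ∞) (fun s : Fin p → ℝ => wt s i) := by
  induction p with
  | zero => exact contDiff_const
  | succ k ih =>
    refine Fin.cases ?_ (fun j => ?_) i
    · simp only [wt_zero]; fun_prop
    · simp only [wt_succ]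
      have ht : ContDiff ℝ (⊤ : ℕ∞) (fun (s : Fin (k + 1) → ℝ) (l : Fin k) => s l.succ) := by
        fun_prop
      exact ContDiff.mul (by fun_prop) ((ih j).comp ht)

/-- the face `s_j = 1` is the face opposite to the vertex `j` -/
theorem wt_ins_one {p : ℕ} (j : Fin (p + 1)) (z : Fin p → ℝ) :
    wt (Fin.insertNth j (1 : ℝ) z : Fin (p + 1) → ℝ) =
      (Fin.insertNth j.castSucc (0 : ℝ) (wt z) : Fin (p + 2) → ℝ) := by
  induction p with
  | zero =>
    have hj : j = 0 := Fin.ext (by omega)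
    subst hj
    rw [Fin.castSucc_zero, Fin.insertNth_zero', Fin.insertNth_zero', wt_cons]
    simp
  | succ k ih =>
    refine Fin.cases ?_ (fun j' => ?_) j
    · rw [Fin.castSucc_zero, Fin.insertNth_zero', Fin.insertNth_zero', wt_cons]
      simp
    · obtain ⟨a, t, rfl⟩ : ∃ (a : ℝ) (t : Fin k → ℝ), z = Fin.cons a t :=
        ⟨z 0, Fin.tail z, (Fin.cons_self_tail z).symm⟩
      rw [Fin.castSucc_succ, Fin.insertNth_succ_cons, wt_cons, wt_cons, Fin.insertNth_succ_cons,
        ih, insertNth_zero_mul]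

/-- the face `s_last = 0` is the face opposite to the last vertex -/
theorem wt_ins_zero_last {p : ℕ} (z : Fin p → ℝ) :
    wt (Fin.insertNth (Fin.last p) (0 : ℝ) z : Fin (p + 1) → ℝ) =
      (Fin.insertNth (Fin.last (p + 1)) (0 : ℝ) (wt z) : Fin (p + 2) → ℝ) := by
  induction p with
  | zero =>
    funext l
    cases l using Fin.succAboveCases (Fin.last 1) with
    | x =>
      rw [Fin.insertNth_apply_same, ← Fin.succ_last, wt_succ]
      have : (Fin.insertNth (Fin.last 0) (0 : ℝ) z : Fin 1 → ℝ) 0 = 0 :=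
        Fin.insertNth_apply_same (α := fun _ => ℝ) (Fin.last 0) 0 z
      rw [this, zero_mul]
    | p l =>
      have hl : l = 0 := Fin.ext (by omega)
      subst hl
      rw [Fin.insertNth_apply_succAbove, Fin.succAbove_last, Fin.castSucc_zero, wt_zero, wt_base]
      have : (Fin.insertNth (Fin.last 0) (0 : ℝ) z : Fin 1 → ℝ) 0 = 0 :=
        Fin.insertNth_apply_same (α := fun _ => ℝ) (Fin.last 0) 0 z
      rw [this, sub_zero]
  | succ k ih =>
    obtain ⟨a, t, rfl⟩ : ∃ (a : ℝ) (t : Fin k → ℝ), z = Fin.cons a t :=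
      ⟨z 0, Fin.tail z, (Fin.cons_self_tail z).symm⟩
    rw [← Fin.succ_last (k + 1), ← Fin.succ_last k, Fin.insertNth_succ_cons, wt_cons, wt_cons,
      Fin.insertNth_succ_cons, ih, Fin.succ_last k, insertNth_zero_mul]

/-- the other faces `s_j = 0` are degenerate: they do not depend on the coordinate `j` of `z` -/
theorem wt_ins_zero_update {p : ℕ} (j : Fin p) (z : Fin p → ℝ) (c : ℝ) :
    wt (Fin.insertNth j.castSucc (0 : ℝ) (Function.update z j c) : Fin (p + 1) → ℝ) =
      wt (Fin.insertNth j.castSucc (0 : ℝ) z : Fin (p + 1) → ℝ) := by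
  induction p with
  | zero => exact j.elim0
  | succ k ih =>
    refine Fin.cases ?_ (fun j' => ?_) j
    · rw [Fin.castSucc_zero, Fin.insertNth_zero', Fin.insertNth_zero', wt_cons, wt_cons]
      simp
    · obtain ⟨a, t, rfl⟩ : ∃ (a : ℝ) (t : Fin k → ℝ), z = Fin.cons a t :=
        ⟨z 0, Fin.tail z, (Fin.cons_self_tail z).symm⟩
      rw [← Fin.cons_update (α := fun _ => ℝ), Fin.castSucc_succ, Fin.insertNth_succ_cons,
        Fin.insertNth_succ_cons, wt_cons, wt_cons, ih]

/-- weighted sums over a face -/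
theorem sum_insertNth_smul {p : ℕ} {V : Type} [AddCommGroup V] [Module ℝ V] (i : Fin (p + 2))
    (b : Fin (p + 1) → ℝ) (v : Fin (p + 2) → V) :
    ∑ l, (Fin.insertNth i (0 : ℝ) b : Fin (p + 2) → ℝ) l • v l = ∑ l, b l • v (i.succAbove l) := by
  rw [Fin.sum_univ_succAbove _ i]
  simp

/-- the differential is injective on the open cube -/
theorem wt_inj_fderiv {p : ℕ} {s : Fin p → ℝ} (h0 : ∀ j, 0 < s j) (v : Fin p → ℝ)
    (hv : ∀ i, fderiv ℝ (fun z : Fin p → ℝ => wt z i) s v = 0) : v = 0 := by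
  induction p with
  | zero => exact Subsingleton.elim _ _
  | succ k ih =>
    have hp : HasFDerivAt (fun z : Fin (k + 1) → ℝ => z 0)
        (ContinuousLinearMap.proj (R := ℝ) (φ := fun _ : Fin (k + 1) => ℝ) 0) s :=
      (ContinuousLinearMap.proj (R := ℝ) (φ := fun _ : Fin (k + 1) => ℝ) 0).hasFDerivAt
    have hv0 : v 0 = 0 := by
      have h := hv 0
      simp only [wt_zero] at h
      rw [(hp.const_sub 1).fderiv] at h
      simpa using h
    let T : (Fin (k + 1) → ℝ) →L[ℝ] (Fin k → ℝ) :=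
      ContinuousLinearMap.pi fun l => ContinuousLinearMap.proj l.succ
    have hT : ∀ z : Fin (k + 1) → ℝ, T z = fun l => z l.succ := fun _ => rfl
    have ht : (fun l : Fin k => v l.succ) = 0 := by
      refine ih (s := fun l => s l.succ) (fun l => h0 _) _ fun i => ?_
      have hd : HasFDerivAt (fun z : Fin k → ℝ => wt z i)
          (fderiv ℝ (fun z : Fin k → ℝ => wt z i) (T s)) (T s) :=
        ((contDiff_wt i).differentiable (by simp) _).hasFDerivAt
      have hc : HasFDerivAt (fun z : Fin (k + 1) → ℝ => wt (fun l => z l.succ) i)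
          ((fderiv ℝ (fun z : Fin k → ℝ => wt z i) (T s)).comp T) s := hd.comp s T.hasFDerivAt
      have h := hv i.succ
      simp only [wt_succ] at h
      rw [(hp.fun_mul hc).fderiv] at h
      simp only [add_apply, smul_apply,
        ContinuousLinearMap.comp_apply, ContinuousLinearMap.proj_apply, hv0, smul_eq_mul, mul_zero,
        add_zero, hT] at h
      exact (mul_eq_zero.1 h).resolve_left (h0 0).ne'
    funext i
    refine Fin.cases hv0 (fun j => ?_) i
    exact congrFun ht j

/-- the barycentre is attained in the open cube -/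
theorem exists_wt_bary (p : ℕ) :
    ∃ s : Fin p → ℝ, (∀ j, 0 < s j ∧ s j < 1) ∧ ∀ i, wt s i = 1 / ((p : ℝ) + 1) := by
  induction p with
  | zero => exact ⟨fun _ => 0, fun j => j.elim0, fun i => by simp [wt_base]⟩
  | succ k ih =>
    obtain ⟨t, ht, hw⟩ := ih
    have hk : (0 : ℝ) < (k : ℝ) + 1 := by positivity
    have hk2 : (0 : ℝ) < (k : ℝ) + 1 + 1 := by positivity
    refine ⟨Fin.cons (((k : ℝ) + 1) / ((k : ℝ) + 1 + 1)) t, fun j => ?_, fun i => ?_⟩
    · refine Fin.cases ?_ (fun l => ?_) j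
      · rw [Fin.cons_zero]
        exact ⟨by positivity, by rw [div_lt_one hk2]; linarith⟩
      · rw [Fin.cons_succ]; exact ht l
    · rw [wt_cons]
      refine Fin.cases ?_ (fun l => ?_) i
      · rw [Fin.cons_zero]; push_cast; field_simp; ring
      · rw [Fin.cons_succ, hw]; push_cast; field_simp

end Crest.Agent.N222.C
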