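import Crest.Agent.N222.C.Cell
import Crest.Agent.N222.C.Wt
import Crest.Agent.N222.C.Alg

/-!
# Row 222, part C: the cochain of a field and its homotopy invariance

`II H x = ∫ w(F) det DF`, `F (s, p) = ∑ wt s i • H (x i, p)`.
Proof of `hom`: `cell_stokes` for `Φ c p = ∑ wt (tail c) i • ((1 - c 0) • H₀ (x i, p) + c 0 • H₁ (x i, p))`
on `DD Ω x`; faces `c 0 = 1, 0` give `II H₁ x - II H₀ x`; the faces `c (succ j) = 1` and
`c (succ last) = 0` give `JH (x ∘ succAbove i)` (`wt_ins_one`, `wt_ins_zero_last`,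
`sum_insertNth_smul`, `CI_dom`), the other faces are degenerate (`wt_ins_zero_update`).
-/

set_option autoImplicit false

open Set Filter Topology

noncomputable section

namespace Crest.Agent.N222.C

namespace Gl

variable {k r n : ℕ} {Γ V T : Type} [Group Γ] [MulAction Γ V] [MulAction Γ T] (G : Gl Γ V k)
  (eκ : Fin r ≃ KK k)

/-- the common domain of a tuple -/
def DD (Ω : Set (T × G.YY)) {p : ℕ} (x : Fin p → T) : Set G.YY := {η | ∀ i, (x i, η) ∈ Ω}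

/-- the cochain of a field -/
def II (s : V → ℝ) (w : (Fin (r + n) → ℝ) → ℝ) (L : ℝ) (Ω : Set (T × G.YY))
    (H : T × G.YY → Fin (r + n) → ℝ) (x : Fin (n + 1) → T) : ℝ :=
  G.CI eκ s w L (G.DD Ω x) fun c η => ∑ i, wt c i • H (x i, η)

/-- the cochain of a linear homotopy -/
def JH (s : V → ℝ) (w : (Fin (r + (n + 1)) → ℝ) → ℝ) (L : ℝ) (Ω : Set (T × G.YY))
    (H₀ H₁ : T × G.YY → Fin (r + (n + 1)) → ℝ) (x : Fin (n + 1) → T) : ℝ :=
  G.CI eκ s w L (G.DD Ω x) fun c η =>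
    ∑ i, wt (Fin.tail c) i • ((1 - c 0) • H₀ (x i, η) + c 0 • H₁ (x i, η))

/-- standing hypotheses on signs and domain -/
structure Set0 [TopologicalSpace T] (χ : Γ →* ℤˣ) (s : V → ℝ) (Ω : Set (T × G.YY)) : Prop where
  sg : ∀ (γ : Γ) v, s (γ • v) = sg χ γ * s v
  op : IsOpen Ω
  inv : Inv Γ Ω
  fin : ∀ x, {v | ∃ g η, η ∈ Ug g ∧ (x, G.sec g v η) ∈ Ω}.Finite
  wall : ∀ x g v η I, η ∈ Ug g → η (some I) = 0 → (x, G.sec g v η) ∈ Ω → s (G.Φ I v) = -s v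

/-- an invariant field which is `C²` in the parameter -/
structure Fld {E : Type} [NormedAddCommGroup E] [NormedSpace ℝ E] (Ω : Set (T × G.YY))
    (H : T × G.YY → E) : Prop where
  inv : ∀ (γ : Γ), ∀ z ∈ Ω, H (γ • z) = H z
  cc : G.CC Ω H

/-- the support condition over `W` -/
def SC {E : Type} [AddCommGroup E] [Module ℝ E] (w : E → ℝ) (L : ℝ) (Ω : Set (T × G.YY))
    (H₀ H₁ : T × G.YY → E) (W : Set T) : Prop :=
  ∃ K : Set G.YY, IsCompact K ∧ (∀ p ∈ K, ‖p.1.2‖ < L) ∧ (∀ x ∈ W, ∀ p ∈ K, (x, p) ∈ Ω) ∧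
    ∀ p, p ∉ K → ∃ C : Set E, Convex ℝ C ∧ (∀ t ∈ C, w t = 0) ∧
      ∀ x ∈ W, (x, p) ∈ Ω → H₀ (x, p) ∈ C ∧ H₁ (x, p) ∈ C

variable {G eκ} [TopologicalSpace T] {χ : Γ →* ℤˣ} {s : V → ℝ} {Ω : Set (T × G.YY)}

omit [MulAction Γ T] in
theorem isOpen_DD (h : IsOpen Ω) {p : ℕ} (x : Fin p → T) : IsOpen (G.DD Ω x) := by
  rw [DD, ofPred_forall]
  exact isOpen_iInter_of_finite fun i => h.preimage (Continuous.prodMk_right (x i))

theorem Set0.dom (h : G.Set0 χ s Ω) {p : ℕ} (x : Fin (p + 1) → T) : G.Dom s (G.DD Ω x) := by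
  refine ⟨isOpen_DD h.op x, (h.fin (x 0)).subset ?_, fun g v η I hη h0 hD => ?_⟩
  · rintro v ⟨g, η, hη, hD⟩
    exact ⟨g, η, hη, hD 0⟩
  · exact h.wall (x 0) g v η I hη h0 (hD 0)

theorem tw_JH (h : G.Set0 χ s Ω) (w : (Fin (r + (n + 1)) → ℝ) → ℝ) (L : ℝ)
    {H₀ H₁ : T × G.YY → Fin (r + (n + 1)) → ℝ} (h₀ : G.Fld Ω H₀) (h₁ : G.Fld Ω H₁) :
    Tw χ (G.JH eκ s w L Ω H₀ H₁) := by
  intro γ y
  refine CI_smul (D' := G.DD Ω fun i => γ • y i) (h.sg γ) w L (isOpen_DD h.op y)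
    (fun p => ⟨fun hp i => ?_, fun hp i => ?_⟩) fun c p hp => ?_
  · have := h.inv γ⁻¹ _ (hp i)
    simpa using this
  · exact h.inv γ _ (hp i)
  · refine Finset.sum_congr rfl fun i _ => ?_
    rw [← h₀.inv γ _ (hp i), ← h₁.inv γ _ (hp i)]
    rfl

/-- convex combinations along the homotopy -/
theorem comb_mem {E : Type} [AddCommGroup E] [Module ℝ E] {C : Set E} (hC : Convex ℝ C) {m : ℕ}
    {c : Fin (m + 1) → ℝ} (hc : c ∈ Icc (0 : Fin (m + 1) → ℝ) 1) {a b : Fin (m + 1) → E}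
    (ha : ∀ i, a i ∈ C) (hb : ∀ i, b i ∈ C) :
    ∑ i, wt (Fin.tail c) i • ((1 - c 0) • a i + c 0 • b i) ∈ C := by
  refine hC.sum_mem (fun i _ => wt_nonneg (fun j => hc.1 j.succ) (fun j => hc.2 j.succ) i)
    (wt_sum _) fun i _ => ?_
  exact hC (ha i) (hb i) (sub_nonneg.2 (hc.2 0)) (hc.1 0) (sub_add_cancel _ _)

theorem ins_succ {m : ℕ} (j : Fin (m + 1)) (c : ℝ) (z : Fin (m + 1) → ℝ) :
    ins j.succ c z = (Fin.cons (z 0) (Fin.insertNth j c (Fin.tail z)) : Fin (m + 2) → ℝ) := by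
  conv_lhs => rw [← Fin.cons_self_tail z]
  rw [ins, Fin.insertNth_succ_cons]

/-- **homotopy invariance** -/
theorem hom (h : G.Set0 χ s Ω) {w : (Fin (r + (n + 1)) → ℝ) → ℝ} (hw : ContDiff ℝ 1 w) {L : ℝ}
    (hL : 0 ≤ L) {H₀ H₁ : T × G.YY → Fin (r + (n + 1)) → ℝ} (h₀ : G.Fld Ω H₀) (h₁ : G.Fld Ω H₁)
    {W : Set T} (hW : G.SC w L Ω H₀ H₁ W) {x : Fin (n + 2) → T} (hx : ∀ i, x i ∈ W) :
    G.II eκ s w L Ω H₁ x - G.II eκ s w L Ω H₀ x = cob (G.JH eκ s w L Ω H₀ H₁) x := by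
  obtain ⟨K, hK, hKL, hKΩ, hC⟩ := hW
  set Φ : (Fin (n + 2) → ℝ) → G.YY → Fin (r + (n + 1)) → ℝ := fun c η =>
    ∑ i, wt (Fin.tail c) i • ((1 - c 0) • H₀ (x i, η) + c 0 • H₁ (x i, η)) with hΦ
  have hsm : G.Sm2 (G.DD Ω x) Φ := by
    intro g v
    refine ContDiffOn.sum fun i _ => ?_
    have ht : ContDiff ℝ 2 (fun z : (Fin (n + 2) → ℝ) × (KK k → ℝ) => Fin.tail z.1) := by
      unfold Fin.tail; fun_prop
    have hw1 : ContDiff ℝ 2 (fun z : (Fin (n + 2) → ℝ) × (KK k → ℝ) => wt (Fin.tail z.1) i) :=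
      ((contDiff_wt i).of_le (WithTop.coe_le_coe.2 (le_top : (2 : ℕ∞) ≤ ⊤))).comp ht
    have hc0 : ContDiff ℝ 2 (fun z : (Fin (n + 2) → ℝ) × (KK k → ℝ) => z.1 0) := by fun_prop
    have e0 : ContDiffOn ℝ 2 (fun z : (Fin (n + 2) → ℝ) × (KK k → ℝ) => H₀ (x i, G.sec g v z.2))
        {z | z.2 ∈ Ug g ∧ G.sec g v z.2 ∈ G.DD Ω x} :=
      (h₀.cc (x i) g v).comp contDiff_snd.contDiffOn fun z hz => ⟨hz.1, hz.2 i⟩
    have e1 : ContDiffOn ℝ 2 (fun z : (Fin (n + 2) → ℝ) × (KK k → ℝ) => H₁ (x i, G.sec g v z.2))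
        {z | z.2 ∈ Ug g ∧ G.sec g v z.2 ∈ G.DD Ω x} :=
      (h₁.cc (x i) g v).comp contDiff_snd.contDiffOn fun z hz => ⟨hz.1, hz.2 i⟩
    exact hw1.contDiffOn.smul
      (((contDiff_const.sub hc0).contDiffOn.smul e0).add (hc0.contDiffOn.smul e1))
  have hst := cell_stokes (eκ := eκ) hw hL (h.dom x) hsm hK (fun p hp i => hKΩ _ (hx i) p hp) hKL
    (fun c hc p hp hpK => by
      obtain ⟨C, hCc, hCw, hCH⟩ := hC p hpK
      exact hCw _ (comb_mem hCc hc (fun i => (hCH _ (hx i) (hp i)).1)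
        fun i => (hCH _ (hx i) (hp i)).2))
  -- faces opposite to a vertex
  have hface : ∀ i : Fin (n + 2), G.CI eκ s w L (G.DD Ω x) (fun (z : Fin (n + 1) → ℝ) η =>
      ∑ l, (Fin.insertNth i (0 : ℝ) (wt (Fin.tail z)) : Fin (n + 2) → ℝ) l •
        ((1 - z 0) • H₀ (x l, η) + z 0 • H₁ (x l, η))) =
      G.JH eκ s w L Ω H₀ H₁ fun j => x (i.succAbove j) := by
    intro i
    simp only [sum_insertNth_smul]
    refine CI_dom (D := G.DD Ω x) (D' := G.DD Ω fun j => x (i.succAbove j)) s w L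
      (fun p hp j => hp _) fun c hc p hp hne => ?_
    by_contra hpD
    by_cases hpK : p ∈ K
    · exact hpD fun j => hKΩ _ (hx j) p hpK
    · obtain ⟨C, hCc, hCw, hCH⟩ := hC p hpK
      exact hne (hCw _ (comb_mem hCc hc (fun j => (hCH _ (hx _) (hp j)).1)
        fun j => (hCH _ (hx _) (hp j)).2))
  have e1 : G.CI eκ s w L (G.DD Ω x) (fun z => Φ (ins 0 1 z)) = G.II eκ s w L Ω H₁ x := by
    simp [hΦ, II, ins]
  have e0 : G.CI eκ s w L (G.DD Ω x) (fun z => Φ (ins 0 0 z)) = G.II eκ s w L Ω H₀ x := by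
    simp [hΦ, II, ins]
  have f1 : ∀ j : Fin (n + 1), G.CI eκ s w L (G.DD Ω x) (fun z => Φ (ins j.succ 1 z)) =
      G.JH eκ s w L Ω H₀ H₁ fun l => x (j.castSucc.succAbove l) := by
    intro j
    rw [← hface]
    simp only [hΦ, ins_succ, Fin.tail_cons, Fin.cons_zero, wt_ins_one]
  have f0 : G.CI eκ s w L (G.DD Ω x) (fun z => Φ (ins (Fin.last n).succ 0 z)) =
      G.JH eκ s w L Ω H₀ H₁ fun l => x ((Fin.last (n + 1)).succAbove l) := by
    rw [← hface]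
    simp only [hΦ, ins_succ, Fin.tail_cons, Fin.cons_zero, wt_ins_zero_last]
  have fd : ∀ j : Fin n, G.CI eκ s w L (G.DD Ω x) (fun z => Φ (ins j.castSucc.succ 0 z)) = 0 := by
    intro j
    refine CI_eq_zero_of_update s w L _ j.succ fun c t p => ?_
    simp only [hΦ, ins_succ, Fin.tail_cons, Fin.cons_zero, Fin.tail_update_succ,
      wt_ins_zero_update, Function.update_of_ne (Fin.succ_ne_zero j).symm]
  rw [Fin.sum_univ_succ, e1, e0] at hst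
  simp only [f1, mul_sub, Finset.sum_sub_distrib] at hst
  rw [Fin.sum_univ_castSucc (fun j : Fin (n + 1) => (-1 : ℝ) ^ ((j.succ : Fin (n + 2)) : ℕ) *
    G.CI eκ s w L (G.DD Ω x) (fun z => Φ (ins j.succ 0 z))), f0] at hst
  simp only [fd, mul_zero, Finset.sum_const_zero, zero_add, Fin.val_zero, pow_zero, one_mul,
    Fin.val_succ, pow_succ, Fin.val_last, mul_neg, mul_one, neg_mul, Finset.sum_neg_distrib] at hst
  rw [cob, Fin.sum_univ_castSucc]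
  simp only [Fin.val_castSucc, Fin.val_last, pow_succ, mul_neg, mul_one, neg_mul]
  linarith

omit [MulAction Γ T] [TopologicalSpace T] in
theorem II_eq_zero (s : V → ℝ) {w : (Fin (r + n) → ℝ) → ℝ} (L : ℝ)
    {H : T × G.YY → Fin (r + n) → ℝ} {x : Fin (n + 1) → T}
    (h : ∀ p, ∃ C : Set (Fin (r + n) → ℝ), Convex ℝ C ∧ (∀ t ∈ C, w t = 0) ∧
      ((∀ i, (x i, p) ∈ Ω) → ∀ i, H (x i, p) ∈ C)) : G.II eκ s w L Ω H x = 0 := by
  refine CI_eq_zero s L fun c hc p hp => ?_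
  obtain ⟨C, hCc, hCw, hCH⟩ := h p
  exact hCw _ (hCc.sum_mem (fun i _ => wt_nonneg (fun j => hc.1 j) (fun j => hc.2 j) i)
    (wt_sum _) fun i _ => hCH hp i)

end Gl

end Crest.Agent.N222.C
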