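import Crest.Agent.N222.C.Poly

/-!
# Row 222, part C: surjectivity and infinitesimal injectivity on the open cell
-/

set_option autoImplicit false

open Set Filter Topology

noncomputable section

namespace Crest.Agent.N222.C

variable {k : ℕ}

namespace P2

theorem hasDerivAt_glue (x : ℝ) : HasDerivAt expNegInvGlue (x⁻¹ ^ 2 * expNegInvGlue x) x := by
  simpa using expNegInvGlue.hasDerivAt_polynomial_eval_inv_mul 1 x

theorem hasDerivAt_ph (x : ℝ) :
    HasDerivAt ph (expNegInvGlue x + x * (x⁻¹ ^ 2 * expNegInvGlue x)) x := by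
  have := (hasDerivAt_id' x).fun_mul (hasDerivAt_glue x)
  rwa [one_mul] at this

theorem ph_of_nonpos {x : ℝ} (hx : x ≤ 0) : ph x = 0 := by
  rw [ph, expNegInvGlue.zero_of_nonpos hx, mul_zero]

theorem ps_of_one_lt {s : ℝ} (hs : 1 < s) : ps s = ph (s - 1) := by
  rw [ps, ph_of_nonpos (x := -s - 1) (by linarith), add_zero]

theorem ps_pos {s : ℝ} (hs : 1 < s) : 0 < ps s := by
  rw [ps_of_one_lt hs]
  exact mul_pos (by linarith) (expNegInvGlue.pos_of_pos (by linarith))

theorem exists_deriv_ps {s : ℝ} (hs : 1 < s) : ∃ d, 0 < d ∧ HasDerivAt ps d s := by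
  have h0 : 0 < s - 1 := by linarith
  have := expNegInvGlue.pos_of_pos h0
  refine ⟨_, ?_, ((hasDerivAt_ph (s - 1)).comp_sub_const s 1).congr_of_eventuallyEq ?_⟩
  · positivity
  · filter_upwards [lt_mem_nhds hs] with t ht using ps_of_one_lt ht

theorem exists_ps {x : ℝ} (hx : 0 < x) : ∃ s, 1 < s ∧ ps s = x := by
  have h1 := expNegInvGlue.pos_of_pos one_pos
  have hc : Continuous ph := continuous_iff_continuousAt.2 fun t => (hasDerivAt_ph t).continuousAt
  obtain ⟨s, -, hs⟩ : x ∈ ph '' Icc 0 (max 1 (x / expNegInvGlue 1)) := by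
    refine intermediate_value_Icc (le_max_of_le_left zero_le_one) hc.continuousOn
      ⟨by rw [ph_of_nonpos le_rfl]; exact hx.le, ?_⟩
    calc x = x / expNegInvGlue 1 * expNegInvGlue 1 := by field_simp
      _ ≤ _ := mul_le_mul (le_max_right _ _) (expNegInvGlue.monotone (le_max_left _ _)) h1.le
        (le_max_of_le_left zero_le_one)
  have h0 : 0 < s := not_le.1 fun h => by rw [ph_of_nonpos h] at hs; exact hx.ne hs
  exact ⟨s + 1, by linarith, by rw [ps_of_one_lt (by linarith), add_sub_cancel_right, hs]⟩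

/-- the affine functions cutting out the polyhedron -/
def el (K : JJ k) (p : Fin k → ℝ) : ℝ := ∑ j ∈ K.1, p j + (K.1.card : ℝ) - (K.1.card : ℝ) ^ 2

theorem el_sing (j : Fin k) (p : Fin k → ℝ) : el (sing j) p = p j := by simp [el, sing]

theorem one_le_card (K : JJ k) : (1 : ℝ) ≤ K.1.card := by exact_mod_cast K.2.card_pos

/-- the entropy -/
def gg (x : ℝ) : ℝ := x * Real.log x - x

theorem gg_add_le {x s : ℝ} (hx : 0 ≤ x) (hs : 0 < s) :
    gg (x + s) - gg x ≤ s * Real.log (x + s) := by
  rcases hx.eq_or_lt with rfl | hx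
  · simp [gg, hs.le]
  · have h := Real.log_le_sub_one_of_pos (div_pos (add_pos hx hs) hx)
    rw [Real.log_div (add_pos hx hs).ne' hx.ne', add_div, div_self hx.ne', add_sub_cancel_left,
      le_div_iff₀ hx] at h
    simp only [gg]
    linarith

theorem le_gg {x c : ℝ} (hx : 0 ≤ x) (hc : 0 < c) : x * Real.log c - c ≤ gg x := by
  rcases hx.eq_or_lt with rfl | hx
  · simp [gg, hc.le]
  · have h := Real.log_le_sub_one_of_pos (div_pos hc hx)
    rw [Real.log_div hc.ne' hx.ne', le_sub_iff_add_le, le_div_iff₀ hx] at h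
    simp only [gg]
    linarith

/-- the convex function -/
def ff (a p : Fin k → ℝ) : ℝ := ∑ K : JJ k, gg (el K p) - ∑ j, Real.log (a j) * p j

theorem exists_min (a : Fin k → ℝ) (ha : ∀ j, 0 < a j) :
    ∃ p ∈ {p | ∀ K : JJ k, 0 ≤ el K p}, IsMinOn (ff a) {p | ∀ K : JJ k, 0 ≤ el K p} p := by
  have c1 : ∀ K : JJ k, Continuous (el K) := fun K => by unfold el; fun_prop
  have c2 : Continuous gg := Real.continuous_mul_log.sub continuous_id
  have c3 : Continuous (ff a) :=
    (continuous_finsetSum _ fun K _ => c2.comp (c1 K)).sub (by fun_prop)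
  have hcl : IsClosed {p | ∀ K : JJ k, 0 ≤ el K p} := by
    rw [ofPred_forall]
    exact isClosed_iInter fun K => isClosed_le continuous_const (c1 K)
  refine c3.continuousOn.exists_isMinOn' hcl (x₀ := fun _ => k) (fun K => ?_) ?_
  · have h1 : (K.1.card : ℝ) ≤ k := by exact_mod_cast K.1.card_le_univ.trans_eq (by simp)
    have := one_le_card K
    simp only [el, Finset.sum_const, nsmul_eq_mul]
    nlinarith
  · set B := ff a (fun _ => k) + Fintype.card (JJ k) + ∑ j, a j * Real.exp 1
    rw [eventually_inf_principal]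
    filter_upwards [(isCompact_closedBall (0 : Fin k → ℝ) |B|).compl_mem_cocompact] with p hp h
    have h0 : ∀ j, 0 ≤ p j := fun j => el_sing j p ▸ h (sing j)
    have h1 : ∑ j, (gg (p j) + 1) ≤ ∑ K : JJ k, (gg (el K p) + 1) := by
      have hi : Function.Injective (sing : Fin k → JJ k) := fun i j e =>
        Finset.singleton_injective (congrArg Subtype.val e)
      calc _ = ∑ K ∈ Finset.univ.map ⟨sing, hi⟩, (gg (el K p) + 1) := by
            simp [el_sing]
        _ ≤ _ := Finset.sum_le_sum_of_subset_of_nonneg (Finset.subset_univ _) fun K _ _ => by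
            have := le_gg (h K) one_pos
            rw [Real.log_one] at this
            linarith
    have h2 : ∑ j, (p j + Real.log (a j) * p j - a j * Real.exp 1) ≤ ∑ j, (gg (p j) + 1) :=
      Finset.sum_le_sum fun j _ => by
        have := le_gg (h0 j) (mul_pos (ha j) (Real.exp_pos 1))
        rw [Real.log_mul (ha j).ne' (Real.exp_pos 1).ne', Real.log_exp] at this
        linarith
    have h3 : |B| < ∑ j, p j := not_le.1 fun h3 => hp (by
      rw [mem_closedBall_zero_iff, pi_norm_le_iff_of_nonneg (abs_nonneg _)]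
      intro j
      rw [Real.norm_of_nonneg (h0 j)]
      exact (Finset.single_le_sum (fun j _ => h0 j) (Finset.mem_univ j)).trans h3)
    have h4 := h2.trans h1
    simp only [Finset.sum_add_distrib, Finset.sum_sub_distrib, Finset.sum_const, nsmul_eq_mul,
      mul_one, Finset.card_univ] at h4
    have h5 := le_abs_self B
    simp only [B] at h5 h3
    conv_rhs => rw [ff]
    linarith

theorem pos_of_min {a p : Fin k → ℝ} (hp : ∀ K : JJ k, 0 ≤ el K p)
    (h : IsMinOn (ff a) {p | ∀ K : JJ k, 0 ≤ el K p} p) (K₀ : JJ k) : 0 < el K₀ p := by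
  refine (hp K₀).lt_of_ne fun h0 => ?_
  set c := ∑ K : JJ k, K.1.card * Real.log (el K p + K.1.card)
  set A := ∑ j, Real.log (a j)
  obtain ⟨t, ht0, ht1, ht⟩ : ∃ t : ℝ, 0 < t ∧ t ≤ 1 ∧ Real.log t < A - c :=
    ⟨Real.exp (-|A - c| - 1), Real.exp_pos _,
      Real.exp_le_one_iff.2 (by linarith [abs_nonneg (A - c)]),
      by rw [Real.log_exp]; linarith [neg_abs_le (A - c)]⟩
  have e : ∀ K : JJ k, el K (fun j => p j + t) = el K p + t * K.1.card := fun K => by
    simp only [el, Finset.sum_add_distrib, Finset.sum_const, nsmul_eq_mul]; ring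
  have h1 : ff a p ≤ ff a fun j => p j + t := h fun K => by
    rw [e]; exact add_nonneg (hp K) (by positivity)
  have h2 : ∑ K : JJ k, (gg (el K p + t * K.1.card) - gg (el K p)) ≤
      ∑ K : JJ k, t * (K.1.card * Real.log (el K p + K.1.card) +
        if K = K₀ then Real.log t else 0) := Finset.sum_le_sum fun K _ => by
    have q := one_le_card K
    refine (gg_add_le (hp K) (by positivity)).trans ?_
    rw [mul_assoc]
    refine mul_le_mul_of_nonneg_left ?_ ht0.le
    split_ifs with hK
    · rw [hK, ← h0, zero_add, zero_add, Real.log_mul ht0.ne' (by linarith [one_le_card K₀])]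
      nlinarith [Real.log_nonpos ht0.le ht1, one_le_card K₀]
    · rw [add_zero]
      have := hp K
      gcongr
      nlinarith
  simp only [ff, e, mul_add, Finset.sum_add_distrib, ← Finset.sum_mul] at h1
  rw [← Finset.mul_sum, Finset.sum_add_distrib, Finset.sum_ite_eq', if_pos (Finset.mem_univ _),
    Finset.sum_sub_distrib] at h2
  nlinarith

theorem crit {a p : Fin k → ℝ} (hp : ∀ K : JJ k, 0 < el K p)
    (h : IsMinOn (ff a) {p | ∀ K : JJ k, 0 ≤ el K p} p) (j : Fin k) :
    ∑ K ∈ Finset.univ.filter (fun K : JJ k => j ∈ K.1), Real.log (el K p) = Real.log (a j) := by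
  have e : ∀ (K : JJ k) (t : ℝ), el K (p + t • Pi.single j 1) =
      el K p + t * if j ∈ K.1 then 1 else 0 := fun K t => by
    simp only [el, Pi.add_apply, Pi.smul_apply, Finset.sum_add_distrib, smul_eq_mul,
      ← Finset.mul_sum, Pi.single_apply, Finset.sum_ite_eq']
    ring
  have e2 : ∀ t : ℝ, ∑ i, Real.log (a i) * (p + t • (Pi.single j 1 : Fin k → ℝ)) i =
      ∑ i, Real.log (a i) * p i + t * Real.log (a j) := fun t => by
    simp [mul_add, Finset.sum_add_distrib, Pi.single_apply, mul_comm t]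
  have hl : IsLocalMin (fun t : ℝ => ff a (p + t • Pi.single j 1)) 0 := by
    have : ∀ᶠ t : ℝ in 𝓝 0, ∀ K : JJ k, 0 < el K (p + t • Pi.single j 1) :=
      eventually_all.2 fun K => by
        simp only [e]
        exact ContinuousAt.eventually_lt continuousAt_const (by fun_prop) (by simpa using hp K)
    filter_upwards [this] with t ht
    simpa using h fun K => (ht K).le
  have d : ∀ K : JJ k, HasDerivAt (fun t : ℝ => gg (el K p + t * if j ∈ K.1 then 1 else 0))
      (Real.log (el K p) * if j ∈ K.1 then 1 else 0) 0 := fun K => by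
    have d1 : HasDerivAt gg (Real.log (el K p)) (el K p + 0 * if j ∈ K.1 then 1 else 0) := by
      have := (Real.hasDerivAt_mul_log (hp K).ne').fun_sub (hasDerivAt_id' _)
      rw [add_sub_cancel_right] at this
      rwa [zero_mul, add_zero]
    have d2 : HasDerivAt (fun t : ℝ => el K p + t * if j ∈ K.1 then 1 else 0)
        (if j ∈ K.1 then 1 else 0) 0 := (hasDerivAt_mul_const _).const_add _
    exact d1.comp (0 : ℝ) d2
  have hd := (HasDerivAt.fun_sum fun K (_ : K ∈ Finset.univ) => d K).fun_sub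
    ((hasDerivAt_mul_const (x := 0) (Real.log (a j))).const_add (∑ i, Real.log (a i) * p i))
  simp only [ff, e, e2] at hl
  have := hl.hasDerivAt_eq_zero hd
  rw [Finset.sum_filter]
  simpa [sub_eq_zero] using this

theorem deriv_line {f : (KK k → ℝ) → ℝ} (hf : ContDiff ℝ (⊤ : ℕ∞) f) (η v : KK k → ℝ) :
    HasDerivAt (fun t : ℝ => f (η + t • v)) (fderiv ℝ f η v) 0 := by
  have h1 : HasDerivAt (fun t : ℝ => η + t • v) v 0 := by
    simpa using ((hasDerivAt_id (0 : ℝ)).smul_const v).const_add η
  have h2 : HasFDerivAt f (fderiv ℝ f η) (η + (0 : ℝ) • v) := by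
    simpa using (hf.differentiable (by simp) η).hasFDerivAt
  exact h2.comp_hasDerivAt 0 h1

end P2

open P2

/-- surjectivity (minimise `∑_K (ℓ_K log ℓ_K - ℓ_K) - ⟨log a, p⟩` on the polyhedron
`ℓ_K(p) = ∑_{j ∈ K} p_j + |K| - |K|² ≥ 0`) -/
theorem exists_aa (m : ℝ) (a : Fin k → ℝ) (ha : ∀ j, 0 < a j) :
    ∃ η : KK k → ℝ, η none = m ∧ (∀ K, 1 < η (some K)) ∧ (∀ K, ee η K = 0) ∧ aa η = a := by
  obtain ⟨p, hp, h⟩ := exists_min a ha
  have hpos := pos_of_min hp h
  choose y hy hy' using fun K : JJ k => exists_ps (hpos K)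
  refine ⟨fun o => o.elim m y, rfl, hy, fun K => ?_, funext fun j => ?_⟩
  · simp only [ee, qq, Option.elim_some, hy', el_sing]
    simp only [el, J2.toJJ]
    ring
  · simp only [aa, qq, Option.elim_some, hy']
    refine Real.log_injOn_pos (Finset.prod_pos fun K _ => hpos K) (ha j) ?_
    rw [Real.log_prod fun K _ => (hpos K).ne', crit hpos h j]

/-- the differential of `(a, e)` is injective on the open cell (`∑_K δq_K² / q_K = 0`) -/
theorem inj_fderiv {η : KK k → ℝ} (h : ∀ K, 1 < η (some K)) (v : KK k → ℝ)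
    (ha : ∀ j, fderiv ℝ (fun ξ : KK k → ℝ => aa ξ j) η v = 0)
    (he : ∀ K, fderiv ℝ (fun ξ : KK k → ℝ => ee ξ K) η v = 0) (K : JJ k) : v (some K) = 0 := by
  choose d hd hd' using fun K : JJ k => exists_deriv_ps (h K)
  have hq : ∀ K, 0 < qq η K := fun K => ps_pos (h K)
  have h1 : ∀ K, HasDerivAt (fun t : ℝ => qq (η + t • v) K) (d K * v (some K)) 0 := fun K => by
    have d1 : HasDerivAt ps (d K) (η (some K) + 0 * v (some K)) := by simpa using hd' K
    exact d1.comp 0 ((hasDerivAt_mul_const _).const_add _)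
  set δ : JJ k → ℝ := fun K => d K * v (some K)
  have h2 : ∀ j, ∑ K ∈ Finset.univ.filter (fun K : JJ k => j ∈ K.1), δ K / qq η K = 0 := fun j => by
    have e := (HasDerivAt.fun_finsetProd fun K
      (_ : K ∈ Finset.univ.filter fun K : JJ k => j ∈ K.1) => h1 K).unique
        (deriv_line (contDiff_aa j) η v)
    rw [ha j] at e
    have hj : 0 < aa η j := Finset.prod_pos fun K _ => hq K
    refine (mul_eq_zero.1 (Eq.trans ?_ e)).resolve_left hj.ne'
    rw [Finset.mul_sum]
    refine Finset.sum_congr rfl fun K hK => ?_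
    rw [aa, ← Finset.mul_prod_erase _ _ hK]
    have := (hq K).ne'
    simp only [zero_smul, add_zero, smul_eq_mul, δ]
    field_simp
  have h3 : ∀ K, δ K = ∑ j ∈ K.1, δ (sing j) := fun K => by
    by_cases hK : 2 ≤ K.1.card
    · have e := ((((h1 K).fun_sub (HasDerivAt.fun_sum fun j (_ : j ∈ K.1) => h1 (sing j))).sub_const
        (K.1.card : ℝ)).add_const ((K.1.card : ℝ) ^ 2)).unique
          (deriv_line (contDiff_ee ⟨K.1, hK⟩) η v)
      rw [he] at e
      exact sub_eq_zero.1 e
    · obtain ⟨j, hj⟩ := Finset.card_eq_one.1 (le_antisymm (by omega) K.2.card_pos)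
      rw [hj, Finset.sum_singleton, show K = sing j from Subtype.ext hj]
  have h4 : ∑ K, δ K ^ 2 / qq η K = 0 := by
    calc _ = ∑ K : JJ k, ∑ j, if j ∈ K.1 then δ (sing j) * (δ K / qq η K) else 0 :=
          Finset.sum_congr rfl fun K _ => by
            rw [Finset.sum_ite_mem, Finset.univ_inter, ← Finset.sum_mul, ← h3]; ring
      _ = 0 := by
          rw [Finset.sum_comm]
          refine Finset.sum_eq_zero fun j _ => ?_
          rw [← Finset.sum_filter, ← Finset.mul_sum, h2, mul_zero]
  have h5 := (Finset.sum_eq_zero_iff_of_nonneg fun K _ =>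
    div_nonneg (sq_nonneg _) (hq K).le).1 h4 K (Finset.mem_univ _)
  simpa [δ, (hq K).ne', (hd K).ne'] using h5

end Crest.Agent.N222.C
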