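import Crest.Agent.N222.C.Geo
import Crest.Agent.N222.C.Hom
import Crest.Agent.N222.C.Poly2

/-!
# Row 222, part C: the cochain of the vertex field is a non zero multiple of `alt α ∘ yl`
-/

set_option autoImplicit false
set_option maxHeartbeats 400000

open Set Filter Topology

noncomputable section

namespace Crest.Agent.N222.C

/-- bumps of radius `ε` -/
structure IsBump {N : ℕ} (w : (Fin N → ℝ) → ℝ) (ε : ℝ) : Prop where
  sm : ContDiff ℝ 1 w
  nn : ∀ t, 0 ≤ w t
  perm : ∀ t (ϖ : Equiv.Perm (Fin N)), w (fun i => t (ϖ i)) = w t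
  zero : ∀ t, ε ≤ ‖t‖ → w t = 0
  pos : ∀ t, ‖t‖ < ε → 0 < w t

theorem exists_isBump (N : ℕ) {ε : ℝ} (hε : 0 < ε) : ∃ w : (Fin N → ℝ) → ℝ, IsBump w ε := by
  refine ⟨fun t => bmp N (ε⁻¹ • t), contDiff_bmp.comp (contDiff_const_smul _),
    fun t => bmp_nonneg _, fun t ϖ => bmp_perm (ε⁻¹ • t) ϖ, fun t ht => bmp_eq_zero ?_,
    fun t ht => bmp_pos_iff.2 ?_⟩
  · rw [norm_smul, Real.norm_of_nonneg (inv_pos.2 hε).le, ← div_eq_inv_mul]
    exact (one_le_div hε).2 ht
  · rw [norm_smul, Real.norm_of_nonneg (inv_pos.2 hε).le, ← div_eq_inv_mul]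
    exact (div_lt_one hε).2 ht

/-- the box is large enough -/
def Big (k : ℕ) (L : ℝ) : Prop :=
  2 < L ∧ ∀ η : KK k → ℝ, (∀ K, |ee η K| ≤ 1 / 4) → (∀ j, aa η j ≤ 2) → ∀ K, |η (some K)| < L

theorem exists_big (k : ℕ) (B : ℝ) : ∃ L, B < L ∧ Big k L := by
  obtain ⟨L, h2, hL⟩ := exists_bound k 2
  exact ⟨max L (B + 1), lt_max_of_lt_right (lt_add_one B), lt_max_of_lt_left h2,
    fun η h h' K => lt_max_of_lt_left (hL η h h' K)⟩

variable {n k r : ℕ} (eκ : Fin r ≃ KK k) (eτ : Fin (r + n) ≃ TT n k)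

/-- the standard cell map -/
def Fstd (z : Fin (r + n) → ℝ) (i : Fin (r + n)) : ℝ :=
  MM n k * Sum.elim (fun p : Col n k => Sum.elim (wt (cub r z)) (fun _ => 0) p -
      (fib eκ z none - ∑ j ∈ blk ∅ p, aa (fib eκ z) j)) (ee (fib eκ z)) (eτ i)

/-- the standard integral -/
def Bstd (w : (Fin (r + n) → ℝ) → ℝ) (L : ℝ) : ℝ :=
  bint w univ (Fstd eκ eτ) (lo eκ L n) (hi r L n)

theorem contDiff_Fstd : ContDiff ℝ (⊤ : ℕ∞) (Fstd (n := n) eκ eτ) := by
  have hf := contDiff_fib (q := n) eκ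
  have h0 : ContDiff ℝ (⊤ : ℕ∞) fun z : Fin (r + n) → ℝ => fib eκ z none := contDiff_apply ℝ ℝ _
  have ha : ∀ S : Finset (Fin k), ContDiff ℝ (⊤ : ℕ∞) fun z : Fin (r + n) → ℝ =>
      fib eκ z none - ∑ j ∈ S, aa (fib eκ z) j := fun S =>
    h0.sub (ContDiff.sum fun j _ => (contDiff_aa j).comp hf)
  refine contDiff_pi.2 fun i => contDiff_const.mul ?_
  rcases eτ i with (l | j) | K
  · exact ((contDiff_wt l).comp contDiff_cub).sub (ha _)
  · exact contDiff_const.sub (ha _)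
  · exact (contDiff_ee K).comp hf

theorem hasDerivAt_line {E E' : Type} [NormedAddCommGroup E] [NormedSpace ℝ E]
    [NormedAddCommGroup E'] [NormedSpace ℝ E'] {f : E → E'} (hf : ContDiff ℝ (⊤ : ℕ∞) f) (x v : E) :
    HasDerivAt (fun t : ℝ => f (x + t • v)) (fderiv ℝ f x v) 0 :=
  (hf.differentiable (by simp) x).hasFDerivAt.hasLineDerivAt v

theorem jac_Fstd_ne_zero {z : Fin (r + n) → ℝ} (h1 : ∀ K, 1 < fib eκ z (some K))
    (h2 : ∀ j, 0 < cub r z j) : jac (Fstd eκ eτ) z ≠ 0 := by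
  refine jac_ne_zero fun v hv => ?_
  have hM := (MM_pos n k).ne'
  have hD : ∀ c, HasDerivAt (fun t : ℝ => Fstd eκ eτ (z + t • v) (eτ.symm c)) 0 0 := fun c => by
    have := hasDerivAt_line (contDiff_Fstd eκ eτ) z v
    rw [hv] at this
    exact hasDerivAt_pi.1 this _
  have ef : ∀ t : ℝ, fib eκ (z + t • v) = fib eκ z + t • fib eκ v := fun _ => rfl
  have ec : ∀ t : ℝ, cub r (z + t • v) = cub r z + t • cub r v := fun _ => rfl
  simp only [Fstd, Equiv.apply_symm_apply, ef, ec] at hD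
  have d0 : HasDerivAt (fun t : ℝ => (fib eκ z + t • fib eκ v) none) (fib eκ v none) 0 := by
    simpa using ((hasDerivAt_id (0 : ℝ)).mul_const (fib eκ v none)).const_add (fib eκ z none)
  have dw := fun l => hasDerivAt_line (contDiff_wt l) (cub r z) (cub r v)
  have da := fun j => hasDerivAt_line (contDiff_aa j) (fib eκ z) (fib eκ v)
  have hW : ∀ l, fderiv ℝ (fun s : Fin n → ℝ => wt s l) (cub r z) (cub r v) = fib eκ v none :=
    fun l => by
      have h := hD (Sum.inl (Sum.inl l))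
      simp only [Sum.elim_inl, blk, Finset.sum_empty, sub_zero] at h
      have := h.unique (((dw l).sub d0).const_mul (MM n k))
      exact sub_eq_zero.1 ((mul_eq_zero.1 this.symm).resolve_left hM)
  have hm : fib eκ v none = 0 := by
    have h := HasDerivAt.fun_sum (u := Finset.univ) fun l _ => dw l
    simp only [wt_sum, hW, Finset.sum_const, Finset.card_univ, Fintype.card_fin,
      nsmul_eq_mul] at h
    exact (mul_eq_zero.1 (h.unique (hasDerivAt_const _ _))).resolve_left (by positivity)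
  have hS : ∀ j, ∑ j' ∈ Finset.Iic j,
      fderiv ℝ (fun ξ : KK k → ℝ => aa ξ j') (fib eκ z) (fib eκ v) = 0 := fun j => by
    have h := hD (Sum.inl (Sum.inr j))
    simp only [Sum.elim_inl, Sum.elim_inr, blk, Finset.sdiff_empty] at h
    have := h.unique (((d0.sub (HasDerivAt.fun_sum (u := Finset.Iic j) fun j' _ => da j')).const_sub
      0).const_mul (MM n k))
    have := (mul_eq_zero.1 this.symm).resolve_left hM
    rw [hm] at this
    linarith
  have hA : ∀ j, fderiv ℝ (fun ξ : KK k → ℝ => aa ξ j) (fib eκ z) (fib eκ v) = 0 := fun j => by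
    induction j using WellFoundedLT.induction with
    | ind j ih =>
      rw [← hS j, Finset.sum_eq_single j
        (fun b hb hb' => ih b (lt_of_le_of_ne (Finset.mem_Iic.1 hb) hb'))
        fun h => absurd (Finset.mem_Iic.2 le_rfl) h]
  have hE : ∀ K, fderiv ℝ (fun ξ : KK k → ℝ => ee ξ K) (fib eκ z) (fib eκ v) = 0 := fun K => by
    have := (hD (Sum.inr K)).unique
      ((hasDerivAt_line (contDiff_ee K) (fib eκ z) (fib eκ v)).const_mul (MM n k))
    exact (mul_eq_zero.1 this.symm).resolve_left hM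
  have hc := wt_inj_fderiv h2 (cub r v) fun l => (hW l).trans hm
  have hf : ∀ c, fib eκ v c = 0 := fun c => by
    cases c with
    | none => exact hm
    | some K => exact inj_fderiv h1 _ hA hE K
  funext i
  refine Fin.addCases (fun i => ?_) (fun j => congrFun hc j) i
  simpa [fib] using hf (eκ i)

theorem jac_Fstd_eq_zero {z : Fin (r + n) → ℝ} {K : JJ k} (h : |fib eκ z (some K)| < 1) :
    jac (Fstd eκ eτ) z = 0 := by
  refine jac_eq_zero_of_update (Fin.castAdd n (eκ.symm (some K))) ?_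
  filter_upwards [(isOpen_lt continuous_abs continuous_const).mem_nhds h] with c hc
  have ef : fib eκ (Function.update z (Fin.castAdd n (eκ.symm (some K))) c) =
      Function.update (fib eκ z) (some K) c := by
    funext x
    simp only [fib, Function.update_apply, Fin.castAdd_inj, eκ.symm.apply_eq_iff_eq]
  have ec : cub r (Function.update z (Fin.castAdd n (eκ.symm (some K))) c) = cub r z := by
    funext j
    refine Function.update_of_ne (fun e => ?_) _ _
    have := congrArg Fin.val e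
    have h2 := (eκ.symm (some K)).2
    simp only [Fin.val_natAdd, Fin.val_castAdd] at this
    omega
  have hq := qq_update h.le (le_of_lt hc)
  have e1 : aa (Function.update (fib eκ z) (some K) c) = aa (fib eκ z) := by
    funext j; simp only [aa, hq]
  have e2 : ee (Function.update (fib eκ z) (some K) c) = ee (fib eκ z) := by
    funext j; simp only [ee, hq]
  funext i
  simp only [Fstd, ef, ec, e1, e2, Function.update_of_ne (show none ≠ some K by simp)]

/-- `bint_ne_zero` with `U = {1 < y_K, 0 < s_j}`; `inj_fderiv`, `wt_inj_fderiv`, `qq_update`,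
`exists_aa` (with `m = a₀ = 1 / (n + 1)`, the other `a_j` small), `exists_wt_bary` -/
theorem Bstd_ne_zero {w : (Fin (r + n) → ℝ) → ℝ} {ε : ℝ} (hw : IsBump w ε) (hε : 0 < ε) {L : ℝ}
    (hL : Big k L) : Bstd eκ eτ w L ≠ 0 := by
  have hM := MM_pos n k
  set m : ℝ := 1 / ((n : ℝ) + 1) with hm
  have hm0 : 0 < m := by positivity
  have hm1 : m ≤ 1 := by
    rw [hm, div_le_one (by positivity)]; linarith [Nat.cast_nonneg (α := ℝ) n]
  set δ : ℝ := min 1 (ε / (MM n k * (k + 1))) with hδ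
  have hδ0 : 0 < δ := lt_min one_pos (by positivity)
  have hδ1 : δ ≤ 1 := min_le_left _ _
  have hδ2 : MM n k * (k * δ) < ε := by
    have h1 : δ * (MM n k * (k + 1)) ≤ ε := (le_div_iff₀ (by positivity)).1 (min_le_right _ _)
    nlinarith [mul_pos hM hδ0]
  obtain ⟨s, hs, hws⟩ := exists_wt_bary n
  obtain ⟨η, hη0, hη1, hη2, hη3⟩ := exists_aa (k := k) m
    (fun j => δ + if (j : ℕ) = 0 then m else 0) fun j => by split_ifs <;> positivity
  have hηL := hL.2 η (fun K => by rw [hη2]; norm_num) fun j => by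
    rw [hη3]; dsimp only; split_ifs <;> linarith
  have hf : fib eκ (Fin.append (fun i => η (eκ i)) s) = η := by
    funext c; simp [fib]
  have hc : cub r (Fin.append (fun i => η (eκ i)) s) = s := by
    funext c; simp [cub]
  refine bint_ne_zero hw.sm.continuous hw.nn ((contDiff_Fstd eκ eτ).of_le (by simp))
    (U := {z | (∀ K, 1 < fib eκ z (some K)) ∧ ∀ j, 0 < cub r z j}) ?_ ?_
    (fun z hz => jac_Fstd_ne_zero eκ eτ hz.1 hz.2) (fun z hz hz' => ?_)
    (x₀ := Fin.append (fun i => η (eκ i)) s) ?_ (fun i => ?_) (hw.pos _ ?_)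
  · simp only [ofPred_and, ofPred_forall]
    exact (isOpen_iInter_of_finite fun K => isOpen_lt continuous_const (continuous_apply _)).inter
      (isOpen_iInter_of_finite fun j => isOpen_lt continuous_const (continuous_apply _))
  · refine Convex.isPreconnected fun x hx y hy a b ha hb hab => ⟨fun K => ?_, fun j => ?_⟩
    · exact convex_Ioi (1 : ℝ) (hx.1 K) (hy.1 K) ha hb hab
    · exact convex_Ioi (0 : ℝ) (hx.2 j) (hy.2 j) ha hb hab
  · have hb := mem_box.1 hz
    by_cases h1 : ∀ K, 1 ≤ fib eκ z (some K)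
    · refine absurd (mem_closure_of_tendsto (b := 𝓝[>] (0 : ℝ)) (f := fun t : ℝ => z + t • 1)
        (tendsto_nhdsWithin_of_tendsto_nhds ?_) (eventually_mem_nhdsWithin.mono fun t ht => ?_)) hz'
      · exact Continuous.tendsto' (by fun_prop) _ _ (by simp)
      · have ht : 0 < t := ht
        refine ⟨fun K => ?_, fun j => ?_⟩
        · have := h1 K
          simp only [fib, Pi.add_apply, Pi.smul_apply, Pi.one_apply, smul_eq_mul] at this ⊢
          linarith
        · have := (hb.2.2 j).1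
          simp only [cub, Pi.add_apply, Pi.smul_apply, Pi.one_apply, smul_eq_mul] at this ⊢
          linarith
    · obtain ⟨K, hK⟩ := not_forall.1 h1
      exact jac_Fstd_eq_zero eκ eτ (abs_lt.2 ⟨by linarith [(hb.2.1 K).1], not_le.1 hK⟩)
  · exact ⟨fun K => by rw [hf]; exact hη1 K, fun j => by rw [hc]; exact (hs j).1⟩
  · refine Fin.addCases (fun i => ?_) (fun j => ?_) i
    · simp only [lo, hi, Fin.append_left]
      have h2 := hL.1
      cases eκ i with
      | none => simp only [Option.elim, hη0]; constructor <;> linarith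
      | some K => exact ⟨one_pos.trans (hη1 K), (abs_lt.1 (hηL K)).2⟩
    · simpa only [lo, hi, Fin.append_right] using hs j
  · refine (pi_norm_lt_iff hε).2 fun i => ?_
    rw [Fstd, hf, hc, hη3, hη0]
    rcases eτ i with (l | j) | K
    · simpa [blk, hws, hm] using hε
    · have e : ∑ j' ∈ Finset.Iic j, (if (j' : ℕ) = 0 then m else 0) = m := by
        rw [Finset.sum_eq_single ⟨0, j.pos⟩ (fun b _ hb => if_neg fun h => hb (Fin.ext h))
          fun h => absurd (Finset.mem_Iic.2 (Fin.le_def.2 (Nat.zero_le _))) h, if_pos rfl]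
      have hk : ((Finset.Iic j).card : ℝ) ≤ k := by
        exact_mod_cast (Finset.card_le_univ _).trans_eq (Fintype.card_fin k)
      simp only [Sum.elim_inl, Sum.elim_inr, blk, Finset.sdiff_empty, Finset.sum_add_distrib, e,
        Finset.sum_const, nsmul_eq_mul]
      rw [show (0 : ℝ) - (m - ((Finset.Iic j).card * δ + m)) = (Finset.Iic j).card * δ by ring,
        Real.norm_of_nonneg (by positivity)]
      exact lt_of_le_of_lt (by gcongr) hδ2
    · simpa [hη2] using hε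

variable {Γ T Lb : Type} [Group Γ] [MulAction Γ T] [MulAction Γ Lb]

open Classical in
/-- the cell map of the vertex field -/
def Fs (u : Sh Lb n k) (σ : Fin (n + 1) → Lb) (z : Fin (r + n) → ℝ) (i : Fin (r + n)) : ℝ :=
  Gs u (fun y => ∑ l, wt (cub r z) l * (Pi.single (σ l) 1 : Lb → ℝ) y) (fib eκ z) (eτ i)

/-- its integral -/
def Bs (w : (Fin (r + n) → ℝ) → ℝ) (L : ℝ) (u : Sh Lb n k) (σ : Fin (n + 1) → Lb) : ℝ :=
  bint w univ (Fs eκ eτ u σ) (lo eκ L n) (hi r L n)

namespace Dat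

variable {d : Dat Γ T Lb n k} {F : Lb → Set T} {w : (Fin (r + n) → ℝ) → ℝ} {ε : ℝ}

theorem _root_.Crest.Agent.N222.C.bint_perm {N : ℕ} {w : (Fin N → ℝ) → ℝ}
    (hw : ∀ t (ϖ : Equiv.Perm (Fin N)), w (fun i => t (ϖ i)) = w t)
    (F : (Fin N → ℝ) → Fin N → ℝ) (ϖ : Equiv.Perm (Fin N)) (a b : Fin N → ℝ) :
    bint w univ (fun z i => F z (ϖ i)) a b =
      ((Equiv.Perm.sign ϖ : ℤ) : ℝ) * bint w univ F a b := by
  simp only [bint, dens, indicator_univ, jac_perm, hw, ← MeasureTheory.integral_const_mul]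
  congr 1
  funext x
  ring

/-- `Fs` is `Fstd` followed by a permutation of the coordinates (`jac_perm`) -/
theorem Bs_perm (hw : IsBump w ε) (L : ℝ) {u : Sh Lb n k} (hu : d.Valid u) {σ : Fin (n + 1) → Lb}
    {ρ : Equiv.Perm (Fin (n + 1))} (h : ∀ i, σ i = u.sig (ρ i)) :
    Bs eκ eτ w L u σ =
      ((Equiv.Perm.sign u.pos : ℤ) : ℝ) * ((Equiv.Perm.sign ρ : ℤ) : ℝ) * Bstd eκ eτ w L := by
  classical
  let π : Equiv.Perm (TT n k) :=
    Equiv.sumCongr (u.pos.symm.trans (Equiv.sumCongr ρ.symm (Equiv.refl _))) (Equiv.refl _)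
  have e : Fs eκ eτ u σ = fun z i => Fstd eκ eτ z (((eτ.trans π).trans eτ.symm) i) := by
    funext z i
    simp only [Fs, Fstd, Gs, Equiv.trans_apply, Equiv.apply_symm_apply]
    rcases eτ i with c | K
    · obtain ⟨p, rfl⟩ := u.pos.surjective c
      simp only [π, lab, Gf, eta, Sum.elim_inl, Equiv.sumCongr_apply, Sum.map_inl,
        Equiv.trans_apply, Equiv.symm_apply_apply]
      rcases p with l | j
      · rw [hu.sig, Option.elim_some, Finset.sum_eq_single (ρ.symm l) (fun b _ hb => ?_)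
          fun h => absurd (Finset.mem_univ _) h]
        · simp only [h, Equiv.apply_symm_apply, Pi.single_eq_same, Sum.map_inl, Sum.elim_inl, blk]
          ring
        · rw [h, Pi.single_eq_of_ne (fun e => hb ?_), mul_zero]
          rw [hu.sig_inj e, Equiv.symm_apply_apply]
      · have e0 : (u.lam (u.pos (Sum.inr j))).elim (0 : ℝ)
            (fun y => ∑ l, wt (cub r z) l * (Pi.single (σ l) 1 : Lb → ℝ) y) = 0 := by
          cases hy : u.lam (u.pos (Sum.inr j)) with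
          | none => rfl
          | some y =>
            refine Finset.sum_eq_zero fun l _ => ?_
            rw [Pi.single_eq_of_ne (fun e => ?_), mul_zero]
            rw [e, h] at hy
            simpa using u.pos.injective (hu.inj _ _ _ hy (hu.sig _))
        simp only [Sum.map_inr, Sum.elim_inr, Equiv.refl_apply]
        rw [show ∀ a b : ℝ, MM n k * (0 - (a - b)) = MM n k * 0 + -(MM n k * (a - b)) from
          fun a b => by ring]
        congr 2
    · simp [π, lab, Gf]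
  have hs : Equiv.Perm.sign ((eτ.trans π).trans eτ.symm) =
      Equiv.Perm.sign u.pos * Equiv.Perm.sign ρ := by
    have := Equiv.Perm.sign_symm_trans_trans π eτ.symm
    rw [Equiv.symm_symm] at this
    rw [this]
    simp [π, Equiv.Perm.sign_sumCongr, mul_comm]
  rw [Bs, Bstd, e, bint_perm hw.perm, hs]
  push_cast
  ring

/-- a label of the top block which is not charged (`kc_of_norm`) -/
theorem Bs_zero (hw : IsBump w ε) (hε : ε ≤ 1) (L : ℝ) {u : Sh Lb n k} (hu : d.Valid u)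
    {σ : Fin (n + 1) → Lb} (hσ : ∀ i, σ i ∈ d.A ∅ u) {i₀ : Fin (n + 1)} (h : ∀ i, σ i ≠ u.sig i₀) :
    Bs eκ eτ w L u σ = 0 := by
  classical
  refine bint_eq_zero fun z hz _ => mul_eq_zero_of_left (hw.zero _ (not_lt.1 fun hlt => ?_)) _
  have hb := (mem_box.1 hz).2.2
  obtain ⟨x, -⟩ := hu.ne
  have hp : Prob (fun y => {_x : T | y ∈ range σ}) x
      (fun y => ∑ l, wt (cub r z) l * (Pi.single (σ l) 1 : Lb → ℝ) y) := by
    have := (convex_prob (R := fun y => {_x : T | y ∈ range σ}) (x := x) (finite_range σ)).sum_mem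
      (t := Finset.univ) (fun l _ => wt_nonneg (fun j => (hb j).1) (fun j => (hb j).2) l)
      (wt_sum _) fun l _ => prob_single (y := σ l) ⟨l, rfl⟩
    rw [mem_ofPred_eq] at this
    convert this using 1
    funext y
    simp only [Finset.sum_apply, Pi.smul_apply, smul_eq_mul]
  have hk := kc_of_norm hu hp (by rintro y ⟨l, rfl⟩; exact hσ l) (η := fib eκ z)
    ((pi_norm_le_iff_of_nonneg zero_le_one).2 fun c => by
      have := (norm_le_pi_norm (Fs eκ eτ u σ z) (eτ.symm c)).trans (hlt.le.trans hε)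
      simpa only [Fs, Equiv.apply_symm_apply] using this)
  have hM := inv_pos.2 (MM_pos n k)
  rcases hk.act (u.pos (Sum.inl i₀)) with h1 | ⟨y, hy, l, rfl⟩
  · have := hk.m
    simp only [eta, Equiv.symm_apply_apply, blk, Finset.sum_empty, sub_zero] at h1
    linarith
  · exact h l (Option.some_injective _ (hy.symm.trans (hu.sig i₀)))

theorem sum_Bs (hw : IsBump w ε) (hε : ε ≤ 1) (L : ℝ) {σ : Fin (n + 1) → Lb} {x₀ : T}
    (h : ∀ i, x₀ ∈ d.O (σ i)) :
    ∑ᶠ u ∈ {u : d.U | x₀ ∈ d.X ∅ u.1}, d.sgn u * Bs eκ eτ w L u.1 σ =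
      ((n + 1 + k).factorial * k.factorial : ℕ) * Bstd eκ eτ w L * alt d.α σ := by
  classical
  have key : ∀ u : d.U, x₀ ∈ d.X ∅ u.1 → Bs eκ eτ w L u.1 σ ≠ 0 →
      ∃ ρ : Equiv.Perm (Fin (n + 1)), ∀ i, u.1.sig i = σ (ρ i) := fun u hu hB => by
    have h1 : ∀ i₀, ∃ i, σ i = u.1.sig i₀ := fun i₀ => by
      by_contra hc
      exact hB (Bs_zero eκ eτ hw hε L u.2 (fun i => ⟨x₀, h i, hu⟩) (i₀ := i₀)
        fun i hi => hc ⟨i, hi⟩)
    choose f hf using h1
    have hi : Function.Injective f := fun a b hab =>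
      u.2.sig_inj (by rw [← hf a, ← hf b, hab])
    exact ⟨Equiv.ofBijective f (Finite.injective_iff_bijective.1 hi), fun i => (hf i).symm⟩
  by_cases hσ : Function.Injective σ
  swap
  · rw [alt_eq_zero _ hσ, mul_zero]
    refine finsum_mem_of_eqOn_zero fun u hu => ?_
    by_contra hc
    obtain ⟨ρ, hρ⟩ := key u hu (right_ne_zero_of_mul hc)
    refine hσ fun a b hab => ρ.symm.injective (u.2.sig_inj ?_)
    rw [hρ, hρ, ρ.apply_symm_apply, ρ.apply_symm_apply, hab]
  have h1 : ∀ u : d.U, x₀ ∈ d.X ∅ u.1 → d.sgn u * Bs eκ eτ w L u.1 σ =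
      ∑ ρ : Equiv.Perm (Fin (n + 1)), if u.1.sig = (fun i => σ (ρ i)) then
        Bstd eκ eτ w L * ((Equiv.Perm.sign ρ : ℤ) : ℝ) * (if 0 < d.α u.1.sig then 1 else -1 : ℝ)
        else 0 := fun u hu => by
    by_cases hc : ∃ ρ : Equiv.Perm (Fin (n + 1)), ∀ i, u.1.sig i = σ (ρ i)
    · obtain ⟨ρ, hρ⟩ := hc
      rw [Finset.sum_eq_single ρ, if_pos (funext hρ),
        Bs_perm eκ eτ hw L u.2 (ρ := ρ.symm) fun i => by rw [hρ, ρ.apply_symm_apply], sgn,
        Equiv.Perm.sign_symm]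
      · have e : ((Equiv.Perm.sign u.1.pos : ℤ) : ℝ) * ((Equiv.Perm.sign u.1.pos : ℤ) : ℝ) = 1 := by
          rcases Int.units_eq_one_or (Equiv.Perm.sign u.1.pos) with e | e <;> simp [e]
        linear_combination ((if 0 < d.α u.1.sig then 1 else -1 : ℝ) *
          ((Equiv.Perm.sign ρ : ℤ) : ℝ) * Bstd eκ eτ w L) * e
      · refine fun ρ' _ hne => if_neg fun e => hne (Equiv.ext fun i => hσ ?_)
        rw [← hρ, e]
      · simp
    · have h0 : Bs eκ eτ w L u.1 σ = 0 := by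
        by_contra hB
        exact hc (key u hu hB)
      rw [h0, mul_zero]
      exact (Finset.sum_eq_zero fun ρ _ => if_neg fun e => hc ⟨ρ, congrFun e⟩).symm
  rw [finsum_mem_eq_finite_toFinset_sum _ (d.finite_X x₀),
    Finset.sum_congr rfl fun u hu => h1 u ((d.finite_X x₀).mem_toFinset.1 hu), Finset.sum_comm, alt,
    Finset.mul_sum]
  refine Finset.sum_congr rfl fun ρ _ => ?_
  have h2 := d.sum_sig (σ := fun i => σ (ρ i)) (hσ.comp ρ.injective) ⟨x₀, fun i => h _⟩
  have h3 : {u : d.U | u.1.sig = fun i => σ (ρ i)} =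
      ((d.finite_X x₀).toFinset.filter fun u => u.1.sig = fun i => σ (ρ i) : Finset d.U) := by
    ext u
    simp only [mem_ofPred_eq, Finset.coe_filter, Set.Finite.mem_toFinset]
    exact ⟨fun e => ⟨u.2.mem_X.2 fun i => by rw [e]; exact h _, e⟩, fun e => e.2⟩
  rw [h3, finsum_mem_coe_finset] at h2
  rw [← Finset.sum_filter, ← Finset.mul_sum, h2]
  ring

variable (d)

open Classical in
/-- the vertex field -/
def Hv (yl : T → Lb) (z : T × d.gl.YY) (i : Fin (r + n)) : ℝ :=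
  d.GG (Pi.single (yl z.1) 1) z.2 (eτ i)

/-- the tuple `x` is close to `x₀` -/
structure Near (F : Lb → Set T) (Ω : Set (T × d.gl.YY)) (yl : T → Lb) (x₀ x : T) : Prop where
  yl : x₀ ∈ F (yl x)
  mem : ∀ y, x₀ ∈ F y → x ∈ d.O y
  kc : ∀ p, (x₀, p) ∈ d.KC F → (x, p) ∈ Ω

variable {d}

open Classical in
theorem cell_eval [TopologicalSpace T] (hF : d.Sub F) (hw : IsBump w ε) (hε : ε ≤ 1) (L : ℝ)
    {Ω : Set (T × d.gl.YY)} (hΩ : IsOpen Ω) (hZ : Ω ⊆ d.ZZ) {yl : T → Lb} {x₀ : T}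
    {x : Fin (n + 1) → T} (hx : ∀ i, d.Near F Ω yl x₀ (x i)) (g : Finset (JJ k)) (v : d.VV) :
    bint w (d.gl.Oc eκ (d.gl.DD Ω x) g v)
      (d.gl.Fc eκ (fun c η => ∑ i, wt c i • d.Hv eτ yl (x i, η)) g v) (lo eκ L n) (hi r L n) =
      if x₀ ∈ d.X ∅ v.u.1 then Bs eκ eτ w L v.u.1 (fun i => yl (x i)) else 0 := by
  have hD : IsOpen (d.gl.DD Ω x) := by
    rw [Gl.DD, ofPred_forall]
    exact isOpen_iInter_of_finite fun i => hΩ.preimage (Continuous.prodMk_right (x i))
  have e : EqOn (d.gl.Fc eκ (fun c η => ∑ i, wt c i • d.Hv eτ yl (x i, η)) g v)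
      (Fs eκ eτ v.u.1 fun i => yl (x i)) (d.gl.Oc eκ (d.gl.DD Ω x) g v) := fun z hz => by
    funext j
    have h1 : ∀ i, d.Hv eτ yl (x i, d.gl.pt eκ g v z) j =
        Gs v.u.1 (Pi.single (yl (x i)) 1) (fib eκ z) (eτ j) := fun i => by
      have h2 := d.GG_sec hz.1 (hZ (hz.2 i)) (t := Pi.single (yl (x i)) 1) fun y hy => by
        obtain rfl : y = yl (x i) := by
          by_contra hc
          exact hy (Pi.single_eq_of_ne hc _)
        exact (hx i).mem _ (hx i).yl
      rw [Hv, Gl.pt, h2, Gs, Gs, Gf_flp]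
    rw [Fs, ← Gs_sum _ (wt_sum _), Gl.Fc, Finset.sum_apply, Finset.sum_apply]
    exact Finset.sum_congr rfl fun i _ => by rw [Pi.smul_apply, Pi.smul_apply, h1]
  rw [bint_congr (Gl.isOpen_Oc hD g v) e]
  have hfin : {y | x₀ ∈ F y}.Finite :=
    (d.nb_fin (yl (x 0))).subset fun y hy => ⟨x₀, hF.sub _ (hx 0).yl, hF.sub _ hy⟩
  have hK : ∀ z ∈ Icc (lo eκ L n) (hi r L n), w (Fs eκ eτ v.u.1 (fun i => yl (x i)) z) ≠ 0 →
      (∀ y, x₀ ∈ F y → y ∈ d.A ∅ v.u.1) → Kc F x₀ v.u.1 (fib eκ z) := fun z hz h0 hA => by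
    have h1 := (mem_box.1 hz).2.2
    have h2 := (convex_prob hfin).sum_mem (t := Finset.univ) (w := wt (cub r z))
      (z := fun i => Pi.single (yl (x i)) 1)
      (fun i _ => wt_nonneg (fun j => (h1 j).1) (fun j => (h1 j).2) i) (wt_sum _)
      fun i _ => prob_single (hx i).yl
    have h3 : (∑ i, wt (cub r z) i • (Pi.single (yl (x i)) 1 : Lb → ℝ)) =
        fun y => ∑ l, wt (cub r z) l * (Pi.single (yl (x l)) 1 : Lb → ℝ) y := by
      funext y
      rw [Finset.sum_apply]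
      rfl
    rw [h3] at h2
    refine kc_of_norm v.u.2 h2 hA ((pi_norm_le_iff_of_nonneg zero_le_one).2 fun c => ?_)
    have h4 : ‖Fs eκ eτ v.u.1 (fun i => yl (x i)) z‖ < ε := not_le.1 fun h => h0 (hw.zero _ h)
    have h5 := norm_le_pi_norm (Fs eκ eτ v.u.1 (fun i => yl (x i)) z) (eτ.symm c)
    rw [Fs, eτ.apply_symm_apply] at h5
    linarith
  split_ifs with h0
  · refine bint_dom (fun _ _ _ _ => mem_univ _) fun z hz _ h1 => ?_
    have h2 := (kc_flp g).2 (hK z hz h1 fun y hy => ⟨x₀, hF.sub _ hy, h0⟩)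
    have h3 : flp g (fib eκ z) ∈ Ug g :=
      mem_Ug_of_Cg h2.mem_UU (flp_mem_Cg g fun K => ((mem_box.1 hz).2.1 K).1)
    exact ⟨h3, fun i => (hx i).kc _ ((hF.mem_KC_sec h3).2 h2)⟩
  · refine bint_eq_zero fun z hz hO => mul_eq_zero_of_left ?_ _
    by_contra h1
    have h2 := X_anti (Finset.empty_subset _) _ ((d.mem_ZZ_sec hO.1).1 (hZ (hO.2 0)))
    exact h0 (X_anti (Finset.empty_subset _) _
      (hF.mem_X (hK z hz h1 fun y hy => ⟨x 0, (hx 0).mem y hy, h2⟩)))

/-- **evaluation** -/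
theorem eval [TopologicalSpace T] (hF : d.Sub F) (hw : IsBump w ε) (hε₀ : 0 < ε) (hε : ε ≤ 1)
    {L : ℝ} (hL : Big k L) : ∃ C : ℝ, C ≠ 0 ∧ ∀ Ω : Set (T × d.gl.YY), IsOpen Ω → Ω ⊆ d.ZZ →
      ∀ (yl : T → Lb) (x₀ : T) (x : Fin (n + 1) → T), (∀ i, d.Near F Ω yl x₀ (x i)) →
        d.gl.II eκ (fun v => d.sgn v.u) w L Ω (d.Hv eτ yl) x = C * alt d.α fun i => yl (x i) := by
  classical
  refine ⟨(Fintype.card (Finset (JJ k)) : ℝ) * ((Nat.card d.LL : ℝ) *
    (((n + 1 + k).factorial * k.factorial : ℕ) * Bstd eκ eτ w L)), ?_,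
    fun Ω hΩ hZ yl x₀ x hx => ?_⟩
  · refine mul_ne_zero (Nat.cast_ne_zero.2 Fintype.card_ne_zero) (mul_ne_zero
      (Nat.cast_ne_zero.2 Nat.card_pos.ne') (mul_ne_zero (Nat.cast_ne_zero.2 ?_)
      (Bstd_ne_zero eκ eτ hw hε₀ hL)))
    exact mul_ne_zero (Nat.factorial_ne_zero _) (Nat.factorial_ne_zero _)
  · have h1 := d.finsum_VV (fun u => d.sgn u *
      if x₀ ∈ d.X ∅ u.1 then Bs eκ eτ w L u.1 (fun i => yl (x i)) else 0)
      ((d.finite_X x₀).subset fun u hu => by
        by_contra hc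
        exact hu (by simp only [if_neg (show x₀ ∉ d.X ∅ u.1 from hc), mul_zero]))
    have h2 : ∑ᶠ u : d.U, d.sgn u *
        (if x₀ ∈ d.X ∅ u.1 then Bs eκ eτ w L u.1 (fun i => yl (x i)) else 0) =
        ∑ᶠ u ∈ {u : d.U | x₀ ∈ d.X ∅ u.1}, d.sgn u * Bs eκ eτ w L u.1 fun i => yl (x i) := by
      rw [finsum_mem_def]
      refine finsum_congr fun u => ?_
      by_cases hu : x₀ ∈ d.X ∅ u.1
      · rw [if_pos hu, indicator_of_mem (show u ∈ {u : d.U | x₀ ∈ d.X ∅ u.1} from hu)]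
      · rw [if_neg hu, mul_zero, indicator_of_notMem (show u ∉ {u : d.U | x₀ ∈ d.X ∅ u.1} from hu)]
    rw [h2, sum_Bs eκ eτ hw hε L fun i => hF.sub _ (hx i).yl] at h1
    simp only [Gl.II, Gl.CI, cell_eval eκ eτ hF hw hε L hΩ hZ hx]
    rw [h1, Finset.sum_const, Finset.card_univ, nsmul_eq_mul]
    ring

/-- the vertex field is an admissible field -/
theorem fld_Hv {Ω : Set (T × d.gl.YY)} (hZ : Ω ⊆ d.ZZ) {yl : T → Lb}
    (hy : ∀ (g : Γ) x, yl (g • x) = g • yl x) (hO : ∀ x, x ∈ d.O (yl x)) :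
    d.gl.Fld Ω (d.Hv eτ yl) := by
  classical
  refine ⟨fun γ z _ => funext fun i => ?_, fun x g v => ?_⟩
  · rw [Hv, Hv, ← d.GG_smul γ _ z.2, Prod.smul_fst, Prod.smul_snd, hy]
    congr 1
    funext y
    simp only [Pi.single_apply, inv_smul_eq_iff]
  · have h1 : ContDiff ℝ 2 fun (ξ : KK k → ℝ) (i : Fin (r + n)) =>
        Gs v.u.1 (@Pi.single Lb (fun _ => ℝ) _ (fun a b => Classical.propDecidable (a = b))
          (yl x) 1) ξ (eτ i) :=
      contDiff_pi.2 fun i => contDiff_const.add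
        ((contDiff_pi.1 (contDiff_Gf v.u.1) (eτ i)).of_le (WithTop.coe_le_coe.2 (le_top (a := (2 : ℕ∞)))))
    refine h1.contDiffOn.congr fun ξ hξ => funext fun i => ?_
    rw [Hv, d.GG_sec hξ.1 (hZ hξ.2) fun y hy => ?_]
    obtain rfl : y = yl x := by
      by_contra hc
      exact hy (by simp [hc])
    exact hO x

theorem set0 [TopologicalSpace T] {Ω : Set (T × d.gl.YY)} (hΩ : IsOpen Ω) (hi : Inv Γ Ω)
    (hZ : Ω ⊆ d.ZZ) : d.gl.Set0 d.χ (fun v => d.sgn v.u) Ω :=
  ⟨fun γ v => d.sgn_smul γ v.u, hΩ, hi,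
    fun x => (d.finite_sec x).subset fun _ ⟨g, η, h1, h2⟩ => ⟨g, η, h1, hZ h2⟩,
    fun _ _ _ _ _ h1 h2 h3 => d.sgn_wall h1 h2 (hZ h3)⟩

end Dat

end Crest.Agent.N222.C
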