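import Crest.Agent.N222.C.Sheet

/-!
# Row 222, part C: the map `G`, its domain `ZZ` and the closed core `KC`
-/

set_option autoImplicit false

open Set Filter Topology
open scoped symmDiff

noncomputable section

namespace Crest.Agent.N222.C

variable {Γ T L : Type} [Group Γ] [MulAction Γ T] [MulAction Γ L] {n k : ℕ}

open Classical in
/-- the vanishing gaps -/
def Za (η : KK k → ℝ) : Finset (Fin k) := Finset.univ.filter fun j => aa η j = 0

/-- the height of the colour `c` -/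
def eta (u : Sh L n k) (η : KK k → ℝ) (c : Col n k) : ℝ :=
  η none - ∑ j ∈ blk ∅ (u.pos.symm c), aa η j

/-- the scaling constant `1 / δ = 4 D` -/
def MM (n k : ℕ) : ℝ := 4 * ((n : ℝ) + 1 + k)

/-- the part of `G` which does not depend on `t` -/
def Gf (u : Sh L n k) (η : KK k → ℝ) : TT n k → ℝ :=
  Sum.elim (fun c => -(MM n k * eta u η c)) fun K => MM n k * ee η K

/-- the labelling of the coordinates of the target -/
def lab (u : Sh L n k) : TT n k → Option L := Sum.elim u.lam fun _ => none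

/-- the map of one sheet -/
def Gs (u : Sh L n k) (t : L → ℝ) (η : KK k → ℝ) : TT n k → ℝ :=
  fun c => MM n k * (lab u c).elim 0 t + Gf u η c

/-- the closed condition -/
structure Kc (F : L → Set T) (x : T) (u : Sh L n k) (η : KK k → ℝ) : Prop where
  e : ∀ K, |ee η K| ≤ (MM n k)⁻¹
  m : 3 * (MM n k)⁻¹ ≤ η none
  m' : η none ≤ 1 + (MM n k)⁻¹
  lo : ∀ c, -(MM n k)⁻¹ ≤ eta u η c
  act : ∀ c, eta u η c ≤ (MM n k)⁻¹ ∨ ∃ y, u.lam c = some y ∧ x ∈ F y

theorem four_le_MM (n k : ℕ) : 4 ≤ MM n k := by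
  have h1 : (0 : ℝ) ≤ n := Nat.cast_nonneg n
  have h2 : (0 : ℝ) ≤ k := Nat.cast_nonneg k
  unfold MM
  linarith

theorem MM_pos (n k : ℕ) : 0 < MM n k := lt_of_lt_of_le (by norm_num) (four_le_MM n k)

theorem MM_inv_le (n k : ℕ) : (MM n k)⁻¹ ≤ 1 / 4 := by
  rw [one_div]
  exact inv_anti₀ (by norm_num) (four_le_MM n k)

theorem mem_Za {η : KK k → ℝ} {j : Fin k} : j ∈ Za η ↔ aa η j = 0 := by simp [Za]

theorem sub_Za {η : KK k → ℝ} {I : JJ k} (h : |η (some I)| ≤ 1) : I.1 ⊆ Za η :=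
  fun _ hj => mem_Za.2 (aa_eq_zero h hj)

theorem contDiff_eta (u : Sh L n k) (c : Col n k) :
    ContDiff ℝ (⊤ : ℕ∞) fun η => eta u η c :=
  (contDiff_apply ℝ ℝ none).sub (ContDiff.sum fun j _ => contDiff_aa j)

theorem eta_flp (u : Sh L n k) (g : Finset (JJ k)) (η : KK k → ℝ) :
    eta u (flp g η) = eta u η := by
  funext c
  simp only [eta, aa_flp]
  rfl

theorem eta_le (u : Sh L n k) (η : KK k → ℝ) (c : Col n k) : eta u η c ≤ η none :=
  sub_le_self _ (Finset.sum_nonneg fun j _ => aa_nonneg η j)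

theorem eta_eq (u : Sh L n k) (η : KK k → ℝ) (c : Col n k) :
    eta u η c = η none - ∑ j ∈ blk (Za η) (u.pos.symm c), aa η j := by
  unfold eta
  congr 1
  rcases u.pos.symm c with i | i
  · rfl
  · refine (Finset.sum_subset (Finset.sdiff_subset_sdiff subset_rfl (Finset.empty_subset _))
      fun j h1 h2 => mem_Za.1 ?_).symm
    by_contra h3
    exact h2 (Finset.mem_sdiff.2 ⟨(Finset.mem_sdiff.1 h1).1, h3⟩)

theorem eta_top (u : Sh L n k) (η : KK k → ℝ) (i : Fin (n + 1)) :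
    eta u η (u.pos (Sum.inl i)) = η none := by
  simp [eta, blk]

theorem contDiff_Gf (u : Sh L n k) : ContDiff ℝ (⊤ : ℕ∞) (Gf u) := by
  refine contDiff_pi.2 fun c => ?_
  rcases c with c | K
  · exact (contDiff_const.mul (contDiff_eta u c)).neg
  · exact contDiff_const.mul (contDiff_ee K)

theorem Gf_flp (u : Sh L n k) (g : Finset (JJ k)) (η : KK k → ℝ) : Gf u (flp g η) = Gf u η := by
  simp only [Gf, eta_flp, ee_flp]

theorem Za_flp (g : Finset (JJ k)) (η : KK k → ℝ) : Za (flp g η) = Za η := by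
  simp only [Za, aa_flp]

theorem kc_flp {F : L → Set T} {x : T} {u : Sh L n k} {η : KK k → ℝ} (g : Finset (JJ k)) :
    Kc F x u (flp g η) ↔ Kc F x u η := by
  constructor
  · rintro ⟨h1, h2, h3, h4, h5⟩
    rw [ee_flp] at h1
    rw [eta_flp] at h4 h5
    exact ⟨h1, h2, h3, h4, h5⟩
  · rintro ⟨h1, h2, h3, h4, h5⟩
    exact ⟨by rwa [ee_flp], h2, h3, by rwa [eta_flp], by rwa [eta_flp]⟩

theorem Gs_smul (g : Γ) (u : Sh L n k) (t : L → ℝ) (η : KK k → ℝ) :
    Gs (g • u) (fun y => t (g⁻¹ • y)) η = Gs u t η := by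
  funext c
  have h : (lab (g • u) c).elim 0 (fun y => t (g⁻¹ • y)) = (lab u c).elim 0 t := by
    rcases c with c | K
    · change ((u.lam c).map (g • ·)).elim 0 (fun y => t (g⁻¹ • y)) = (u.lam c).elim 0 t
      cases u.lam c <;> simp
    · rfl
  unfold Gs
  rw [h]
  rfl

/-- `Gs` is affine in `t` -/
theorem Gs_sum {ι : Type} [Fintype ι] (u : Sh L n k) {b : ι → ℝ} (hb : ∑ i, b i = 1)
    (t : ι → L → ℝ) (η : KK k → ℝ) :
    ∑ i, b i • Gs u (t i) η = Gs u (fun y => ∑ i, b i * t i y) η := by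
  funext c
  simp only [Finset.sum_apply, Pi.smul_apply, smul_eq_mul, Gs, mul_add, Finset.sum_add_distrib,
    ← Finset.sum_mul, hb, one_mul]
  congr 1
  cases lab u c with
  | none => simp
  | some y => simp [Finset.mul_sum, mul_left_comm]

theorem Kc.mem_UU {F : L → Set T} {x : T} {u : Sh L n k} {η : KK k → ℝ} (h : Kc F x u η) :
    η ∈ UU k :=
  mem_UU_of_ee fun K => (h.e K).trans (MM_inv_le n k)

theorem Kc.aa_le {F : L → Set T} {x : T} {u : Sh L n k} {η : KK k → ℝ} (h : Kc F x u η)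
    (j : Fin k) : aa η j ≤ 2 := by
  have h1 := h.lo (u.pos (Sum.inr j))
  have h2 := h.m'
  have h3 := MM_inv_le n k
  have h4 : aa η j ≤ ∑ i ∈ blk ∅ (Sum.inr j : Col n k), aa η i :=
    Finset.single_le_sum (fun i _ => aa_nonneg η i) (by simp [blk])
  rw [eta, Equiv.symm_apply_apply] at h1
  linarith

/-- convexity of `Prob` -/
theorem convex_prob {R : L → Set T} {x : T} (h : {y | x ∈ R y}.Finite) :
    Convex ℝ {t : L → ℝ | Prob R x t} := by
  intro t ht t' ht' a b ha hb hab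
  have f1 : Function.HasFiniteSupport t := h.subset ht.supp
  have f2 : Function.HasFiniteSupport t' := h.subset ht'.supp
  refine ⟨fun y => add_nonneg (mul_nonneg ha (ht.nn y)) (mul_nonneg hb (ht'.nn y)),
    fun y hy => ?_, ?_⟩
  · by_contra hn
    have e1 : t y = 0 := by_contra fun h0 => hn (ht.supp y h0)
    have e2 : t' y = 0 := by_contra fun h0 => hn (ht'.supp y h0)
    exact hy (by simp [e1, e2])
  · change ∑ᶠ y, (a * t y + b * t' y) = 1
    rw [finsum_add_distrib (f1.subset (Function.support_mul_subset_right _ _))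
      (f2.subset (Function.support_mul_subset_right _ _)), ← mul_finsum, ← mul_finsum, ht.sum,
      ht'.sum, mul_one, mul_one, hab]

open Classical in
theorem prob_single {R : L → Set T} {x : T} {y : L} (h : x ∈ R y) :
    Prob R x (Pi.single y 1) := by
  refine ⟨fun z => ?_, fun z hz => ?_, ?_⟩
  · rw [Pi.single_apply]
    split_ifs
    exacts [zero_le_one, le_rfl]
  · by_contra hn
    exact hz (Pi.single_eq_of_ne (fun e : z = y => hn (e ▸ h)) _)
  · rw [finsum_eq_single _ y fun z hz => Pi.single_eq_of_ne hz _, Pi.single_eq_same]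

theorem convex_Gs {R : L → Set T} {x : T} (h : {y | x ∈ R y}.Finite) (u : Sh L n k)
    (η : KK k → ℝ) : Convex ℝ {z | ∃ t, Prob R x t ∧ z = Gs u t η} := by
  rintro _ ⟨t, ht, rfl⟩ _ ⟨t', ht', rfl⟩ a b ha hb hab
  refine ⟨_, convex_prob h ht ht' ha hb hab, ?_⟩
  have := Gs_sum u (b := ![a, b]) (by simpa using hab) ![t, t'] η
  simp only [Fin.sum_univ_two, Matrix.cons_val_zero, Matrix.cons_val_one] at this
  exact this

theorem Prob.finite {R : L → Set T} {x : T} {t : L → ℝ} (h : Prob R x t) :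
    Function.HasFiniteSupport t := by
  by_contra hn
  have := h.sum
  rw [finsum_of_infinite_support hn] at this
  exact zero_ne_one this

theorem Prob.le_one {R : L → Set T} {x : T} {t : L → ℝ} (h : Prob R x t) (y : L) : t y ≤ 1 :=
  h.sum ▸ single_le_finsum y h.finite h.nn

theorem elim_congr {o o' : Option L} {t : L → ℝ}
    (h : ∀ y, t y ≠ 0 → (o = some y ↔ o' = some y)) : o.elim 0 t = o'.elim 0 t := by
  have key : ∀ {o o' : Option L}, (∀ y, t y ≠ 0 → o = some y → o' = some y) →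
      o.elim 0 t ≠ 0 → o.elim 0 t = o'.elim 0 t := fun {o o'} h h0 => by
    cases o with
    | none => exact absurd rfl h0
    | some y => rw [h y h0 rfl]
  by_cases h1 : o.elim 0 t = 0
  · by_cases h2 : o'.elim 0 t = 0
    · rw [h1, h2]
    · exact (key (fun y hy => (h y hy).2) h2).symm
  · exact key (fun y hy => (h y hy).1) h1

theorem isClosed_kc [TopologicalSpace T] {F : L → Set T} (hc : ∀ y, IsClosed (F y))
    (u : Sh L n k) : IsClosed {z : T × (KK k → ℝ) | Kc F z.1 u z.2} := by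
  have c0 : Continuous fun z : T × (KK k → ℝ) => z.2 none := (continuous_apply none).comp
    continuous_snd
  have c1 : ∀ c, Continuous fun z : T × (KK k → ℝ) => eta u z.2 c := fun c =>
    (contDiff_eta u c).continuous.comp continuous_snd
  have h1 : IsClosed {z : T × (KK k → ℝ) | ∀ K, |ee z.2 K| ≤ (MM n k)⁻¹} := by
    rw [ofPred_forall]
    exact isClosed_iInter fun K => isClosed_le
      ((contDiff_ee K).continuous.comp continuous_snd).abs continuous_const
  have h4 : IsClosed {z : T × (KK k → ℝ) | ∀ c, -(MM n k)⁻¹ ≤ eta u z.2 c} := by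
    rw [ofPred_forall]
    exact isClosed_iInter fun c => isClosed_le continuous_const (c1 c)
  have h5 : IsClosed {z : T × (KK k → ℝ) | ∀ c, eta u z.2 c ≤ (MM n k)⁻¹ ∨
      ∃ y, u.lam c = some y ∧ z.1 ∈ F y} := by
    rw [ofPred_forall]
    refine isClosed_iInter fun c => (isClosed_le (c1 c) continuous_const).union ?_
    change IsClosed {z : T × (KK k → ℝ) | ∃ y, u.lam c = some y ∧ z.1 ∈ F y}
    cases u.lam c with
    | none => simp
    | some y =>
      simp only [Option.some.injEq, exists_eq_left']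
      exact (hc y).preimage continuous_fst
  convert h1.inter ((isClosed_le continuous_const c0 (f := fun _ => 3 * (MM n k)⁻¹)).inter
    ((isClosed_le c0 continuous_const (g := fun _ => 1 + (MM n k)⁻¹)).inter (h4.inter h5))) using 1
  ext z
  exact ⟨fun h => ⟨h.e, h.m, h.m', h.lo, h.act⟩, fun h => ⟨h.1, h.2.1, h.2.2.1, h.2.2.2.1, h.2.2.2.2⟩⟩

namespace Dat

variable (d : Dat Γ T L n k)

theorem Rel.eta_eq {d : Dat Γ T L n k} {η : KK k → ℝ} {u u' : Sh L n k} (r : d.Rel (Za η) u u') :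
    eta u η = eta u' η := funext fun c => by
  rw [C.eta_eq, C.eta_eq, r.blk]

theorem Rel.Gf_eq {d : Dat Γ T L n k} {η : KK k → ℝ} {u u' : Sh L n k} (r : d.Rel (Za η) u u') :
    Gf u η = Gf u' η := by
  simp only [Gf, r.eta_eq]

theorem Rel.Gs_eq {d : Dat Γ T L n k} {η : KK k → ℝ} {u u' : Sh L n k} (r : d.Rel (Za η) u u')
    {t : L → ℝ} (ht : ∀ y, t y ≠ 0 → y ∈ d.A (Za η) u) : Gs u t η = Gs u' t η := by
  funext c
  unfold Gs
  rw [r.Gf_eq]
  congr 2
  rcases c with c | K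
  · exact elim_congr fun y hy => r.lam c y (ht y hy)
  · rfl

/-- closed regions inside the open ones -/
structure Sub (F : L → Set T) : Prop where
  sub : ∀ y, F y ⊆ d.O y
  eqv : ∀ (g : Γ) y x, g • x ∈ F (g • y) ↔ x ∈ F y

variable {d} {F : L → Set T}

theorem Sub.mem_X (hF : d.Sub F) {x : T} {u : Sh L n k} {η : KK k → ℝ} (h : Kc F x u η) :
    x ∈ d.X (Za η) u := by
  intro c hc
  have h1 := eta_eq u η c
  rw [hc, Finset.sum_empty, sub_zero] at h1
  have h2 := h.m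
  have h3 := inv_pos.2 (MM_pos n k)
  obtain ⟨y, hy, hx⟩ := (h.act c).resolve_left (by linarith)
  exact ⟨y, hy, hF.sub y hx⟩

theorem Sub.kc_rel (hF : d.Sub F) {x : T} {u u' : Sh L n k} {η : KK k → ℝ}
    (r : d.Rel (Za η) u u') (h : Kc F x u η) : Kc F x u' η := by
  refine ⟨h.e, h.m, h.m', r.eta_eq ▸ h.lo, fun c => ?_⟩
  rw [← r.eta_eq]
  refine (h.act c).imp_right fun ⟨y, hy, hx⟩ => ⟨y, ?_, hx⟩
  exact (r.lam c y ⟨x, hF.sub y hx, hF.mem_X h⟩).1 hy

theorem Sub.kc_smul (hF : d.Sub F) {x : T} {u : Sh L n k} {η : KK k → ℝ} (h : Kc F x u η) (g : Γ) :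
    Kc F (g • x) (g • u) η := by
  refine ⟨h.e, h.m, h.m', h.lo, fun c => (h.act c).imp_right fun ⟨y, hy, hx⟩ =>
    ⟨g • y, ?_, (hF.eqv g y x).2 hx⟩⟩
  rw [Sh.smul_lam, hy]
  rfl

/-- **properness**: all labels charged by `t` are coloured, so some colour has height `≥ 1/D - δ` -/
theorem kc_of_norm {u : Sh L n k} (hu : d.Valid u) {x : T} {t : L → ℝ} (ht : Prob F x t)
    (hA : ∀ y, x ∈ F y → y ∈ d.A ∅ u) {η : KK k → ℝ} (h : ‖Gs u t η‖ ≤ 1) : Kc F x u η := by
  classical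
  have hM := MM_pos n k
  have hb : ∀ c, |Gs u t η c| ≤ 1 := fun c => (norm_le_pi_norm _ c).trans h
  have h1 : ∀ c, |(u.lam c).elim 0 t - eta u η c| ≤ (MM n k)⁻¹ := fun c => by
    have := hb (Sum.inl c)
    change |MM n k * (u.lam c).elim 0 t + -(MM n k * eta u η c)| ≤ 1 at this
    rw [← sub_eq_add_neg, ← mul_sub, abs_mul, abs_of_pos hM] at this
    rwa [inv_eq_one_div, le_div_iff₀' hM]
  have h2 : ∀ c, 0 ≤ (u.lam c).elim 0 t ∧ (u.lam c).elim 0 t ≤ 1 := fun c => by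
    cases u.lam c with
    | none => exact ⟨le_rfl, zero_le_one⟩
    | some y => exact ⟨ht.nn y, ht.le_one y⟩
  have h3 : ∀ c, (u.lam c).elim 0 t ≤ η none + (MM n k)⁻¹ := fun c => by
    linarith [(abs_le.1 (h1 c)).2, eta_le u η c]
  refine ⟨fun K => ?_, ?_, ?_, fun c => by linarith [(abs_le.1 (h1 c)).2, (h2 c).1], fun c => ?_⟩
  · have := hb (Sum.inr K)
    change |MM n k * 0 + MM n k * ee η K| ≤ 1 at this
    rw [mul_zero, zero_add, abs_mul, abs_of_pos hM] at this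
    rwa [inv_eq_one_div, le_div_iff₀' hM]
  · set S : Finset L := (Finset.univ.image u.lam).eraseNone with hS
    have hS' : ∀ y, y ∈ S ↔ ∃ c, u.lam c = some y := fun y => by simp [hS]
    have h4 := ht.sum
    rw [finsum_eq_sum_of_support_subset t (s := S) fun y hy =>
      (hS' y).2 ((hu.img y).2 (hA y (ht.supp y hy)))] at h4
    have h5 := Finset.sum_le_card_nsmul S t (η none + (MM n k)⁻¹) fun y hy => by
      obtain ⟨c, hc⟩ := (hS' y).1 hy
      have := h3 c
      rwa [hc] at this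
    have h6 : (S.card : ℝ) ≤ (n : ℝ) + 1 + k := by
      have := (Finset.card_eraseNone_le _).trans (Finset.card_image_le (s := Finset.univ)
        (f := u.lam))
      rw [Finset.card_univ, Fintype.card_sum, Fintype.card_fin, Fintype.card_fin] at this
      exact_mod_cast this
    have h7 := (h2 (Sum.inl 0)).1.trans (h3 _)
    rw [h4, nsmul_eq_mul] at h5
    have h8 := h5.trans (mul_le_mul_of_nonneg_right h6 h7)
    have h9 : MM n k * (MM n k)⁻¹ = 1 := mul_inv_cancel₀ hM.ne'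
    have h10 : (0 : ℝ) < (n : ℝ) + 1 + k := by positivity
    refine le_of_mul_le_mul_left ?_ h10
    unfold MM at h8 h9 ⊢
    linarith
  · have := (abs_le.1 (h1 (u.pos (Sum.inl 0)))).1
    rw [eta_top] at this
    linarith [(h2 (u.pos (Sum.inl 0))).2]
  · have := (abs_le.1 (h1 c)).1
    by_cases h0 : (u.lam c).elim 0 t = 0
    · exact Or.inl (by linarith)
    · right
      cases hc : u.lam c with
      | none => exact absurd (by rw [hc]; rfl) h0
      | some y => exact ⟨y, rfl, ht.supp y (by rwa [hc] at h0)⟩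

variable (d)

/-- the sheet of a point -/
def sh (p : d.gl.YY) : Sh L n k := p.1.1.u.1

/-- all sheets through a point of a section agree on the walls -/
theorem rel_sec (g : Finset (JJ k)) (v : d.VV) {η : KK k → ℝ} (h : η ∈ Ug g) :
    d.Rel (Za η) v.u.1 (d.sh (d.gl.sec g v η)) := by
  unfold sh
  rw [d.gl.sec_val g v h.1]
  refine d.gl.ΦS_rel (fun v v' => d.Rel (Za η) v.u.1 v'.u.1)
    ((rel_equiv (Za η)).comap fun v : d.VV => v.u.1) _ (fun I hI w => ?_) v
  exact ((w.l I).2.rel w.u).mono (sub_Za (abs_lt_of_mem h (mem_Ug_neg h.1) hI).le)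

theorem sec_snd (g : Finset (JJ k)) (v : d.VV) {η : KK k → ℝ} (h : η ∈ Ug g) :
    (d.gl.sec g v η).1.2 = η := by
  rw [d.gl.sec_val g v h.1]

/-- the map -/
def GG (t : L → ℝ) (p : d.gl.YY) : TT n k → ℝ := Gs (d.sh p) t p.1.2

/-- the domain -/
def ZZ : Set (T × d.gl.YY) := {z | z.1 ∈ d.X (Za z.2.1.2) (d.sh z.2)}

/-- the core -/
def KC (F : L → Set T) : Set (T × d.gl.YY) := {z | Kc F z.1 (d.sh z.2) z.2.1.2}

theorem GG_smul (g : Γ) (t : L → ℝ) (p : d.gl.YY) :
    d.GG (fun y => t (g⁻¹ • y)) (g • p) = d.GG t p :=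
  Gs_smul g (d.sh p) t p.1.2

theorem mem_ZZ_sec {g : Finset (JJ k)} {v : d.VV} {η : KK k → ℝ} (h : η ∈ Ug g) {x : T} :
    (x, d.gl.sec g v η) ∈ d.ZZ ↔ x ∈ d.X (Za η) v.u.1 := by
  change x ∈ d.X (Za (d.gl.sec g v η).1.2) (d.sh (d.gl.sec g v η)) ↔ _
  rw [d.sec_snd g v h, (d.rel_sec g v h).X]

theorem GG_sec {g : Finset (JJ k)} {v : d.VV} {η : KK k → ℝ} (h : η ∈ Ug g) {x : T}
    (hx : (x, d.gl.sec g v η) ∈ d.ZZ) {t : L → ℝ} (ht : ∀ y, t y ≠ 0 → x ∈ d.O y) :
    d.GG t (d.gl.sec g v η) = Gs v.u.1 t η := by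
  unfold GG
  rw [d.sec_snd g v h]
  exact ((d.rel_sec g v h).Gs_eq fun y hy => ⟨x, ht y hy, (d.mem_ZZ_sec h).1 hx⟩).symm

theorem inv_ZZ : Inv Γ d.ZZ :=
  fun g z hz => (X_smul _ g (d.sh z.2) z.1).2 hz

/-- on a wall which meets the domain the sign changes -/
theorem sgn_wall {g : Finset (JJ k)} {v : d.VV} {η : KK k → ℝ} (h : η ∈ Ug g) {I : JJ k}
    (hI : η (some I) = 0) {x : T} (hx : (x, d.gl.sec g v η) ∈ d.ZZ) :
    d.sgn (d.gl.Φ I v).u = -d.sgn v.u :=
  (v.l I).2.sgn v.u ⟨x, X_anti (sub_Za (by rw [hI, abs_zero]; exact zero_le_one)) _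
    ((d.mem_ZZ_sec h).1 hx)⟩

theorem finite_sec (x : T) :
    {v : d.VV | ∃ g η, η ∈ Ug g ∧ (x, d.gl.sec g v η) ∈ d.ZZ}.Finite :=
  (d.finite_VV (d.finite_X x)).subset fun _ ⟨_, _, h, hx⟩ =>
    X_anti (Finset.empty_subset _) _ ((d.mem_ZZ_sec h).1 hx)

variable {d}

theorem Sub.mem_KC_sec (hF : d.Sub F) {g : Finset (JJ k)} {v : d.VV} {η : KK k → ℝ} (h : η ∈ Ug g)
    {x : T} : (x, d.gl.sec g v η) ∈ d.KC F ↔ Kc F x v.u.1 η := by
  change Kc F x (d.sh (d.gl.sec g v η)) (d.gl.sec g v η).1.2 ↔ _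
  rw [d.sec_snd g v h]
  exact ⟨hF.kc_rel ((rel_equiv _).symm (d.rel_sec g v h)), hF.kc_rel (d.rel_sec g v h)⟩

theorem Sub.KC_sub (hF : d.Sub F) : d.KC F ⊆ d.ZZ :=
  fun _ hz => hF.mem_X hz

theorem Sub.inv_KC (hF : d.Sub F) : Inv Γ (d.KC F) :=
  fun g _ hz => hF.kc_smul hz g

theorem Sub.mem_KC (hF : d.Sub F) {x : T} {p : d.gl.YY} (hz : (x, p) ∈ d.ZZ) {t : L → ℝ}
    (ht : Prob F x t) (h : ‖d.GG t p‖ ≤ 1) : (x, p) ∈ d.KC F :=
  kc_of_norm p.1.1.u.2 ht
    (fun y hy => ⟨x, hF.sub y hy, X_anti (Finset.empty_subset _) _ hz⟩) h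

variable [TopologicalSpace T]

theorem isOpen_X (hO : ∀ y, IsOpen (d.O y)) (I : Finset (Fin k)) (u : Sh L n k) :
    IsOpen (d.X I u) := by
  unfold X
  rw [ofPred_forall]
  refine isOpen_iInter_of_finite fun c => ?_
  rw [ofPred_forall]
  refine isOpen_iInter_of_finite fun _ => ?_
  cases u.lam c with
  | none => simp
  | some y => simpa using hO y

theorem isOpen_ZZ (hO : ∀ y, IsOpen (d.O y)) : IsOpen d.ZZ := by
  refine isOpen_iff_mem_nhds.2 fun z hz => ?_
  have c2 : Continuous fun w : T × d.gl.YY => w.2.1.2 := d.gl.continuous_snd.comp continuous_snd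
  have h1 : ∀ᶠ w : T × d.gl.YY in 𝓝 z, d.gl.In (neg z.2.1.2) z.2.1.1 w.2 :=
    ((d.gl.isOpen_in _ _).preimage continuous_snd).mem_nhds (d.gl.in_self z.2)
  have h2 : ∀ᶠ w : T × d.gl.YY in 𝓝 z, w.1 ∈ d.X (Za z.2.1.2) (d.sh z.2) :=
    ((isOpen_X hO _ _).preimage continuous_fst).mem_nhds hz
  have h3 : ∀ᶠ w : T × d.gl.YY in 𝓝 z, ∀ j, aa w.2.1.2 j = 0 → aa z.2.1.2 j = 0 :=
    eventually_all.2 fun j => by
      by_cases h0 : aa z.2.1.2 j = 0
      · exact .of_forall fun _ _ => h0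
      · filter_upwards [((contDiff_aa j).continuous.comp c2).continuousAt.eventually_ne h0]
          with w hw hw'
        exact absurd hw' hw
  filter_upwards [h1, h2, h3] with w h1 h2 h3
  obtain ⟨h4, h5⟩ := d.gl.in_iff.1 h1
  have h6 := (d.mem_ZZ_sec (v := z.2.1.1) h4).2
    (X_anti (fun j hj => mem_Za.2 (h3 j (mem_Za.1 hj))) _ h2)
  rwa [h5] at h6

theorem Sub.isClosed_KC (hF : d.Sub F) (hc : ∀ y, IsClosed (F y)) : IsClosed (d.KC F) := by
  refine isOpen_compl_iff.1 (isOpen_iff_mem_nhds.2 fun z hz => ?_)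
  have c2 : Continuous fun w : T × d.gl.YY => (w.1, w.2.1.2) :=
    continuous_fst.prodMk (d.gl.continuous_snd.comp continuous_snd)
  have h1 : ∀ᶠ w : T × d.gl.YY in 𝓝 z, d.gl.In (neg z.2.1.2) z.2.1.1 w.2 :=
    ((d.gl.isOpen_in _ _).preimage continuous_snd).mem_nhds (d.gl.in_self z.2)
  have h2 : ∀ᶠ w : T × d.gl.YY in 𝓝 z, ¬ Kc F w.1 (d.sh z.2) w.2.1.2 :=
    ((isClosed_kc hc (d.sh z.2)).isOpen_compl.preimage c2).mem_nhds hz
  filter_upwards [h1, h2] with w h1 h2 hw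
  obtain ⟨h4, h5⟩ := d.gl.in_iff.1 h1
  exact h2 ((hF.mem_KC_sec h4).1 (by rwa [h5]))

theorem Sub.isCompact_KC (hF : d.Sub F) (hc : ∀ y, IsClosed (F y)) {C : Set T} (hC : IsCompact C)
    (hfin : {y | (d.O y ∩ C).Nonempty}.Finite) : IsCompact (d.KC F ∩ C ×ˢ univ) := by
  obtain ⟨B, hB, hB'⟩ := exists_bound k 2
  let S : Finset (JJ k) → Set (KK k → ℝ) := fun g =>
    Metric.closedBall 0 B ∩ (Cg g ∩ {η | ∀ K, |ee η K| ≤ 1 / 4})
  have hS : ∀ g, IsCompact (S g) := fun g => by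
    refine (isCompact_closedBall 0 B).inter_right ((isClosed_Cg g).inter ?_)
    rw [ofPred_forall]
    exact isClosed_iInter fun K => isClosed_le (contDiff_ee K).continuous.abs continuous_const
  have hSU : ∀ g, S g ⊆ Ug g := fun g η hη => mem_Ug_of_Cg (mem_UU_of_ee hη.2.2) hη.2.1
  have hK : IsCompact (⋃ v ∈ {v : d.VV | v.u ∈ {u : d.U | u.1.sig 0 ∈ {y | (d.O y ∩ C).Nonempty}}},
      ⋃ g, d.gl.sec g v '' S g) :=
    (d.finite_VV (d.finite_sig hfin)).isCompact_biUnion fun v _ => isCompact_iUnion fun g =>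
      (hS g).image_of_continuousOn ((d.gl.continuousOn_sec g v).mono (hSU g))
  convert (hC.prod hK).inter_left (hF.isClosed_KC hc) using 1
  refine Set.ext fun z => and_congr_right fun hz => and_congr_right fun hx =>
    iff_of_true trivial ?_
  have hz' : Kc F z.1 (d.sh z.2) z.2.1.2 := hz
  have he : ∀ K, |ee z.2.1.2 K| ≤ 1 / 4 := fun K => (hz'.e K).trans (MM_inv_le n k)
  refine mem_biUnion (x := z.2.1.1) ⟨z.1, ?_, hx⟩ (mem_iUnion.2 ⟨neg z.2.1.2, z.2.1.2,
    ⟨?_, mem_Cg_neg _, he⟩, d.gl.sec_self z.2⟩)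
  · exact z.2.1.1.u.2.mem_X.1 (X_anti (Finset.empty_subset _) _ (hF.mem_X hz')) 0
  · rw [mem_closedBall_zero_iff, pi_norm_le_iff_of_nonneg (by linarith)]
    rintro (_ | K)
    · have h1 := hz'.m
      have h2 := hz'.m'
      have h3 := MM_inv_le n k
      have h4 := inv_pos.2 (MM_pos n k)
      rw [Real.norm_eq_abs, abs_le]
      constructor <;> linarith
    · exact (hB' _ he hz'.aa_le K).le

end Dat

end Crest.Agent.N222.C
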