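import Crest.Agent.N222.C.Poly

/-!
# Row 222, part C: the parameter space glued from sheets

`Gl Γ V k`: commuting involutions `Φ I`.  `G.YY = {(v, η) | η ∈ UU k}` with the topology for which the
sections `sec g v : η ↦ (Φ_{g ∆ neg η} v, η)` over `Ug g` are open embeddings.
-/

set_option autoImplicit false

open Set Filter Topology
open scoped symmDiff

noncomputable section

namespace Crest.Agent.N222.C

/-- gluing data -/
structure Gl (Γ V : Type) [Group Γ] [MulAction Γ V] (k : ℕ) where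
  Φ : JJ k → Equiv.Perm V
  sq : ∀ I, Φ I * Φ I = 1
  comm : ∀ I K, I ≤ K → Commute (Φ I) (Φ K)
  eqv : ∀ I (g : Γ) v, Φ I (g • v) = g • Φ I v
  reps : Finset V
  cover : ∀ v, ∃ g : Γ, g • v ∈ reps
  uniq : ∀ v ∈ reps, ∀ g : Γ, g • v ∈ reps → g = 1

variable {k : ℕ}

open Classical in
/-- the negative coordinates -/
def neg (η : KK k → ℝ) : Finset (JJ k) := Finset.univ.filter fun K => η (some K) < 0

/-- the open cell with its collar -/
def Ug (g : Finset (JJ k)) : Set (KK k → ℝ) :=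
  {η | η ∈ UU k ∧ ∀ K, (K ∈ g → η (some K) < 1) ∧ (K ∉ g → -1 < η (some K))}

/-- the closed cell -/
def Cg (g : Finset (JJ k)) : Set (KK k → ℝ) :=
  {η | ∀ K, (K ∈ g → η (some K) ≤ 0) ∧ (K ∉ g → 0 ≤ η (some K))}

theorem isOpen_Ug (g : Finset (JJ k)) : IsOpen (Ug g) := by
  refine isOpen_UU.inter ?_
  change IsOpen {η : KK k → ℝ | ∀ K, (K ∈ g → η (some K) < 1) ∧ (K ∉ g → -1 < η (some K))}
  rw [ofPred_forall]
  refine isOpen_iInter_of_finite fun K => ?_
  by_cases h : K ∈ g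
  · simpa [h] using isOpen_lt (continuous_apply (some K)) (continuous_const (y := (1 : ℝ)))
  · simpa [h] using isOpen_lt (continuous_const (y := (-1 : ℝ))) (continuous_apply (some K))

theorem isClosed_Cg (g : Finset (JJ k)) : IsClosed (Cg g) := by
  rw [Cg, ofPred_forall]
  refine isClosed_iInter fun K => ?_
  by_cases h : K ∈ g
  · simpa [h] using isClosed_le (continuous_apply (some K)) (continuous_const (y := (0 : ℝ)))
  · simpa [h] using isClosed_le (continuous_const (y := (0 : ℝ))) (continuous_apply (some K))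

theorem mem_Ug_of_Cg {g : Finset (JJ k)} {η : KK k → ℝ} (h : η ∈ UU k) (hc : η ∈ Cg g) :
    η ∈ Ug g := by
  exact ⟨h, fun K => ⟨fun hK => ((hc K).1 hK).trans_lt one_pos,
    fun hK => lt_of_lt_of_le (by norm_num) ((hc K).2 hK)⟩⟩

theorem mem_Cg_neg (η : KK k → ℝ) : η ∈ Cg (neg η) := by
  intro K
  simp only [neg, Finset.mem_filter, Finset.mem_univ, true_and, not_lt]
  exact ⟨le_of_lt, id⟩

theorem flp_mem_Cg (g : Finset (JJ k)) {η : KK k → ℝ} (h : ∀ K, 0 ≤ η (some K)) :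
    flp g η ∈ Cg g := by
  intro K
  refine ⟨fun hK => ?_, fun hK => ?_⟩
  · simpa [flp, hK] using h K
  · simpa [flp, hK] using h K

theorem abs_lt_of_mem {g g' : Finset (JJ k)} {η : KK k → ℝ} (h : η ∈ Ug g) (h' : η ∈ Ug g')
    {K : JJ k} (hK : K ∈ g ∆ g') : |η (some K)| < 1 := by
  rcases Finset.mem_symmDiff.1 hK with ⟨h1, h2⟩ | ⟨h1, h2⟩
  · exact abs_lt.2 ⟨(h'.2 K).2 h2, (h.2 K).1 h1⟩
  · exact abs_lt.2 ⟨(h.2 K).2 h2, (h'.2 K).1 h1⟩

theorem flp_symmDiff (g : Finset (JJ k)) (I : JJ k) {η : KK k → ℝ} (h : η (some I) = 0) :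
    flp (g ∆ {I}) η = flp g η := by
  funext K
  cases K with
  | none => rfl
  | some K =>
    by_cases hK : K = I
    · subst hK; simp [flp, h]
    · simp [flp, Finset.mem_symmDiff, hK]

theorem mem_Ug_neg {η : KK k → ℝ} (h : η ∈ UU k) : η ∈ Ug (neg η) :=
  mem_Ug_of_Cg h (mem_Cg_neg η)

namespace Gl

variable {Γ V : Type} [Group Γ] [MulAction Γ V] (G : Gl Γ V k)

include G in
theorem free (g : Γ) (v : V) (h : g • v = v) : g = 1 := by
  obtain ⟨a, ha⟩ := G.cover v
  have h1 : a * g * a⁻¹ = 1 := G.uniq _ ha _ (by rwa [mul_smul, inv_smul_smul, mul_smul, h])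
  simpa using h1

theorem pw {S : Finset (JJ k)} (h : IsChain (· ≤ ·) (S : Set (JJ k))) :
    (S : Set (JJ k)).Pairwise (Function.onFun Commute G.Φ) := fun a ha b hb hab => by
  rcases h ha hb hab with h | h
  · exact G.comm a b h
  · exact (G.comm b a h).symm

open Classical in
/-- the product of the involutions of a chain -/
def ΦS (S : Finset (JJ k)) : Equiv.Perm V :=
  if h : IsChain (· ≤ ·) (S : Set (JJ k)) then S.noncommProd G.Φ (G.pw h) else 1

theorem ΦS_empty : G.ΦS ∅ = 1 := by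
  simp [ΦS]

theorem ΦS_singleton (I : JJ k) : G.ΦS {I} = G.Φ I := by
  rw [ΦS, dif_pos (by simp), Finset.noncommProd_singleton]

theorem ΦS_insert {a : JJ k} {S : Finset (JJ k)} (ha : a ∉ S)
    (h : IsChain (· ≤ ·) (insert a (S : Set (JJ k)))) : G.ΦS (insert a S) = G.Φ a * G.ΦS S := by
  rw [ΦS, ΦS, dif_pos (by simpa using h), dif_pos (h.mono (subset_insert _ _)),
    Finset.noncommProd_insert_of_notMem _ _ _ _ ha]

theorem ΦS_single_symmDiff {a : JJ k} {S : Finset (JJ k)}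
    (h : IsChain (· ≤ ·) (insert a (S : Set (JJ k)))) : G.ΦS ({a} ∆ S) = G.Φ a * G.ΦS S := by
  by_cases ha : a ∈ S
  · have h1 : {a} ∆ S = S.erase a := by
      ext b; by_cases hb : b = a <;> simp [Finset.mem_symmDiff, hb, ha]
    have h2 := G.ΦS_insert (S.notMem_erase a)
      (h.mono (insert_subset_insert (Finset.coe_subset.2 (S.erase_subset a))))
    rw [Finset.insert_erase ha] at h2
    rw [h1, h2, ← mul_assoc, G.sq, one_mul]
  · have h1 : {a} ∆ S = insert a S := by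
      ext b; by_cases hb : b = a <;> simp [Finset.mem_symmDiff, hb, ha]
    rw [h1, G.ΦS_insert ha h]

theorem ΦS_symmDiff {S S' : Finset (JJ k)} (h : IsChain (· ≤ ·) ((S : Set (JJ k)) ∪ S')) :
    G.ΦS (S ∆ S') = G.ΦS S * G.ΦS S' := by
  induction S using Finset.induction_on with
  | empty => rw [ΦS_empty, one_mul]; exact congrArg _ (bot_symmDiff S')
  | insert a S ha ih =>
    have h1 : insert a S = {a} ∆ S := by
      ext b; by_cases hb : b = a <;> simp [Finset.mem_symmDiff, hb, ha]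
    rw [Finset.coe_insert] at h
    rw [G.ΦS_insert ha (h.mono subset_union_left), h1, symmDiff_assoc, G.ΦS_single_symmDiff,
      ih (h.mono (union_subset_union_left _ (subset_insert _ _))), mul_assoc]
    refine h.mono ?_
    rintro b (rfl | hb)
    · exact Or.inl (mem_insert _ _)
    · rcases Finset.mem_symmDiff.1 hb with hb | hb
      · exact Or.inl (mem_insert_of_mem _ hb.1)
      · exact Or.inr hb.1

theorem ΦS_ind (S : Finset (JJ k)) (p : Equiv.Perm V → Prop) (hm : ∀ a b, p a → p b → p (a * b))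
    (h1 : p 1) (h : ∀ I ∈ S, p (G.Φ I)) : p (G.ΦS S) := by
  rw [ΦS]
  split_ifs
  · exact Finset.noncommProd_induction _ _ _ p hm h1 h
  · exact h1

theorem ΦS_ΦS (S : Finset (JJ k)) (v : V) : G.ΦS S (G.ΦS S v) = v := by
  by_cases h : IsChain (· ≤ ·) (S : Set (JJ k))
  · rw [← Equiv.Perm.mul_apply, ← G.ΦS_symmDiff (by rwa [union_self]), symmDiff_self,
      Finset.bot_eq_empty, ΦS_empty, Equiv.Perm.one_apply]
  · simp [ΦS, h]

theorem ΦS_coc {a b c : Finset (JJ k)} {η : KK k → ℝ} (ha : η ∈ Ug a) (hb : η ∈ Ug b)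
    (hc : η ∈ Ug c) (v : V) : G.ΦS (a ∆ b) (G.ΦS (b ∆ c) v) = G.ΦS (a ∆ c) v := by
  rw [← Equiv.Perm.mul_apply, ← G.ΦS_symmDiff, symmDiff_assoc, symmDiff_symmDiff_cancel_left]
  refine IsChain.mono ?_ ha.1
  rintro K (hK | hK)
  · exact (abs_lt_of_mem ha hb hK).le
  · exact (abs_lt_of_mem hb hc hK).le

theorem ΦS_smul (S : Finset (JJ k)) (g : Γ) (v : V) : G.ΦS S (g • v) = g • G.ΦS S v := by
  refine G.ΦS_ind S (fun a => ∀ v, a (g • v) = g • a v) (fun a b ha hb v => ?_) (fun _ => rfl)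
    (fun I _ => G.eqv I g) v
  rw [Equiv.Perm.mul_apply, hb, ha, Equiv.Perm.mul_apply]

/-- a relation which contains the `Φ I`, `I ∈ S`, contains `ΦS S` -/
theorem ΦS_rel (r : V → V → Prop) (hr : Equivalence r) (S : Finset (JJ k))
    (h : ∀ I ∈ S, ∀ v, r v (G.Φ I v)) (v : V) : r v (G.ΦS S v) := by
  exact G.ΦS_ind S (fun a => ∀ v, r v (a v)) (fun a b ha hb v => hr.trans (hb v) (ha _))
    (fun _ => hr.refl _) h v

/-- the parameter space -/
def YY (_G : Gl Γ V k) : Type := {p : V × (KK k → ℝ) // p.2 ∈ UU k}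

/-- the point `p` lies on the section `sec g v` -/
def In (g : Finset (JJ k)) (v : V) (p : G.YY) : Prop :=
  p.1.2 ∈ Ug g ∧ G.ΦS (g ∆ neg p.1.2) p.1.1 = v

instance : TopologicalSpace G.YY :=
  TopologicalSpace.induced
    (fun p : G.YY => (p.1.2, fun c : Finset (JJ k) × V => G.In c.1 c.2 p)) inferInstance

instance : MulAction Γ G.YY where
  smul g p := ⟨(g • p.1.1, p.1.2), p.2⟩
  one_smul p := Subtype.ext (Prod.ext (one_smul _ _) rfl)
  mul_smul a b p := Subtype.ext (Prod.ext (mul_smul a b _) rfl)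

theorem smul_val (g : Γ) (p : G.YY) : (g • p).1 = (g • p.1.1, p.1.2) := rfl

open Classical in
/-- the section over `Ug g` through the sheet `v` -/
def sec (g : Finset (JJ k)) (v : V) (η : KK k → ℝ) : G.YY :=
  if h : η ∈ UU k then ⟨(G.ΦS (g ∆ neg η) v, η), h⟩ else ⟨(v, fun _ => 2), two_mem_UU⟩

theorem sec_val (g : Finset (JJ k)) (v : V) {η : KK k → ℝ} (h : η ∈ UU k) :
    (G.sec g v η).1 = (G.ΦS (g ∆ neg η) v, η) := by
  rw [sec, dif_pos h]

theorem sec_smul (γ : Γ) (g : Finset (JJ k)) (v : V) (η : KK k → ℝ) :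
    G.sec g (γ • v) η = γ • G.sec g v η := by
  refine Subtype.ext ?_
  rw [smul_val]
  by_cases h : η ∈ UU k
  · simp only [G.sec_val _ _ h, ΦS_smul]
  · simp only [sec, dif_neg h]

theorem sec_self (p : G.YY) : G.sec (neg p.1.2) p.1.1 p.1.2 = p := by
  refine Subtype.ext ?_
  rw [G.sec_val _ _ p.2, symmDiff_self, Finset.bot_eq_empty, ΦS_empty]
  rfl

/-- change of section -/
theorem sec_change {g g' : Finset (JJ k)} (v : V) {η : KK k → ℝ} (h : η ∈ Ug g) (h' : η ∈ Ug g') :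
    G.sec g' (G.ΦS (g ∆ g') v) η = G.sec g v η := by
  refine Subtype.ext ?_
  rw [G.sec_val _ _ h.1, G.sec_val _ _ h.1, symmDiff_comm g', symmDiff_comm g g',
    G.ΦS_coc (mem_Ug_neg h.1) h' h, symmDiff_comm g]

theorem in_iff {g : Finset (JJ k)} {v : V} {p : G.YY} :
    G.In g v p ↔ p.1.2 ∈ Ug g ∧ G.sec g v p.1.2 = p := by
  refine and_congr_right fun _ => ⟨fun h => Subtype.ext ?_, fun h => ?_⟩
  · rw [G.sec_val _ _ p.2, ← h, ΦS_ΦS]
  · have h1 := congrArg (fun q : G.YY => q.1.1) h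
    simp only [G.sec_val _ _ p.2] at h1
    rw [← h1, ΦS_ΦS]

theorem in_sec {g g' : Finset (JJ k)} {v v' : V} {η : KK k → ℝ} (h : η ∈ Ug g) :
    G.In g' v' (G.sec g v η) ↔ η ∈ Ug g' ∧ G.ΦS (g' ∆ g) v = v' := by
  rw [In, G.sec_val _ _ h.1]
  refine and_congr_right fun h' => ?_
  rw [symmDiff_comm g, G.ΦS_coc h' (mem_Ug_neg h.1) h]

theorem in_smul {g : Finset (JJ k)} {v : V} (γ : Γ) {p : G.YY} :
    G.In g v (γ • p) ↔ G.In g (γ⁻¹ • v) p := by
  rw [In, In, smul_val, ΦS_smul, eq_inv_smul_iff]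

theorem in_self (p : G.YY) : G.In (neg p.1.2) p.1.1 p :=
  G.in_iff.2 ⟨mem_Ug_neg p.2, G.sec_self p⟩

theorem continuous_snd : Continuous fun p : G.YY => p.1.2 := by
  exact continuous_fst.comp (continuous_induced_dom
    (f := fun p : G.YY => (p.1.2, fun c : Finset (JJ k) × V => G.In c.1 c.2 p)))

theorem isOpen_in (g : Finset (JJ k)) (v : V) : IsOpen {p : G.YY | G.In g v p} := by
  exact continuous_Prop.1 ((continuous_apply (g, v)).comp (_root_.continuous_snd.comp
    (continuous_induced_dom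
      (f := fun p : G.YY => (p.1.2, fun c : Finset (JJ k) × V => G.In c.1 c.2 p)))))

theorem continuous_to {X : Type} [TopologicalSpace X] {f : X → G.YY}
    (h1 : Continuous fun x => (f x).1.2) (h2 : ∀ g v, IsOpen {x | G.In g v (f x)}) :
    Continuous f :=
  continuous_induced_rng.2 (h1.prodMk (continuous_pi fun c => continuous_Prop.2 (h2 c.1 c.2)))

theorem continuousOn_sec (g : Finset (JJ k)) (v : V) : ContinuousOn (G.sec g v) (Ug g) := by
  rw [continuousOn_iff_continuous_domRestrict]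
  refine G.continuous_to (continuous_subtype_val.congr fun η => ?_) fun g' v' => ?_
  · rw [domRestrict_apply, G.sec_val _ _ η.2.1]
  · simp only [domRestrict_apply, fun η : Ug g => G.in_sec (g' := g') (v := v) (v' := v') η.2]
    exact ((isOpen_Ug g').preimage continuous_subtype_val).inter isOpen_const

/-- the chart -/
def chart (g : Finset (JJ k)) (v : V) : OpenPartialHomeomorph G.YY (KK k → ℝ) where
  toFun p := p.1.2
  invFun := G.sec g v
  source := {p | G.In g v p}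
  target := Ug g
  map_source' p hp := hp.1
  map_target' η hη := (G.in_sec hη).2 ⟨hη, by rw [symmDiff_self, Finset.bot_eq_empty, ΦS_empty]; rfl⟩
  left_inv' p hp := (G.in_iff.1 hp).2
  right_inv' η hη := by rw [G.sec_val _ _ hη.1]
  open_source := G.isOpen_in g v
  open_target := isOpen_Ug g
  continuousOn_toFun := G.continuous_snd.continuousOn
  continuousOn_invFun := G.continuousOn_sec g v

instance : T2Space G.YY := by
  refine ⟨fun p q hpq => ?_⟩
  by_cases h : p.1.2 = q.1.2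
  · refine ⟨_, _, G.isOpen_in (neg p.1.2) p.1.1, G.isOpen_in (neg q.1.2) q.1.1, G.in_self p,
      G.in_self q, disjoint_left.2 fun r hr hr' => hpq (Subtype.ext (Prod.ext ?_ h))⟩
    rw [← hr.2, ← hr'.2, h]
  · exact separated_by_continuous G.continuous_snd h

instance : ContinuousConstSMul Γ G.YY := by
  refine ⟨fun γ => G.continuous_to G.continuous_snd fun g v => ?_⟩
  simp only [G.in_smul]
  exact G.isOpen_in _ _

theorem secondCountable [Countable Γ] : SecondCountableTopology G.YY := by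
  have : Countable V := by
    refine Function.Surjective.countable (f := fun c : Γ × G.reps => c.1⁻¹ • c.2.1) fun v => ?_
    obtain ⟨a, ha⟩ := G.cover v
    exact ⟨(a, ⟨_, ha⟩), inv_smul_smul a v⟩
  have : SecondCountableTopology Prop := ⟨⟨{{True}}, countable_singleton _, rfl⟩⟩
  exact TopologicalSpace.secondCountableTopology_induced _ _ _

/-- the closed cell of the sheet `v` is closed -/
theorem isClosed_cell (g : Finset (JJ k)) (v : V) :
    IsClosed {p : G.YY | G.In g v p ∧ p.1.2 ∈ Cg g} := by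
  have : {p : G.YY | G.In g v p ∧ p.1.2 ∈ Cg g}ᶜ =
      (fun p : G.YY => p.1.2) ⁻¹' (Cg g)ᶜ ∪ ⋃ v' ∈ ({v}ᶜ : Set V), {p | G.In g v' p} := by
    ext p
    simp only [mem_compl_iff, mem_ofPred_eq, mem_union, mem_preimage, mem_iUnion, mem_singleton_iff,
      exists_prop]
    constructor
    · intro h
      by_cases hc : p.1.2 ∈ Cg g
      · have hU := mem_Ug_of_Cg p.2 hc
        exact Or.inr ⟨_, fun h1 => h ⟨⟨hU, h1⟩, hc⟩, hU, rfl⟩
      · exact Or.inl hc
    · rintro (h | ⟨v', h1, h2⟩) h'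
      · exact h h'.2
      · exact h1 (h2.2.symm.trans h'.1.2)
  rw [← isOpen_compl_iff, this]
  exact ((isClosed_Cg g).isOpen_compl.preimage G.continuous_snd).union
    (isOpen_biUnion fun v' _ => G.isOpen_in g v')

/-- the trace of a compact set on a closed cell is compact in the coordinates -/
theorem isCompact_trace {K : Set G.YY} (hK : IsCompact K) (g : Finset (JJ k)) (v : V) :
    IsCompact {η | η ∈ UU k ∧ η ∈ Cg g ∧ G.sec g v η ∈ K} := by
  convert (hK.inter_right (G.isClosed_cell g v)).image G.continuous_snd using 1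
  ext η
  constructor
  · rintro ⟨h1, h2, h3⟩
    have h4 : (G.sec g v η).1.2 = η := by rw [G.sec_val _ _ h1]
    exact ⟨_, ⟨h3, (G.chart g v).map_target (mem_Ug_of_Cg h1 h2), by rwa [h4]⟩, h4⟩
  · rintro ⟨p, ⟨h1, h2, h3⟩, rfl⟩
    exact ⟨p.2, h3, by rwa [(G.in_iff.1 h2).2]⟩

/-- the weight of the cell `g` -/
def tw (g : Finset (JJ k)) (η : KK k → ℝ) : ℝ :=
  ∏ K : JJ k, Real.smoothTransition ((if K ∈ g then -η (some K) else η (some K)) + 1 / 2)

theorem contDiff_tw (g : Finset (JJ k)) : ContDiff ℝ (⊤ : ℕ∞) (tw g) := by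
  refine contDiff_prod fun K _ => Real.smoothTransition.contDiff.comp ?_
  by_cases h : K ∈ g
  · simp only [if_pos h]; fun_prop
  · simp only [if_neg h]; fun_prop

theorem mem_Ug_of_tw {g : Finset (JJ k)} {η : KK k → ℝ} (h : η ∈ UU k)
    (hη : η ∈ tsupport (tw g)) : η ∈ Ug g := by
  have h1 : IsClosed {ξ : KK k → ℝ | ∀ K : JJ k,
      0 ≤ (if K ∈ g then -ξ (some K) else ξ (some K)) + 1 / 2} := by
    rw [ofPred_forall]
    refine isClosed_iInter fun K => isClosed_le continuous_const ?_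
    by_cases h : K ∈ g
    · simp only [if_pos h]; fun_prop
    · simp only [if_neg h]; fun_prop
  have h2 := closure_minimal (s := Function.support (tw g)) (fun ξ hξ K => le_of_not_ge fun h0 => hξ
    (Finset.prod_eq_zero (Finset.mem_univ K) (Real.smoothTransition.zero_of_nonpos h0))) h1 hη
  refine ⟨h, fun K => ⟨fun hK => ?_, fun hK => ?_⟩⟩
  · have := h2 K; rw [if_pos hK] at this; linarith
  · have := h2 K; rw [if_neg hK] at this; linarith

theorem sum_tw (η : KK k → ℝ) : ∑ g, tw g η = 1 := by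
  have h1 : ∀ x : ℝ, Real.smoothTransition (-x + 1 / 2) + Real.smoothTransition (x + 1 / 2) = 1 := by
    intro x
    have h2 := (Real.smoothTransition.pos_denom (x + 1 / 2)).ne'
    have h3 : -x + 1 / 2 = 1 - (x + 1 / 2) := by ring
    rw [h3, Real.smoothTransition, Real.smoothTransition, sub_sub_cancel,
      add_comm (expNegInvGlue (1 - _)), ← add_div, add_comm, div_self h2]
  have h2 := Finset.prod_add (fun K : JJ k => Real.smoothTransition (-η (some K) + 1 / 2))
    (fun K : JJ k => Real.smoothTransition (η (some K) + 1 / 2)) Finset.univ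
  simp only [h1, Finset.prod_const_one, Finset.powerset_univ] at h2
  rw [h2]
  refine Finset.sum_congr rfl fun g _ => ?_
  rw [tw, ← Finset.prod_mul_prod_compl g, Finset.compl_eq_univ_sdiff]
  congr 1
  · exact Finset.prod_congr rfl fun K hK => by rw [if_pos hK]
  · exact Finset.prod_congr rfl fun K hK => by rw [if_neg (Finset.mem_sdiff.1 hK).2]

theorem sum_ind (g : Finset (JJ k)) (p : G.YY) :
    ∑ v : G.reps, {ζ : G.YY | ∃ γ : Γ, G.In g v (γ • ζ)}.indicator (fun ζ => tw g ζ.1.2) p =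
      tw g p.1.2 := by
  by_cases h : p.1.2 ∈ Ug g
  · obtain ⟨a, ha⟩ := G.cover (G.ΦS (g ∆ neg p.1.2) p.1.1)
    rw [Finset.sum_eq_single ⟨_, ha⟩]
    · rw [indicator_of_mem]
      exact ⟨a, (G.in_smul a).2 ⟨h, (inv_smul_smul _ _).symm⟩⟩
    · intro v _ hv
      refine indicator_of_notMem ?_ _
      rintro ⟨b, hb⟩
      have h1 := ((G.in_smul b).1 hb).2
      have h2 : a * b⁻¹ = 1 := G.uniq _ v.2 _ (by rwa [mul_smul, ← h1])
      refine hv (Subtype.ext ?_)
      change _ = a • _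
      rw [h1, smul_smul, h2, one_smul]
    · simp
  · have h0 : tw g p.1.2 = 0 :=
      image_eq_zero_of_notMem_tsupport fun h' => h (mem_Ug_of_tw p.2 h')
    rw [h0]
    exact Finset.sum_eq_zero fun v _ => by
      rw [indicator_apply_eq_zero]; exact fun _ => h0

theorem isClosed_sat (g : Finset (JJ k)) (v : V) :
    IsClosed {ζ : G.YY | (∃ γ : Γ, G.In g v (γ • ζ)) ∧ ζ.1.2 ∈ tsupport (tw g)} := by
  have : {ζ : G.YY | (∃ γ : Γ, G.In g v (γ • ζ)) ∧ ζ.1.2 ∈ tsupport (tw g)}ᶜ =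
      (fun p : G.YY => p.1.2) ⁻¹' (tsupport (tw g))ᶜ ∪
        ⋃ v' ∈ {v' | ∀ γ : Γ, v' ≠ γ⁻¹ • v}, {p | G.In g v' p} := by
    ext p
    simp only [mem_compl_iff, mem_ofPred_eq, mem_union, mem_preimage, mem_iUnion, exists_prop,
      G.in_smul]
    constructor
    · intro h
      by_cases hc : p.1.2 ∈ tsupport (tw g)
      · have hU := mem_Ug_of_tw p.2 hc
        exact Or.inr ⟨_, fun γ h1 => h ⟨⟨γ, hU, h1⟩, hc⟩, hU, rfl⟩
      · exact Or.inl hc
    · rintro (h | ⟨v', h1, h2⟩) h'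
      · exact h h'.2
      · obtain ⟨γ, h3⟩ := h'.1
        exact h1 γ (h2.2.symm.trans h3.2)
  rw [← isOpen_compl_iff, this]
  exact ((isClosed_tsupport _).isOpen_compl.preimage G.continuous_snd).union
    (isOpen_biUnion fun v' _ => G.isOpen_in g v')

theorem finite_fst {A : Set G.YY} (hA : IsCompact A) : ((fun p : G.YY => p.1.1) '' A).Finite := by
  obtain ⟨s, hs⟩ := hA.elim_finite_subcover
    (fun c : Finset (JJ k) × V => {p : G.YY | G.In c.1 c.2 p}) (fun c => G.isOpen_in _ _)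
    fun p _ => mem_iUnion.2 ⟨(_, _), G.in_self p⟩
  refine (((s.finite_toSet.prod (finite_univ (α := Finset (JJ k)))).image
    fun c => G.ΦS c.2 c.1.2)).subset ?_
  rintro _ ⟨p, hp, rfl⟩
  obtain ⟨c, hc, h⟩ := mem_iUnion₂.1 (hs hp)
  exact ⟨(c, c.1 ∆ neg p.1.2), ⟨hc, trivial⟩,
    (congrArg (G.ΦS (c.1 ∆ neg p.1.2)) h.2.symm).trans (G.ΦS_ΦS _ _)⟩

theorem finite_smul {A B : Set G.YY} (hA : IsCompact A) (hB : IsCompact B) :
    {γ : Γ | ∃ η ∈ A, γ • η ∈ B}.Finite := by
  refine (((G.finite_fst hA).prod (G.finite_fst hB)).biUnion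
    (t := fun c => {γ : Γ | γ • c.1 = c.2}) fun c _ => Subsingleton.finite fun a ha b hb => ?_).subset ?_
  · have h : (b⁻¹ * a) • c.1 = c.1 := by
      rw [mul_smul, show a • c.1 = c.2 from ha, inv_smul_eq_iff]
      exact (show b • c.1 = c.2 from hb).symm
    exact (inv_mul_eq_one.1 (G.free _ _ h)).symm
  · rintro γ ⟨η, h1, h2⟩
    exact mem_biUnion (x := (η.1.1, (γ • η).1.1)) ⟨⟨η, h1, rfl⟩, ⟨_, h2, rfl⟩⟩ rfl

/-- the parameter space as a `Par` -/
def par : Par Γ (KK k) where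
  Y := G.YY
  cont := inferInstance
  t2 := inferInstance
  π p := p.1.2
  π_smul _ _ := rfl
  W := Finset (JJ k) × G.reps
  ch w := G.chart w.1 w.2
  ch_eq _ _ := rfl
  disj w γ p h h' := G.free γ w.2.1 (by
    rw [← eq_inv_smul_iff]; exact h.2.symm.trans ((G.in_smul γ).1 h').2)
  t w := tw w.1
  t_smooth w := contDiff_tw w.1
  t_nn _ _ := Finset.prod_nonneg fun _ _ => Real.smoothTransition.nonneg _
  t_supp _ p h := mem_Ug_of_tw p.2 h
  t_sum p := by
    rw [Fintype.sum_prod_type, ← sum_tw p.1.2]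
    exact Finset.sum_congr rfl fun g _ => G.sum_ind g p
  cls w := G.isClosed_sat w.1 w.2
  prop _ _ hA hB := G.finite_smul hA hB

/-- `C²` in the parameter, for all sections -/
def CC {T E : Type} [NormedAddCommGroup E] [NormedSpace ℝ E] (Ω : Set (T × G.YY))
    (f : T × G.YY → E) : Prop :=
  ∀ x g v, ContDiffOn ℝ 2 (fun ξ => f (x, G.sec g v ξ)) {ξ | ξ ∈ Ug g ∧ (x, G.sec g v ξ) ∈ Ω}

/-- from the finitely many charts to all sections, for an equivariant family -/
theorem cc_of_c2 {T E A : Type} [MulAction Γ T] [MulAction Γ A] [NormedAddCommGroup E]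
    [NormedSpace ℝ E] {Ω : Set (T × G.YY)} (hΩ : Inv Γ Ω) {f : A → T × G.YY → E}
    (he : ∀ (γ : Γ) a, ∀ z ∈ Ω, f (γ • a) (γ • z) = f a z) (h : ∀ a, C2 G.par Ω (f a)) (a : A) :
    G.CC Ω (f a) := by
  intro x g v
  obtain ⟨γ, hγ⟩ := G.cover v
  have e : ∀ ξ, (γ • x, G.sec g (γ • v) ξ) = γ • (x, G.sec g v ξ) := fun ξ => by
    rw [sec_smul]; rfl
  have h1 : ContDiffOn ℝ 2 (fun ξ => f (γ • a) (γ • x, G.sec g (γ • v) ξ))
      {ξ | ξ ∈ Ug g ∧ (γ • x, G.sec g (γ • v) ξ) ∈ Ω} := h (γ • a) (γ • x) (g, ⟨_, hγ⟩)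
  simp only [e] at h1
  exact (h1.mono fun ξ hξ => ⟨hξ.1, hΩ γ _ hξ.2⟩).congr fun ξ hξ => (he γ a _ hξ.2).symm

end Gl

end Crest.Agent.N222.C
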