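import Crest.Agent.N222.C.Loc

/-!
# Row 222, part C: the pairing on a grid

Non zero terms have `m a = m 0 + d a`, `d a ∈ {-1, 0, 1}^n`, `|m 0| ≤ M`.  `wG M m` only depends on `d`
(translation invariance), `∑_{m₀} th (t + m₀ / M) = M ^ n` (periodisation), hence
`∑_{m₀} VV ((m₀ + d) / M) = M ^ n ∫ jac = M ^ n κ det (d / M)`, `κ = ∫ det D(wt ∘ succ) ≠ 0`
(`bint_ne_zero`, `wt_inj_fderiv`); by multilinearity
`∑_d det (d / M) det (d th (M z - d a)) = n! det DL`, `L z l = ∑_{k = -1, 0, 1} th1 (M z l - k) k / M`,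
`det DL = ∏ ℓ' (M z l) ≥ 0`, `ℓ s = τ s + τ (s + 1) - 1` on `[-1, 1]`.
-/

set_option autoImplicit false

open Set Filter Topology Metric MeasureTheory

noncomputable section

namespace Crest.Agent.N222.C

variable {n : ℕ}

/-- the grid bump at `m / M` -/
def thM (M : ℕ) (m : Fin n → ℤ) (z : Fin n → ℝ) : ℝ := th fun l => M * z l - m l

/-- the grid points in the cube of radius `2` -/
def GA (n M : ℕ) : Finset (Fin n → ℤ) :=
  Fintype.piFinset fun _ => Finset.Icc (-(2 * M : ℤ)) (2 * M)

/-- the cycle of the grid partition -/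
def wG (M : ℕ) (m : Fin (n + 1) → Fin n → ℤ) : ℝ :=
  ∫ z, thM M (m 0) z * jac (fun z a => thM M (m a.succ) z) z

theorem sum_thM {M : ℕ} {z : Fin n → ℝ} (h : ‖z‖ ≤ 2) : ∑ m ∈ GA n M, thM M m z = 1 := by
  simp only [GA, thM, th]
  rw [← Finset.prod_univ_sum (fun _ : Fin n => Finset.Icc (-(2 * M : ℤ)) (2 * M))
    fun l (k : ℤ) => th1 (M * z l - k)]
  refine Finset.prod_eq_one fun l _ => ?_
  have h1 := abs_le.1 ((norm_le_pi_norm z l).trans h)
  have h2 : (0 : ℝ) ≤ M := Nat.cast_nonneg M
  refine sum_th1 ?_ ?_ <;> push_cast <;> nlinarith [h1.1, h1.2]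

theorem tsupport_thM {M : ℕ} (hM : 0 < M) (m : Fin n → ℤ) :
    tsupport (thM M m) ⊆ closedBall (fun l => (m l : ℝ) / M) (1 / M) := by
  refine closure_minimal (fun z hz => ?_) isClosed_closedBall
  have h1 : ‖fun l => (M : ℝ) * z l - m l‖ < 1 :=
    th_pos_iff.1 (lt_of_le_of_ne (th_nonneg _) (Ne.symm hz))
  have h2 : (0 : ℝ) < M := Nat.cast_pos.2 hM
  rw [mem_closedBall, dist_pi_le_iff (by positivity)]
  intro l
  have h3 : |(M : ℝ) * z l - m l| ≤ 1 := (norm_le_pi_norm (fun l => (M : ℝ) * z l - m l) l).trans h1.le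
  rw [Real.dist_eq, show z l - m l / M = (M * z l - m l) / M by field_simp, abs_div, abs_of_pos h2]
  exact div_le_div_of_nonneg_right h3 h2.le

namespace Grid

open Fintype (piFinset mem_piFinset)
open scoped ContDiff

/-- Cauchy-Binet, symmetric form -/
theorem andr {D : Type} [DecidableEq D] (s : Finset D) (u v : D → Fin n → ℝ) :
    ∑ d ∈ piFinset fun _ : Fin n => s, (Matrix.of fun a => u (d a)).det *
      (Matrix.of fun a => v (d a)).det =
      n.factorial * (Matrix.of fun l j => ∑ k ∈ s, u k l * v k j).det := by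
  have h1 : (Matrix.of fun l j => ∑ k ∈ s, u k l * v k j).det =
      ∑ d ∈ piFinset fun _ : Fin n => s, (∏ l, u (d l) l) * (Matrix.of fun a => v (d a)).det := by
    have := (Matrix.detRowAlternating : (Fin n → ℝ) [⋀^Fin n]→ₗ[ℝ] ℝ).toMultilinearMap.map_sum_finset
      (fun l k => u k l • v k) fun _ => s
    simp only [MultilinearMap.map_smul_univ, smul_eq_mul] at this
    refine Eq.trans ?_ this
    congr 1
    ext l j
    simp
  have h2 : ∀ σ : Equiv.Perm (Fin n), ∑ d ∈ piFinset fun _ : Fin n => s,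
      (((Equiv.Perm.sign σ : ℤ) : ℝ) * ∏ l, u (d (σ l)) l) * (Matrix.of fun a => v (d a)).det =
      ∑ d ∈ piFinset fun _ : Fin n => s, (∏ l, u (d l) l) * (Matrix.of fun a => v (d a)).det := by
    intro σ
    refine Finset.sum_equiv (Equiv.arrowCongr σ.symm (Equiv.refl D)) (fun d => ?_) fun d _ => ?_
    · simp only [mem_piFinset, Equiv.arrowCongr_apply, Equiv.symm_symm, Equiv.coe_refl]
      exact ⟨fun h a => h _, fun h a => by simpa using h (σ.symm a)⟩
    · have := Matrix.det_permute σ (Matrix.of fun a => v (d a))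
      change _ = (∏ l, u (d (σ l)) l) * ((Matrix.of fun a => v (d a)).submatrix σ id).det
      rw [this]
      ring
  simp only [fun d : Fin n → D => Matrix.det_apply' (Matrix.of fun a => u (d a)), Finset.sum_mul,
    Matrix.of_apply]
  rw [Finset.sum_comm, Finset.sum_congr rfl fun σ _ => h2 σ, h1]
  simp [Fintype.card_perm]

variable {M : ℕ}

theorem per1 (hM : 0 < M) {t : ℝ} (ht : |t| ≤ 1 / M) :
    ∑ j ∈ Finset.range (2 * M + 1), th1 (((j : ℝ) - M) / M + t) = M := by
  have h0 : (0 : ℝ) < M := Nat.cast_pos.2 hM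
  have ht' : |M * t| ≤ 1 := by
    rw [abs_mul, abs_of_pos h0, mul_comm]
    exact (le_div_iff₀ h0).1 ht
  set g : ℕ → ℝ := fun j => Real.smoothTransition (((j : ℝ) - M) / M + t) with hg
  have e : ∀ j : ℕ, th1 (((j : ℝ) - M) / M + t) = g (M + j) - g j := fun j => by
    simp only [th1, hg]
    congr 2
    push_cast
    field_simp
    ring
  have e1 := Finset.sum_range_add g M (2 * M + 1)
  have e2 := Finset.sum_range_add g (2 * M + 1) M
  have e3 : ∑ j ∈ Finset.range M, g j = 0 := Finset.sum_eq_zero fun j hj => by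
    refine Real.smoothTransition.zero_of_nonpos ?_
    have : (j : ℝ) + 1 ≤ M := by exact_mod_cast Finset.mem_range.1 hj
    rw [show ((j : ℝ) - M) / M + t = (j - M + M * t) / M by field_simp]
    exact div_nonpos_of_nonpos_of_nonneg (by linarith [(abs_le.1 ht').2]) h0.le
  have e4 : ∑ j ∈ Finset.range M, g (2 * M + 1 + j) = M := by
    rw [Finset.sum_congr rfl (g := fun _ => (1 : ℝ)) fun j _ => ?_]
    · simp
    refine Real.smoothTransition.one_of_one_le ?_
    have : (0 : ℝ) ≤ j := Nat.cast_nonneg j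
    push_cast
    rw [show (2 * (M : ℝ) + 1 + j - M) / M + t = (2 * M + 1 + j - M + M * t) / M by field_simp,
      le_div_iff₀ h0]
    linarith [(abs_le.1 ht').1]
  rw [add_comm M] at e1
  simp only [e, Finset.sum_sub_distrib]
  linarith

theorem per (hM : 0 < M) {t : Fin n → ℝ} (ht : ∀ l, |t l| ≤ 1 / M) :
    ∑ j ∈ piFinset fun _ : Fin n => Finset.range (2 * M + 1),
      th (fun l => ((j l : ℝ) - M) / M + t l) = M ^ n := by
  simp only [th]
  rw [← Finset.prod_univ_sum (fun _ : Fin n => Finset.range (2 * M + 1))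
    fun l (k : ℕ) => th1 (((k : ℝ) - M) / M + t l), Finset.prod_congr rfl fun l _ => per1 hM (ht l)]
  simp

theorem contDiff_thM (m : Fin n → ℤ) : ContDiff ℝ ∞ (thM M m) := contDiff_th.comp (by fun_prop)

theorem jac_eq {f : Fin n → (Fin n → ℝ) → ℝ} {z : Fin n → ℝ} (hf : ∀ a, DifferentiableAt ℝ (f a) z) :
    jac (fun z a => f a z) z =
      (Matrix.of fun a j => fderiv ℝ (f a) z (Pi.single j 1)).det := by
  rw [jac, fderiv_pi hf, det_eq_vol, vol_apply, ← Matrix.det_transpose]
  rfl

theorem cont_jac {F : (Fin n → ℝ) → Fin n → ℝ} (hF : ContDiff ℝ ∞ F) : Continuous (jac F) :=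
  ContinuousLinearMap.continuous_det.comp (hF.continuous_fderiv (by simp))

/-- the parametrisation of the standard simplex -/
def W (s : Fin n → ℝ) (a : Fin n) : ℝ := wt s a.succ

theorem contDiff_W : ContDiff ℝ ∞ (W : (Fin n → ℝ) → Fin n → ℝ) :=
  contDiff_pi.2 fun _ => contDiff_wt _

theorem kappa_ne : ∫ s in Icc (0 : Fin n → ℝ) 1, jac W s ≠ 0 := by
  have hU : IsOpen (univ.pi fun _ : Fin n => Ioi (0 : ℝ)) :=
    isOpen_set_pi finite_univ fun _ _ => isOpen_Ioi
  have := bint_ne_zero (w := fun _ => 1) continuous_const (fun _ => zero_le_one)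
    (contDiff_W.of_le (by simp)) (a := 0) (b := 1) hU
    (convex_pi fun _ _ => convex_Ioi 0).isPreconnected (fun s hs => jac_ne_zero fun v hv => by
      have hd : ∀ i, DifferentiableAt ℝ (fun z : Fin n → ℝ => wt z i) s := fun i =>
        (contDiff_wt i).differentiable (by simp) s
      have h1 : ∀ a : Fin n, fderiv ℝ (fun z : Fin n → ℝ => wt z a.succ) s v = 0 := fun a => by
        have := congrFun hv a
        rwa [show (W : (Fin n → ℝ) → Fin n → ℝ) = fun z a => wt z a.succ from rfl,
          fderiv_pi fun a => hd _] at this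
      refine wt_inj_fderiv (fun j => hs j trivial) v fun i => Fin.cases ?_ h1 i
      have e : (fun z : Fin n → ℝ => wt z 0) = fun z => 1 - ∑ a : Fin n, wt z a.succ := by
        funext z
        rw [← wt_sum z, Fin.sum_univ_succ, add_sub_cancel_right]
      rw [e, fderiv_const_sub, fderiv_fun_sum fun a _ => hd _]
      simp [h1])
    (fun x hx h => absurd (by
      rw [closure_pi_set]
      exact fun j _ => by simpa using hx.1 j) h) (x₀ := fun _ => 1 / 2) (fun _ _ => by norm_num)
    (fun _ => by norm_num) one_pos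
  simpa [bint, dens] using this

theorem VV_eq (x₀ : Fin n → ℝ) (y : Fin n → Fin n → ℝ) :
    VV (Fin.cons x₀ fun a => x₀ + y a) = ∫ s in Icc (0 : Fin n → ℝ) 1,
      th (x₀ + ∑ a, W s a • y a) * ((Matrix.of y).det * jac W s) := by
  let A : (Fin n → ℝ) →L[ℝ] Fin n → ℝ :=
    ∑ a, (ContinuousLinearMap.proj a : (Fin n → ℝ) →L[ℝ] ℝ).smulRight (y a)
  have hA : ∀ w, A w = ∑ a, w a • y a := fun w => by simp [A]
  have e : (fun s : Fin n → ℝ => ∑ i, wt s i •
      (Fin.cons x₀ (fun a => x₀ + y a) : Fin (n + 1) → Fin n → ℝ) i) = fun s => x₀ + A (W s) := by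
    funext s
    rw [Fin.sum_univ_succ, hA]
    simp only [Fin.cons_zero, Fin.cons_succ, smul_add, Finset.sum_add_distrib, ← Finset.sum_smul,
      ← add_assoc, ← add_smul, W]
    rw [← Fin.sum_univ_succ, wt_sum, one_smul]
  have hd : A.det = (Matrix.of y).det := by
    rw [det_eq_vol, vol_apply]
    congr 2
    funext j
    simp [hA, Pi.single_apply]
  simp only [VV, bint, dens, indicator_univ, e]
  refine integral_congr_ae (.of_forall fun s => ?_)
  have h1 : HasFDerivAt (fun s => x₀ + A (W s)) (A.comp (fderiv ℝ W s)) s :=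
    (A.hasFDerivAt.comp s (contDiff_W.differentiable (by simp) s).hasFDerivAt).const_add x₀
  have h2 : jac (fun s => x₀ + A (W s)) s = A.det * jac W s := by
    rw [jac, h1.fderiv]
    exact LinearMap.det_comp (A : (Fin n → ℝ) →ₗ[ℝ] Fin n → ℝ) (fderiv ℝ W s : _ →L[ℝ] _)
  simp only [h2, hd]
  rw [congrFun e s, hA]

theorem sum_VV (hM : 0 < M) {y : Fin n → Fin n → ℝ} (hy : ∀ a l, |y a l| ≤ 1 / M) :
    ∑ j ∈ piFinset fun _ : Fin n => Finset.range (2 * M + 1),
      VV (Fin.cons (fun l => ((j l : ℝ) - M) / M) fun a => (fun l => ((j l : ℝ) - M) / M) + y a) =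
      (Matrix.of y).det * (M ^ n * ∫ s in Icc (0 : Fin n → ℝ) 1, jac W s) := by
  simp only [VV_eq]
  have hW : ∀ a, Continuous fun s : Fin n → ℝ => W s a := fun a => (contDiff_wt _).continuous
  have hi : ∀ x₀ : Fin n → ℝ, IntegrableOn
      (fun s => th (x₀ + ∑ a, W s a • y a) * ((Matrix.of y).det * jac W s)) (Icc 0 1) := fun x₀ =>
    Continuous.integrableOn_Icc ((contDiff_th.continuous.comp (continuous_const.add
      (continuous_finsetSum _ fun a _ => (hW a).smul continuous_const))).mul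
        (continuous_const.mul (cont_jac contDiff_W)))
  rw [← integral_finsetSum _ fun j _ => hi _, ← integral_const_mul, ← integral_const_mul]
  refine setIntegral_congr_fun measurableSet_Icc fun s hs => ?_
  have h0 := wt_nonneg (s := s) hs.1 hs.2
  have h1 : ∀ l, |(∑ a, W s a • y a) l| ≤ 1 / M := fun l => by
    rw [Finset.sum_apply]
    refine (Finset.abs_sum_le_sum_abs _ _).trans ((Finset.sum_le_sum (g := fun a => W s a * (1 / M))
      fun a _ => ?_).trans ?_)
    · rw [Pi.smul_apply, smul_eq_mul, abs_mul, abs_of_nonneg (show 0 ≤ W s a from h0 a.succ)]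
      exact mul_le_mul_of_nonneg_left (hy a l) (h0 a.succ)
    · rw [← Finset.sum_mul]
      refine mul_le_of_le_one_left (by positivity) ?_
      have := wt_sum s
      rw [Fin.sum_univ_succ] at this
      simp only [W]
      linarith [h0 0]
  simp only [← Finset.sum_mul]
  rw [show (∑ j ∈ piFinset fun _ : Fin n => Finset.range (2 * M + 1),
    th ((fun l => ((j l : ℝ) - M) / M) + ∑ a, W s a • y a)) = M ^ n from per hM h1]
  ring

theorem wG_trans (hM : 0 < M) (c : Fin n → ℤ) (d : Fin n → Fin n → ℤ) :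
    wG M (Fin.cons c fun a => c + d a) = wG M (Fin.cons 0 d) := by
  have h0 : (M : ℝ) ≠ 0 := Nat.cast_ne_zero.2 hM.ne'
  have e : ∀ (k : Fin n → ℤ) (z : Fin n → ℝ),
      thM M (c + k) z = thM M k (z - fun l => (c l : ℝ) / M) := fun k z => by
    simp only [thM]
    congr 1
    funext l
    simp only [Pi.add_apply, Pi.sub_apply]
    push_cast
    field_simp
    ring
  simp only [wG, Fin.cons_zero, Fin.cons_succ, e]
  rw [← integral_sub_right_eq_self (fun z => thM M 0 z * jac (fun z a => thM M (d a) z) z)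
    fun l => (c l : ℝ) / M]
  refine integral_congr_ae (.of_forall fun z => ?_)
  simp only [jac]
  rw [← e 0 z, add_zero, fderiv_comp_sub (f := fun z a => thM M (d a) z)]

theorem near_of_wG (hM : 0 < M) {m : Fin (n + 1) → Fin n → ℤ} (h : wG M m ≠ 0) (a : Fin n)
    (l : Fin n) : m a.succ l - m 0 l ∈ Finset.Icc (-1 : ℤ) 1 := by
  obtain ⟨z, hz⟩ : ∃ z, thM M (m 0) z * jac (fun z a => thM M (m a.succ) z) z ≠ 0 := by
    by_contra hn
    exact h (integral_eq_zero_of_ae (.of_forall fun z => not_not.1 fun hz => hn ⟨z, hz⟩))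
  have h0 : (0 : ℝ) < M := Nat.cast_pos.2 hM
  have h1 : |(M : ℝ) * z l - m 0 l| < 1 := (norm_le_pi_norm (fun l => (M : ℝ) * z l - m 0 l) l).trans_lt
    (th_pos_iff.1 (lt_of_le_of_ne (th_nonneg _) (Ne.symm (left_ne_zero_of_mul hz))))
  have h2 : z ∈ tsupport (thM M (m a.succ)) := by
    by_contra hn
    refine right_ne_zero_of_mul hz ?_
    rw [jac_eq fun a => (contDiff_thM _).differentiable (by simp) z]
    refine Matrix.det_eq_zero_of_row_eq_zero a fun j => ?_
    rw [Matrix.of_apply, (notMem_tsupport_iff_eventuallyEq.1 hn).fderiv_eq]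
    simp
  have h3 := (dist_pi_le_iff (by positivity)).1 (mem_closedBall.1 (tsupport_thM hM _ h2)) l
  rw [Real.dist_eq, show z l - m a.succ l / M = (M * z l - m a.succ l) / M by field_simp, abs_div,
    abs_of_pos h0, div_le_div_iff_of_pos_right h0] at h3
  have h4 : ((-2 : ℤ) : ℝ) < ((m a.succ l - m 0 l : ℤ) : ℝ) := by
    push_cast
    linarith [(abs_lt.1 h1).1, (abs_le.1 h3).2]
  have h5 : ((m a.succ l - m 0 l : ℤ) : ℝ) < ((2 : ℤ) : ℝ) := by
    push_cast
    linarith [(abs_lt.1 h1).2, (abs_le.1 h3).1]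
  rw [Int.cast_lt] at h4 h5
  rw [Finset.mem_Icc]
  omega

theorem small_of_VV (hM : 0 < M) {m : Fin (n + 1) → Fin n → ℤ}
    (hn : ∀ (a : Fin n) l, m a.succ l - m 0 l ∈ Finset.Icc (-1 : ℤ) 1)
    (h : VV (fun a l => (m a l : ℝ) / M) ≠ 0) (l : Fin n) : -(M : ℤ) ≤ m 0 l ∧ m 0 l ≤ M := by
  have h0 : (0 : ℝ) < M := Nat.cast_pos.2 hM
  have hl : IsLinearMap ℝ fun t : Fin n → ℝ => t l := ⟨fun _ _ => rfl, fun _ _ => rfl⟩
  constructor
  · by_contra hc
    refine h (VV_eq_zero (convex_halfSpace_le hl (-1)) (fun i => ?_) fun t ht => ?_)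
    · have : m i l ≤ -(M : ℤ) := by
        refine Fin.cases (by omega) (fun a => ?_) i
        have := Finset.mem_Icc.1 (hn a l)
        omega
      change (m i l : ℝ) / M ≤ -1
      rw [div_le_iff₀ h0, neg_one_mul]
      exact_mod_cast this
    · exact (le_neg.1 ht).trans ((neg_le_abs _).trans (norm_le_pi_norm t l))
  · by_contra hc
    refine h (VV_eq_zero (convex_halfSpace_ge hl 1) (fun i => ?_) fun t ht => ?_)
    · have : (M : ℤ) ≤ m i l := by
        refine Fin.cases (by omega) (fun a => ?_) i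
        have := Finset.mem_Icc.1 (hn a l)
        omega
      change 1 ≤ (m i l : ℝ) / M
      rw [le_div_iff₀ h0, one_mul]
      exact_mod_cast this
    · exact le_trans ht ((le_abs_self _).trans (norm_le_pi_norm t l))

/-- the neighbours of the origin -/
abbrev DD (n : ℕ) : Finset (Fin n → ℤ) := piFinset fun _ => Finset.Icc (-1 : ℤ) 1

/-- the derivative of `ℓ` -/
def dl (s : ℝ) : ℝ := deriv Real.smoothTransition s + deriv Real.smoothTransition (s + 1)

theorem sum_DD {y : Fin n → ℝ} (hy : ∀ l, |(M : ℝ) * y l| < 1) (l : Fin n) :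
    ∑ k ∈ DD n, (k l : ℝ) / M * thM M k y = (Real.smoothTransition (M * y l) +
      Real.smoothTransition (M * y l + 1) - 1) / M := by
  have e : ∀ k : Fin n → ℤ, (k l : ℝ) / M * thM M k y =
      ∏ l', (if l' = l then (k l' : ℝ) / M else 1) * th1 (M * y l' - k l') := fun k => by
    rw [Finset.prod_mul_distrib, Finset.prod_ite_eq']
    simp [thM, th]
  simp only [e]
  rw [← Finset.prod_univ_sum (fun _ : Fin n => Finset.Icc (-1 : ℤ) 1)
    fun l' (c : ℤ) => (if l' = l then (c : ℝ) / M else 1) * th1 (M * y l' - c),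
    Finset.prod_eq_single l (fun l' _ h => ?_) (by simp)]
  · have h1 := abs_lt.1 (hy l)
    rw [show Finset.Icc (-1 : ℤ) 1 = {-1, 0, 1} from rfl]
    have e1 : Real.smoothTransition (M * y l - -1 + 1) = 1 :=
      Real.smoothTransition.one_of_one_le (by linarith)
    have e2 : Real.smoothTransition (M * y l - 1) = 0 :=
      Real.smoothTransition.zero_of_nonpos (by linarith)
    rw [Finset.sum_insert (by simp), Finset.sum_insert (by simp), Finset.sum_singleton]
    simp only [th1, if_true]
    push_cast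
    rw [e1, e2, sub_neg_eq_add, sub_add_cancel]
    ring
  · have h1 := abs_lt.1 (hy l')
    simp only [if_neg h, one_mul]
    exact sum_th1 (by push_cast; linarith) (by push_cast; linarith)

theorem sum_fderiv (hM : 0 < M) {z : Fin n → ℝ} (hz : thM M 0 z ≠ 0) (l j : Fin n) :
    ∑ k ∈ DD n, (k l : ℝ) / M * fderiv ℝ (thM M k) z (Pi.single j 1) =
      Matrix.diagonal (fun l => dl (M * z l)) l j := by
  have h0 : (M : ℝ) ≠ 0 := Nat.cast_ne_zero.2 hM.ne'
  have h1 : HasFDerivAt (fun y => ∑ k ∈ DD n, (k l : ℝ) / M * thM M k y)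
      (∑ k ∈ DD n, ((k l : ℝ) / M) • fderiv ℝ (thM M k) z) z :=
    HasFDerivAt.fun_sum fun k _ =>
      ((contDiff_thM k).differentiable (by simp) z).hasFDerivAt.const_mul _
  have hτ : ∀ s, HasDerivAt Real.smoothTransition (deriv Real.smoothTransition s) s := fun s =>
    ((Real.smoothTransition.contDiff (n := 1)).differentiable (by simp) s).hasDerivAt
  have hm : HasDerivAt (fun s : ℝ => M * s) M (z l) := by
    simpa using (hasDerivAt_id (z l)).const_mul (M : ℝ)
  have h2 : HasDerivAt (fun s : ℝ => (Real.smoothTransition (M * s) +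
      Real.smoothTransition (M * s + 1) - 1) / M) (dl (M * z l)) (z l) := by
    refine (((((hτ _).comp _ hm).add ((hτ _).comp _ (hm.add_const 1))).sub_const 1).div_const
      (M : ℝ)).congr_deriv ?_
    rw [dl]
    field_simp
  have h3 := h2.comp_hasFDerivAt z
    (ContinuousLinearMap.proj (R := ℝ) (φ := fun _ : Fin n => ℝ) l).hasFDerivAt
  have h4 : ∀ᶠ y in 𝓝 z, thM M 0 y ≠ 0 := (contDiff_thM 0).continuous.continuousAt.eventually_ne hz
  have h5 := h1.unique (h3.congr_of_eventuallyEq (h4.mono fun y hy => sum_DD (fun l => by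
    simpa using (norm_le_pi_norm (fun l => (M : ℝ) * y l - ((0 : Fin n → ℤ) l : ℤ)) l).trans_lt
      (th_pos_iff.1 (lt_of_le_of_ne (th_nonneg _) (Ne.symm hy)))) l))
  have h6 := congrArg (fun T : (Fin n → ℝ) →L[ℝ] ℝ => T (Pi.single j 1)) h5
  simpa [Matrix.diagonal_apply, Pi.single_apply] using h6

theorem sum_wG_pos (hM : 0 < M) : 0 < ∑ d ∈ piFinset fun _ : Fin n => DD n,
    wG M (Fin.cons 0 d) * (Matrix.of fun a l => (d a l : ℝ) / M).det := by
  have h0 : (0 : ℝ) < M := Nat.cast_pos.2 hM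
  have hc : HasCompactSupport (thM M (0 : Fin n → ℤ)) :=
    (isCompact_closedBall _ _).of_isClosed_subset (isClosed_tsupport _) (tsupport_thM hM 0)
  have hτ : ContDiff ℝ 1 Real.smoothTransition := Real.smoothTransition.contDiff (n := 1)
  have hdl : Continuous dl :=
    (hτ.continuous_deriv le_rfl).add ((hτ.continuous_deriv le_rfl).comp (by fun_prop))
  have hτ0 : ∀ s, 0 ≤ deriv Real.smoothTransition s := fun s =>
    Real.smoothTransition.monotone.deriv_nonneg
  have e : ∑ d ∈ piFinset fun _ : Fin n => DD n,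
      wG M (Fin.cons 0 d) * (Matrix.of fun a l => (d a l : ℝ) / M).det =
      ∫ z, thM M (0 : Fin n → ℤ) z * (n.factorial * ∏ l, dl (M * z l)) := by
    simp only [wG, Fin.cons_zero, Fin.cons_succ, ← integral_mul_const]
    have hi : ∀ (d : Fin n → Fin n → ℤ) (c : ℝ), Integrable fun z =>
        thM M 0 z * jac (fun z a => thM M (d a) z) z * c := fun d c => by
      have h1 : Continuous (jac fun z a => thM M (d a) z) :=
        cont_jac (contDiff_pi.2 fun a => contDiff_thM (d a))
      exact Integrable.mul_const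
        (((contDiff_thM 0).continuous.mul h1).integrable_of_hasCompactSupport hc.mul_right) c
    rw [← integral_finsetSum _ fun d _ => hi d _]
    refine integral_congr_ae (.of_forall fun z => ?_)
    by_cases hz : thM M (0 : Fin n → ℤ) z = 0
    · simp [hz]
    simp only [mul_assoc, ← Finset.mul_sum]
    congr 1
    have := andr (DD n) (fun k l => (k l : ℝ) / M) fun k j => fderiv ℝ (thM M k) z (Pi.single j 1)
    simp only [sum_fderiv hM hz] at this
    rw [← Matrix.det_diagonal]
    refine Eq.trans (Finset.sum_congr rfl fun d _ => ?_) this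
    rw [jac_eq fun a => (contDiff_thM (d a)).differentiable (by simp) z, mul_comm]
  rw [e]
  obtain ⟨s, hs, hd⟩ := exists_deriv_eq_slope Real.smoothTransition zero_lt_one
    hτ.continuous.continuousOn (hτ.differentiable one_ne_zero).differentiableOn
  refine Continuous.integral_pos_of_hasCompactSupport_nonneg_nonzero (x := fun _ => s / M)
    ((contDiff_thM 0).continuous.mul (by fun_prop)) hc.mul_right
    (fun z => mul_nonneg (th_nonneg _) (mul_nonneg (Nat.cast_nonneg _)
      (Finset.prod_nonneg fun l _ => add_nonneg (hτ0 _) (hτ0 _)))) (mul_pos ?_ (mul_pos ?_ ?_)).ne'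
  · refine th_pos_iff.2 ((pi_norm_lt_iff one_pos).2 fun l => ?_)
    simp only [mul_div_cancel₀ s h0.ne', Pi.zero_apply, Int.cast_zero, sub_zero, Real.norm_eq_abs]
    exact abs_lt.2 ⟨by linarith [hs.1], hs.2⟩
  · exact Nat.cast_pos.2 n.factorial_pos
  · refine Finset.prod_pos fun l _ => ?_
    rw [mul_div_cancel₀ s h0.ne', dl, hd]
    have := hτ0 (s + 1)
    simp only [Real.smoothTransition.one, Real.smoothTransition.zero]
    linarith

end Grid

open Grid Fintype in
theorem grid_sum {M : ℕ} (hM : 2 ≤ M) :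
    ∑ m : Fin (n + 1) → GA n M, wG M (fun a => m a) * VV (fun a l => ((m a).1 l : ℝ) / M) ≠ 0 := by
  have hM0 : 0 < M := by omega
  have h0 : (M : ℝ) ≠ 0 := Nat.cast_ne_zero.2 hM0.ne'
  set G : (Fin (n + 1) → Fin n → ℤ) → ℝ :=
    fun m => wG M m * VV (fun a l => (m a l : ℝ) / M) with hG
  have e1 : ∑ m : Fin (n + 1) → GA n M, G (fun a => m a) =
      ∑ m ∈ piFinset fun _ : Fin (n + 1) => GA n M, G m :=
    Finset.sum_of_injOn (fun m a => (m a).1) (fun m _ m' _ h => funext fun a =>
      Subtype.ext (congrFun h a)) (fun m _ => by simp)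
      (fun m hm h => absurd ⟨fun a => ⟨m a, mem_piFinset.1 hm a⟩, by simp, rfl⟩ h) fun _ _ => rfl
  have e2 : ∑ p ∈ (piFinset fun _ : Fin n => Finset.range (2 * M + 1)) ×ˢ
      (piFinset fun _ : Fin n => DD n), G (Fin.cons (fun l => (p.1 l : ℤ) - M)
        fun a => (fun l => (p.1 l : ℤ) - M) + p.2 a) =
      ∑ m ∈ piFinset fun _ : Fin (n + 1) => GA n M, G m := by
    refine Finset.sum_of_injOn (fun p => Fin.cons (fun l => (p.1 l : ℤ) - M)
      fun a => (fun l => (p.1 l : ℤ) - M) + p.2 a) (fun p _ p' _ h => ?_) (fun p hp => ?_)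
      (fun m _ h => ?_) fun _ _ => rfl
    · have h1 : p.1 = p'.1 := funext fun l => by
        have := congrFun (congrFun h 0) l
        simp only [Fin.cons_zero] at this
        omega
      refine Prod.ext h1 (funext fun a => ?_)
      have := congrFun h a.succ
      simp only [Fin.cons_succ, h1] at this
      exact add_left_cancel this
    · obtain ⟨h1, h2⟩ := Finset.mem_product.1 hp
      refine mem_piFinset.2 fun i => mem_piFinset.2 fun l => ?_
      have h3 := Finset.mem_range.1 (mem_piFinset.1 h1 l)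
      refine Fin.cases ?_ (fun a => ?_) i
      · simp only [Fin.cons_zero, Finset.mem_Icc]
        omega
      · have h4 := Finset.mem_Icc.1 (mem_piFinset.1 (mem_piFinset.1 h2 a) l)
        simp only [Fin.cons_succ, Pi.add_apply, Finset.mem_Icc]
        omega
    · by_contra hn
      have h1 := near_of_wG hM0 (left_ne_zero_of_mul hn)
      have h2 := small_of_VV hM0 h1 (right_ne_zero_of_mul hn)
      refine h ⟨(fun l => (m 0 l + M).toNat, fun a l => m a.succ l - m 0 l),
        Finset.mem_product.2 ⟨mem_piFinset.2 fun l => Finset.mem_range.2 ?_,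
          mem_piFinset.2 fun a => mem_piFinset.2 (h1 a)⟩, funext fun i => funext fun l => ?_⟩
      · have := h2 l
        simp only
        omega
      · have := h2 l
        refine Fin.cases ?_ (fun a => ?_) i
        · simp only [Fin.cons_zero]
          omega
        · simp only [Fin.cons_succ, Pi.add_apply]
          omega
  have e3 : ∀ d ∈ piFinset fun _ : Fin n => DD n,
      ∑ j ∈ piFinset fun _ : Fin n => Finset.range (2 * M + 1), G (Fin.cons (fun l => (j l : ℤ) - M)
        fun a => (fun l => (j l : ℤ) - M) + d a) =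
      wG M (Fin.cons 0 d) * (Matrix.of fun a l => (d a l : ℝ) / M).det *
        (M ^ n * ∫ s in Icc (0 : Fin n → ℝ) 1, jac W s) := by
    intro d hd
    rw [mul_assoc, ← sum_VV hM0 (y := fun a l => (d a l : ℝ) / M) fun a l => ?_, Finset.mul_sum]
    · refine Finset.sum_congr rfl fun j _ => ?_
      simp only [hG, wG_trans hM0]
      congr 2
      funext i l
      refine Fin.cases ?_ (fun a => ?_) i
      · simp
      · simp [add_div]
    · rw [abs_div, Nat.abs_cast]
      refine div_le_div_of_nonneg_right ?_ (Nat.cast_nonneg _)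
      exact_mod_cast abs_le.2 (Finset.mem_Icc.1 (mem_piFinset.1 (mem_piFinset.1 hd a) l))
  change ∑ m : Fin (n + 1) → GA n M, G (fun a => m a) ≠ 0
  rw [e1, ← e2, Finset.sum_product_right, Finset.sum_congr rfl e3, ← Finset.sum_mul]
  exact mul_ne_zero (sum_wG_pos hM0).ne' (mul_ne_zero (pow_ne_zero _ h0) kappa_ne)

end Crest.Agent.N222.C
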