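import Crest.Agent.N222.C.OA
import Crest.Agent.N222.C.Wt

/-!
# Row 222, part C: the local orientation cocycle
-/

set_option autoImplicit false

open Set Filter Topology Metric
open scoped ContDiff

noncomputable section

namespace Crest.Agent.N222.C

variable {n : ℕ}

/-- positive exactly on `(-1, 1)`; the integer translates sum to `1` -/
def th1 (s : ℝ) : ℝ := Real.smoothTransition (s + 1) - Real.smoothTransition s

/-- the grid bump -/
def th (z : Fin n → ℝ) : ℝ := ∏ l, th1 (z l)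

theorem contDiff_th1 : ContDiff ℝ ∞ th1 := by
  exact (Real.smoothTransition.contDiff.comp (contDiff_id.add contDiff_const)).sub
    Real.smoothTransition.contDiff

theorem th1_nonneg (s : ℝ) : 0 ≤ th1 s := by
  exact sub_nonneg.2 (Real.smoothTransition.monotone (by linarith))

theorem th1_pos_iff {s : ℝ} : 0 < th1 s ↔ |s| < 1 := by
  unfold th1
  rw [abs_lt]
  constructor
  · intro h
    constructor
    · by_contra h1
      rw [Real.smoothTransition.zero_of_nonpos (x := s + 1) (by linarith),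
        Real.smoothTransition.zero_of_nonpos (x := s) (by linarith)] at h
      simp at h
    · by_contra h1
      rw [Real.smoothTransition.one_of_one_le (x := s + 1) (by linarith),
        Real.smoothTransition.one_of_one_le (x := s) (by linarith)] at h
      simp at h
  · rintro ⟨h1, h2⟩
    rcases le_total s 0 with h | h
    · rw [Real.smoothTransition.zero_of_nonpos h, sub_zero]
      exact Real.smoothTransition.pos_of_pos (by linarith)
    · rw [Real.smoothTransition.one_of_one_le (x := s + 1) (by linarith), sub_pos]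
      exact Real.smoothTransition.lt_one_of_lt_one h2

/-- telescoping -/
theorem sum_th1 {s : ℝ} {a b : ℤ} (ha : (a : ℝ) ≤ s) (hb : s ≤ (b : ℝ)) :
    ∑ m ∈ Finset.Icc a b, th1 (s - m) = 1 := by
  have hab : a ≤ b := by exact_mod_cast ha.trans hb
  have key : ∀ c : ℤ, a ≤ c → ∑ m ∈ Finset.Icc a c, th1 (s - m) =
      Real.smoothTransition (s - a + 1) - Real.smoothTransition (s - c) := by
    intro c hc
    induction c, hc using Int.leInduction with
    | base => simp [th1]
    | succ c hc ih =>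
      rw [← Finset.insert_Icc_right_eq_Icc_add_one (by omega), Finset.sum_insert (by simp), ih, th1]
      have : s - ((c + 1 : ℤ) : ℝ) + 1 = s - c := by push_cast; ring
      rw [this]
      ring
  rw [key b hab, Real.smoothTransition.one_of_one_le (by linarith),
    Real.smoothTransition.zero_of_nonpos (by linarith), sub_zero]

theorem contDiff_th : ContDiff ℝ ∞ (th : (Fin n → ℝ) → ℝ) := by
  exact contDiff_prod fun l _ => contDiff_th1.comp (contDiff_apply ℝ ℝ l)

theorem th_nonneg (z : Fin n → ℝ) : 0 ≤ th z := by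
  exact Finset.prod_nonneg fun l _ => th1_nonneg _

theorem th_pos_iff {z : Fin n → ℝ} : 0 < th z ↔ ‖z‖ < 1 := by
  rw [pi_norm_lt_iff one_pos]
  constructor
  · intro h l
    have h1 : th1 (z l) ≠ 0 := fun h0 =>
      h.ne' (Finset.prod_eq_zero (Finset.mem_univ l) h0)
    exact th1_pos_iff.1 (lt_of_le_of_ne (th1_nonneg _) h1.symm)
  · intro h
    exact Finset.prod_pos fun l _ => th1_pos_iff.2 (h l)

/-- the integral of the bump over an affine simplex -/
def VV (x : Fin (n + 1) → Fin n → ℝ) : ℝ := bint th univ (fun s => ∑ i, wt s i • x i) 0 1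

/-- `box_stokes` in dimension `n + 1` -/
theorem cob_VV (x : Fin (n + 2) → Fin n → ℝ) : cob VV x = 0 := by
  set Φ : (Fin (n + 1) → ℝ) → Fin n → ℝ := fun s => ∑ i, wt s i • x i with hΦ
  have hsm : ContDiff ℝ 2 Φ := ContDiff.sum fun i _ =>
    ((contDiff_wt i).of_le (WithTop.coe_le_coe.2 (le_top : (2 : ℕ∞) ≤ ⊤))).smul contDiff_const
  have hst := box_stokes (w := th) (contDiff_th.of_le (by exact_mod_cast le_top))
    (a := 0) (b := 1) (fun _ => zero_le_one) isOpen_univ hsm.contDiffOn isCompact_Icc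
    (subset_univ (Icc 0 1)) (fun y hy _ hy' => absurd hy hy')
  have f1 : ∀ j : Fin (n + 1), bint th univ (Φ ∘ ins j 1) 0 1 =
      VV fun l => x (j.castSucc.succAbove l) := by
    intro j
    have : Φ ∘ ins j 1 = fun s => ∑ i, wt s i • x (j.castSucc.succAbove i) := by
      funext z
      simp only [hΦ, Function.comp, ins, wt_ins_one, sum_insertNth_smul]
    rw [this, VV]
  have f0 : bint th univ (Φ ∘ ins (Fin.last n) 0) 0 1 =
      VV fun l => x ((Fin.last (n + 1)).succAbove l) := by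
    have : Φ ∘ ins (Fin.last n) 0 = fun s => ∑ i, wt s i • x ((Fin.last (n + 1)).succAbove i) := by
      funext z
      simp only [hΦ, Function.comp, ins, wt_ins_zero_last, sum_insertNth_smul]
    rw [this, VV]
  have fd : ∀ j : Fin n, bint th univ (Φ ∘ ins j.castSucc 0) 0 1 = 0 := by
    intro j
    refine bint_eq_zero fun z _ _ => ?_
    rw [jac_eq_zero_of_update j (Eventually.of_forall fun c => ?_), mul_zero]
    simp only [hΦ, Function.comp, ins, wt_ins_zero_update]
  have hst' : ∑ i : Fin (n + 1), (-1 : ℝ) ^ (i : ℕ) *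
      (bint th univ (Φ ∘ ins i 1) 0 1 - bint th univ (Φ ∘ ins i 0) 0 1) = 0 := hst
  simp only [f1, mul_sub, Finset.sum_sub_distrib] at hst'
  rw [Fin.sum_univ_castSucc (fun j : Fin (n + 1) => (-1 : ℝ) ^ (j : ℕ) *
    bint th univ (Φ ∘ ins j 0) 0 1), f0] at hst'
  simp only [fd, mul_zero, Finset.sum_const_zero, zero_add, Fin.val_last] at hst'
  rw [cob, Fin.sum_univ_castSucc]
  simp only [Fin.val_castSucc, Fin.val_last, pow_succ, mul_neg, mul_one, neg_mul]
  linarith

theorem VV_eq_zero {x : Fin (n + 1) → Fin n → ℝ} {C : Set (Fin n → ℝ)} (hC : Convex ℝ C)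
    (hx : ∀ i, x i ∈ C) (h : ∀ t ∈ C, 1 ≤ ‖t‖) : VV x = 0 := by
  refine bint_eq_zero fun s hs _ => ?_
  have hm : ∑ i, wt s i • x i ∈ C :=
    hC.sum_mem (fun i _ => wt_nonneg (fun j => hs.1 j) (fun j => hs.2 j) i) (wt_sum _)
      fun i _ => hx i
  have h0 : th (∑ i, wt s i • x i) = 0 :=
    le_antisymm (not_lt.1 fun hp => (th_pos_iff.1 hp).not_ge (h _ hm)) (th_nonneg _)
  rw [h0, zero_mul]

namespace OA

variable {Γ T : Type} [Group Γ] [TopologicalSpace T] [MulAction Γ T] (A : OA Γ T n)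

/-- the distinguished chart is wandering -/
theorem lc_uniq {g k : Γ} {x : T} (hg : g • x ∈ (A.e A.i₀).source) (hk : k • x ∈ (A.e A.i₀).source) :
    g = k :=
  mul_inv_eq_one.1 (A.wand (g * k⁻¹) _ hk (by rwa [mul_smul, inv_smul_smul]))

theorem lc_isOpen_B (r : ℝ) : IsOpen (A.B r) := (A.e A.i₀).isOpen_inter_preimage isOpen_ball

open Classical in
/-- the local cocycle -/
def loc (x : Fin (n + 1) → T) : ℝ :=
  if h : ∃ g : Γ, ∀ a, g • x a ∈ A.B 3 then
    sg A.χ h.choose * VV fun a => A.e A.i₀ (h.choose • x a) else 0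

theorem loc_eq {x : Fin (n + 1) → T} {g : Γ} (h : ∀ a, g • x a ∈ A.B 3) :
    A.loc x = sg A.χ g * VV fun a => A.e A.i₀ (g • x a) := by
  have h' : ∃ g : Γ, ∀ a, g • x a ∈ A.B 3 := ⟨g, h⟩
  have e : h'.choose = g := A.lc_uniq (h'.choose_spec 0).1 (h 0).1
  rw [loc, dif_pos h', e]

theorem tw_loc : Tw A.χ A.loc := by
  intro g y
  by_cases h : ∃ k : Γ, ∀ a, k • y a ∈ A.B 3
  · obtain ⟨k, hk⟩ := h
    have hk' : ∀ a, (k * g⁻¹) • g • y a ∈ A.B 3 := fun a => by
      rw [mul_smul, inv_smul_smul]; exact hk a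
    rw [A.loc_eq hk, A.loc_eq (x := fun i => g • y i) hk', ← mul_assoc]
    simp only [mul_smul, inv_smul_smul]
    congr 1
    have e : sg A.χ k = sg A.χ (k * g⁻¹) * sg A.χ g := by
      simp only [sg, ← Int.cast_mul, ← Units.val_mul, ← map_mul, inv_mul_cancel_right]
    rw [e, mul_comm (sg A.χ (k * g⁻¹)), ← mul_assoc, sg_mul_self, one_mul]
  · have h' : ¬ ∃ k : Γ, ∀ a, k • g • y a ∈ A.B 3 := by
      rintro ⟨k, hk⟩
      exact h ⟨k * g, fun a => by rw [mul_smul]; exact hk a⟩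
    rw [loc, loc, dif_neg h, dif_neg h', mul_zero]

variable [T2Space T] [LocallyCompactSpace T] [ContinuousConstSMul Γ T]

/-- away from `Γ · B 2` the cochain vanishes near the diagonal (if `e (g • x₀) = z`, `‖z‖ ≥ 2`, use
`ball z 1`; otherwise `x₀` is outside the closed set `Γ · e.symm '' closedBall 0 3`) -/
theorem loc_zero (hp : Prp Γ T) {x₀ : T} (h : ∀ g : Γ, g • x₀ ∉ A.B 2) :
    ∃ W ∈ 𝓝 x₀, ∀ x : Fin (n + 1) → T, (∀ a, x a ∈ W) → A.loc x = 0 := by
  by_cases h1 : ∃ g : Γ, g • x₀ ∈ (A.e A.i₀).source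
  · obtain ⟨g, hg⟩ := h1
    have hz : 2 ≤ ‖A.e A.i₀ (g • x₀)‖ := by
      by_contra h2
      exact h g ⟨hg, mem_ball_zero_iff.2 (not_le.1 h2)⟩
    have ho : IsOpen ((fun x : T => g • x) ⁻¹'
        ((A.e A.i₀).source ∩ A.e A.i₀ ⁻¹' ball (A.e A.i₀ (g • x₀)) 1)) :=
      ((A.e A.i₀).isOpen_inter_preimage isOpen_ball).preimage (continuous_const_smul g)
    refine ⟨_, ho.mem_nhds ⟨hg, mem_ball_self one_pos⟩, fun x hx => ?_⟩
    by_cases h2 : ∃ k : Γ, ∀ a, k • x a ∈ A.B 3
    · obtain ⟨k, hk⟩ := h2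
      obtain rfl : k = g := A.lc_uniq (hk 0).1 (hx 0).1
      rw [A.loc_eq hk, VV_eq_zero (convex_ball (A.e A.i₀ (k • x₀)) 1) (fun a => (hx a).2)
        fun t ht => ?_, mul_zero]
      have h3 := norm_sub_norm_le (A.e A.i₀ (k • x₀)) t
      rw [mem_ball, dist_comm, dist_eq_norm] at ht
      linarith
    · rw [loc, dif_neg h2]
  · have hsub : closedBall (0 : Fin n → ℝ) 3 ⊆ (A.e A.i₀).target :=
      (closedBall_subset_closedBall (by norm_num)).trans A.big
    have hK : IsCompact ((A.e A.i₀).symm '' closedBall 0 3) :=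
      (isCompact_closedBall 0 3).image_of_continuousOn
        ((A.e A.i₀).continuousOn_symm.mono hsub)
    have hev := eventually_sub
      (F := fun g : Γ => (fun x : T => g • x) ⁻¹' ((A.e A.i₀).symm '' closedBall 0 3))
      (fun g => hK.isClosed.preimage (continuous_const_smul g))
      (fun N hN => (hp N _ hN hK).subset fun g ⟨y, hy, hyN⟩ => ⟨y, hyN, hy⟩) x₀
    refine ⟨_, hev, fun x hx => ?_⟩
    rw [loc, dif_neg]
    rintro ⟨k, hk⟩
    obtain ⟨z, hz, e⟩ := hx 0 k ⟨A.e A.i₀ (k • x 0), ball_subset_closedBall (hk 0).2,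
      (A.e A.i₀).left_inv (hk 0).1⟩
    exact h1 ⟨k, (show (A.e A.i₀).symm z = k • x₀ from e) ▸ (A.e A.i₀).map_target (hsub hz)⟩

theorem loc_cob (hp : Prp Γ T) (x₀ : T) :
    ∃ W ∈ 𝓝 x₀, ∀ x : Fin (n + 2) → T, (∀ a, x a ∈ W) → cob A.loc x = 0 := by
  by_cases h : ∀ g : Γ, g • x₀ ∉ A.B 2
  · obtain ⟨W, hW, h0⟩ := A.loc_zero hp h
    refine ⟨W, hW, fun x hx => Finset.sum_eq_zero fun i _ => ?_⟩
    rw [h0 _ fun a => hx _, mul_zero]
  · push Not at h
    obtain ⟨g, hg⟩ := h
    refine ⟨_, ((A.lc_isOpen_B 3).preimage (continuous_const_smul g)).mem_nhds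
      ⟨hg.1, ball_subset_ball (by norm_num) hg.2⟩, fun x hx => ?_⟩
    have e : cob A.loc x = cob (fun y : Fin (n + 1) → T =>
        sg A.χ g * VV fun a => A.e A.i₀ (g • y a)) x :=
      Finset.sum_congr rfl fun i _ => by rw [A.loc_eq (g := g) fun a => hx _]
    rw [e, cob_mul, cob_comp VV fun y : T => A.e A.i₀ (g • y), cob_VV, mul_zero]

theorem loc_far (hp : Prp Γ T) (x₀ : T) :
    ∃ W ∈ 𝓝 x₀, ∀ x : Fin (n + 1) → T, (∀ a, x a ∈ W) → (∃ a, ∀ g : Γ, g • x a ∉ A.B 2) →
      A.loc x = 0 := by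
  by_cases h : ∀ g : Γ, g • x₀ ∉ A.B 2
  · obtain ⟨W, hW, h0⟩ := A.loc_zero hp h
    exact ⟨W, hW, fun x hx _ => h0 x hx⟩
  · push Not at h
    obtain ⟨g, hg⟩ := h
    refine ⟨_, ((A.lc_isOpen_B 2).preimage (continuous_const_smul g)).mem_nhds hg, fun x hx hf => ?_⟩
    obtain ⟨a, ha⟩ := hf
    exact absurd (hx a) (ha g)

end OA

end Crest.Agent.N222.C
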