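import Crest.Agent.N222.C.Box
import Crest.Agent.N222.C.Alg
import Crest.Agent.N222.C.CovF
import Crest.Agent.R275.ZC1_352

/-!
# Row 222, part C: oriented atlases on the universal covering

`exists_OA`: basic charts `x ↦ (sheet at x) ≫ chartAt (p x) ≫ (EuclideanSpace ≃ Fin n → ℝ)`; the signs of
the Jacobians of the transition maps form a locally constant cocycle, trivial on the simply connected
`T` (`R275.ZC352.LPS.exists_isPrim`, `h i x` = sign of the transition from the chart `i` to the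
preferred chart of `x`); restrict the charts to the open sets where the sign is constant; the function
`x ↦ o i · o j · sign jac (tr g i j)` does not depend on `i, j`, is locally constant, hence constant,
and multiplicative in `g`.  Finally add a rescaled small chart.
-/

set_option autoImplicit false

open Set Filter Topology Metric
open scoped ContDiff Manifold

noncomputable section

namespace Crest.Agent.N222.C

/-- an atlas with orientation signs, compatible with the action -/
structure OA (Γ T : Type) [Group Γ] [TopologicalSpace T] [MulAction Γ T] (n : ℕ) where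
  χ : Γ →* ℤˣ
  I : Type
  e : I → OpenPartialHomeomorph T (Fin n → ℝ)
  o : I → ℝ
  o_eq : ∀ i, o i = 1 ∨ o i = -1
  cover : ∀ x, ∃ i, x ∈ (e i).source
  sm : ∀ (g : Γ) i j, ContDiffOn ℝ ∞ (fun z => e j (g • (e i).symm z))
    {z | z ∈ (e i).target ∧ g • (e i).symm z ∈ (e j).source}
  pos : ∀ (g : Γ) i j z, z ∈ (e i).target → g • (e i).symm z ∈ (e j).source →
    0 < o i * o j * sg χ g * jac (fun z => e j (g • (e i).symm z)) z
  /-- a distinguished chart -/
  i₀ : I
  big : closedBall 0 4 ⊆ (e i₀).target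
  wand : ∀ (g : Γ) x, x ∈ (e i₀).source → g • x ∈ (e i₀).source → g = 1

namespace Oa

open Crest.Agent.R275.ZC352

/-- the sign of a real number -/
def sgn (t : ℝ) : Additive ℤˣ := Additive.ofMul (if 0 < t then 1 else -1)

/-- the value of a sign -/
def val (a : Additive ℤˣ) : ℝ := ((a.toMul : ℤ) : ℝ)

theorem val_add (a b : Additive ℤˣ) : val (a + b) = val a * val b := by simp [val]

theorem val_eq (a : Additive ℤˣ) : val a = 1 ∨ val a = -1 :=
  (Int.units_eq_one_or a.toMul).imp (fun h => by simp [val, h]) fun h => by simp [val, h]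

theorem add_self (a : Additive ℤˣ) : a + a = 0 := Int.units_mul_self a.toMul

theorem sgn_mul {a b : ℝ} (h : a * b ≠ 0) : sgn (a * b) = sgn a + sgn b := by
  rcases (left_ne_zero_of_mul h).lt_or_gt with ha | ha <;>
    rcases (right_ne_zero_of_mul h).lt_or_gt with hb | hb
  · simp [sgn, mul_pos_of_neg_of_neg ha hb, ha.not_gt, hb.not_gt, add_self]
  · simp [sgn, (mul_neg_of_neg_of_pos ha hb).not_gt, ha.not_gt, hb]
  · simp [sgn, (mul_neg_of_pos_of_neg ha hb).not_gt, ha, hb.not_gt]
  · simp [sgn, mul_pos ha hb, ha, hb]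

theorem sgn_pos {a : ℝ} (h : a ≠ 0) : 0 < val (sgn a) * a := by
  rcases h.lt_or_gt with ha | ha
  · simp [sgn, val, ha.not_gt, ha]
  · simp [sgn, val, ha]

theorem sgn_ev {X : Type} [TopologicalSpace X] {f : X → ℝ} {x : X} (hf : ContinuousAt f x)
    (h : f x ≠ 0) : ∀ᶠ w in 𝓝 x, sgn (f w) = sgn (f x) := by
  rcases h.lt_or_gt with ha | ha
  · filter_upwards [hf.eventually (gt_mem_nhds ha)] with w hw
    simp [sgn, ha.not_gt, hw.not_gt]
  · filter_upwards [hf.eventually (lt_mem_nhds ha)] with w hw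
    simp [sgn, ha, hw]

/-- a smooth atlas with small charts -/
structure Atl (S : Type) [TopologicalSpace S] (n : ℕ) where
  K : Type
  c : K → OpenPartialHomeomorph S (Fin n → ℝ)
  κ : S → K
  mem : ∀ s, s ∈ (c (κ s)).source
  sm : ∀ k l, ContDiffOn ℝ ∞ (c l ∘ (c k).symm) ((c k).target ∩ (c k).symm ⁻¹' (c l).source)
  small : ∀ s, ∀ V ∈ 𝓝 s, ∃ k, ∀ z ∈ closedBall (0 : Fin n → ℝ) 4,
    z ∈ (c k).target ∧ (c k).symm z ∈ V

variable {n : ℕ} {S : Type} [TopologicalSpace S]

theorem exists_atl [ChartedSpace (EuclideanSpace ℝ (Fin n)) S] [IsManifold (𝓡 n) ∞ S] :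
    Nonempty (Atl S n) := by
  let L := EuclideanSpace.equiv (Fin n) ℝ
  refine ⟨⟨S × {A : EuclideanSpace ℝ (Fin n) ≃ₜ (Fin n → ℝ) // ContDiff ℝ ∞ A ∧ ContDiff ℝ ∞ A.symm},
    fun k => (chartAt (EuclideanSpace ℝ (Fin n)) k.1).transHomeomorph k.2.1,
    fun s => (s, ⟨L.toHomeomorph, L.contDiff, L.symm.contDiff⟩), fun s => mem_chart_source _ s,
    fun k l => ?_, fun s V hV => ?_⟩⟩
  · have h := contDiffOn_ext_coord_change (I := 𝓡 n) (n := ∞) l.1 k.1
    simp only [mfld_simps] at h
    exact l.2.2.1.comp_contDiffOn (h.comp k.2.2.2.contDiffOn fun z hz => hz)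
  · set c := chartAt (EuclideanSpace ℝ (Fin n)) s
    have hs : s ∈ c.source := mem_chart_source _ s
    have h1 : c.target ∩ c.symm ⁻¹' V ∈ 𝓝 (c s) :=
      inter_mem (c.open_target.mem_nhds (c.map_source hs))
        ((c.continuousAt_symm (c.map_source hs)).preimage_mem_nhds (by rwa [c.left_inv hs]))
    obtain ⟨δ, hδ, h2⟩ := Metric.mem_nhds_iff.1 h1
    set N := ‖(L.symm : (Fin n → ℝ) →L[ℝ] EuclideanSpace ℝ (Fin n))‖
    have hN : 0 ≤ N := norm_nonneg _
    have hr : 0 < δ / (4 * N + 1) := by positivity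
    set r := δ / (4 * N + 1) with hr'
    have s1 : ContDiff ℝ ∞ fun y : EuclideanSpace ℝ (Fin n) => L (r⁻¹ • (y - c s)) :=
      L.contDiff.comp ((contDiff_id.sub contDiff_const).const_smul _)
    have s2 : ContDiff ℝ ∞ fun z : Fin n → ℝ => c s + r • L.symm z :=
      contDiff_const.add (L.symm.contDiff.const_smul _)
    let A : EuclideanSpace ℝ (Fin n) ≃ₜ (Fin n → ℝ) :=
      { toFun := fun y => L (r⁻¹ • (y - c s))
        invFun := fun z => c s + r • L.symm z
        left_inv := fun y => by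
          simp only [L.symm_apply_apply, smul_inv_smul₀ hr.ne', add_sub_cancel]
        right_inv := fun z => by
          simp only [add_sub_cancel_left, inv_smul_smul₀ hr.ne', L.apply_symm_apply]
        continuous_toFun := s1.continuous
        continuous_invFun := s2.continuous }
    refine ⟨(s, ⟨A, s1, s2⟩), fun z hz => h2 (a := c s + r • L.symm z) ?_⟩
    rw [mem_ball_iff_norm, add_sub_cancel_left, norm_smul, Real.norm_eq_abs, abs_of_pos hr]
    have h3 : ‖L.symm z‖ ≤ N * 4 :=
      (L.symm : (Fin n → ℝ) →L[ℝ] EuclideanSpace ℝ (Fin n)).le_opNorm_of_le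
        (mem_closedBall_zero_iff.1 hz)
    have h4 : r * (4 * N + 1) = δ := by rw [hr']; field_simp
    nlinarith

namespace Atl

variable (A : Atl S n) {k l m : A.K} {s : S}

/-- the Jacobian of a transition map -/
def J (k l : A.K) (s : S) : ℝ := jac (A.c l ∘ (A.c k).symm) (A.c k s)

theorem isOpen_dom (k l : A.K) : IsOpen ((A.c k).target ∩ (A.c k).symm ⁻¹' (A.c l).source) :=
  (A.c k).isOpen_inter_preimage_symm (A.c l).open_source

theorem mem_dom (hk : s ∈ (A.c k).source) (hl : s ∈ (A.c l).source) :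
    A.c k s ∈ (A.c k).target ∩ (A.c k).symm ⁻¹' (A.c l).source :=
  ⟨(A.c k).map_source hk, by rwa [mem_preimage, (A.c k).left_inv hk]⟩

theorem diff (hk : s ∈ (A.c k).source) (hl : s ∈ (A.c l).source) :
    DifferentiableAt ℝ (A.c l ∘ (A.c k).symm) (A.c k s) :=
  ((A.sm k l).contDiffAt ((A.isOpen_dom k l).mem_nhds (A.mem_dom hk hl))).differentiableAt (by simp)

theorem J_mul (hk : s ∈ (A.c k).source) (hl : s ∈ (A.c l).source) (hm : s ∈ (A.c m).source) :
    A.J k m s = A.J l m s * A.J k l s := by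
  have h0 : (A.c l ∘ (A.c k).symm) (A.c k s) = A.c l s := by simp [(A.c k).left_inv hk]
  have h1 : A.c m ∘ (A.c k).symm =ᶠ[𝓝 (A.c k s)] (A.c m ∘ (A.c l).symm) ∘ (A.c l ∘ (A.c k).symm) := by
    filter_upwards [(A.isOpen_dom k l).mem_nhds (A.mem_dom hk hl)] with z hz
    simp [(A.c l).left_inv hz.2]
  rw [J, J, J, jac, jac, jac, h1.fderiv_eq, fderiv_comp _ (h0 ▸ A.diff hl hm) (A.diff hk hl), h0]
  exact LinearMap.det_comp (fderiv ℝ (A.c m ∘ (A.c l).symm) (A.c l s) : (Fin n → ℝ) →ₗ[ℝ] _)
    (fderiv ℝ (A.c l ∘ (A.c k).symm) (A.c k s) : (Fin n → ℝ) →ₗ[ℝ] _)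

theorem J_self (hk : s ∈ (A.c k).source) : A.J k k s = 1 := by
  have h1 : A.c k ∘ (A.c k).symm =ᶠ[𝓝 (A.c k s)] id :=
    (A.c k).eventually_right_inverse ((A.c k).map_source hk)
  rw [J, jac, h1.fderiv_eq, fderiv_id]
  exact LinearMap.det_id

theorem J_ne (hk : s ∈ (A.c k).source) (hl : s ∈ (A.c l).source) : A.J k l s ≠ 0 := fun h => by
  have := A.J_mul hk hl hk
  rw [A.J_self hk, h, mul_zero] at this
  exact one_ne_zero this

theorem J_cont (hk : s ∈ (A.c k).source) (hl : s ∈ (A.c l).source) : ContinuousAt (A.J k l) s :=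
  ContinuousLinearMap.continuous_det.continuousAt.comp (ContinuousAt.comp (f := A.c k)
    (((A.sm k l).continuousOn_fderiv_of_isOpen (A.isOpen_dom k l) (by simp)).continuousAt
      ((A.isOpen_dom k l).mem_nhds (A.mem_dom hk hl))) ((A.c k).continuousAt hk))

/-- the sign of the chart `k` relative to the preferred chart -/
def h (k : A.K) (s : S) : Additive ℤˣ := sgn (A.J k (A.κ s) s)

theorem h_sub (hk : s ∈ (A.c k).source) (hl : s ∈ (A.c l).source) :
    A.h k s - A.h l s = sgn (A.J k l s) := by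
  rw [h, h, A.J_mul hk hl (A.mem s), sgn_mul (mul_ne_zero (A.J_ne hl (A.mem s)) (A.J_ne hk hl)),
    add_sub_cancel_left]

/-- the local primitive system of the signs -/
def lps : LPS S (Additive ℤˣ) where
  ι := A.K
  U k := (A.c k).source
  isOpen k := (A.c k).open_source
  cover s := ⟨_, A.mem s⟩
  h := A.h
  loc k l s hk hl := by
    filter_upwards [(A.c k).open_source.mem_nhds hk, (A.c l).open_source.mem_nhds hl,
      sgn_ev (A.J_cont hk hl) (A.J_ne hk hl)] with w h1 h2 h3
    rw [A.h_sub h1 h2, A.h_sub hk hl, h3]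

include A in
theorem exists_oa (C : Cov S) : Nonempty (OA C.Γ C.T n) := by
  choose φ φ1 φ2 using C.loc
  have φ3 : ∀ x, φ x x ∈ (A.c (A.κ (C.p x))).source := fun x => by rw [← φ2]; exact A.mem _
  let _ : ChartedSpace (Fin n → ℝ) C.T :=
    { atlas := univ
      chartAt := fun x => (φ x).trans (A.c (A.κ (C.p x)))
      mem_chart_source := fun x => ⟨φ1 x, φ3 x⟩
      chart_mem_atlas := fun _ => mem_univ _ }
  have := ChartedSpace.locallyPathConnectedSpace (Fin n → ℝ) C.T
  obtain ⟨x0⟩ : Nonempty C.T := inferInstance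
  obtain ⟨F, -, hF⟩ := (A.lps.pull ⟨C.p, C.cov.continuous⟩).exists_isPrim x0 0
  have hO : ∀ k x, C.p x ∈ (A.c k).source →
      ∀ᶠ w in 𝓝 x, F w - A.h k (C.p w) = F x - A.h k (C.p x) := fun k x hx =>
    (hF k x hx).mono fun w hw => sub_eq_sub_iff_sub_eq_sub.1 hw
  have hg : ∀ (g : C.Γ) x, F (g • x) - F x = F (g • x0) - F x0 := fun g x => by
    refine sub_eq_sub_iff_sub_eq_sub.1 (LPS.IsPrim.sub_eq _ (F := fun y => F (g • y)) (fun k z hz => ?_)
      hF x0 x)
    have h1 := (continuous_const_smul g).continuousAt.eventually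
      (hF k (g • z) (show C.p (g • z) ∈ (A.c k).source by rw [C.p_smul]; exact hz))
    filter_upwards [h1] with w hw
    change _ = A.h k (C.p (g • w)) - A.h k (C.p (g • z)) at hw
    rwa [C.p_smul, C.p_smul] at hw
  have hV : ∀ k ε, IsOpen {x | C.p x ∈ (A.c k).source ∧ F x - A.h k (C.p x) = ε} := fun k ε =>
    isOpen_iff_mem_nhds.2 fun x hx => by
      filter_upwards [C.cov.continuous.continuousAt.preimage_mem_nhds
        ((A.c k).open_source.mem_nhds hx.1), hO k x hx.1] with w h1 h2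
      exact ⟨h1, h2.trans hx.2⟩
  let e : C.T × A.K × Additive ℤˣ → OpenPartialHomeomorph C.T (Fin n → ℝ) := fun i =>
    ((φ i.1).trans (A.c i.2.1)).restrOpen _ (hV i.2.1 i.2.2)
  have e1 : ∀ i x, e i x = A.c i.2.1 (C.p x) := fun i x => by rw [φ2 i.1]; rfl
  have e2 : ∀ i, ∀ z ∈ (e i).target, C.p ((e i).symm z) = (A.c i.2.1).symm z := fun i z hz => by
    rw [φ2 i.1]; exact (φ i.1).right_inv hz.1.2
  have e3 : ∀ (g : C.Γ) i j, ∀ z ∈ (e i).target,
      e j (g • (e i).symm z) = (A.c j.2.1 ∘ (A.c i.2.1).symm) z := fun g i j z hz => by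
    rw [e1, C.p_smul, e2 i z hz]; rfl
  obtain ⟨k0, hk0⟩ := A.small (C.p x0) (φ x0).target
    ((φ x0).open_target.mem_nhds (by rw [φ2 x0]; exact (φ x0).map_source (φ1 x0)))
  refine ⟨⟨MonoidHom.mk' (fun g => (F (g • x0) - F x0).toMul) fun g g' => ?_,
    C.T × A.K × Additive ℤˣ, e, fun i => val i.2.2, fun i => val_eq _,
    fun x => ⟨(x, A.κ (C.p x), F x - A.h (A.κ (C.p x)) (C.p x)), ⟨φ1 x, φ3 x⟩, A.mem _, rfl⟩,
    fun g i j => ?_, fun g i j z hz hz' => ?_,
    (x0, k0, F (((φ x0).trans (A.c k0)).symm 0) -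
      A.h k0 (C.p (((φ x0).trans (A.c k0)).symm 0))), fun z hz => ?_, fun g x hx hx' => ?_⟩⟩
  · rw [← toMul_add, mul_smul, ← hg g (g' • x0)]
    congr 1; abel
  · refine ((A.sm i.2.1 j.2.1).mono fun z hz => ⟨hz.1.1.1, ?_⟩).congr fun z hz => e3 g i j z hz.1
    rw [mem_preimage, ← e2 i z hz.1, ← C.p_smul g]
    exact hz.2.2.1
  · set x := (e i).symm z with hx
    have h1 : x ∈ (e i).source := (e i).map_target hz
    have h2 : C.p x ∈ (A.c j.2.1).source := by rw [← C.p_smul g]; exact hz'.2.1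
    have h3 : jac (fun z => e j (g • (e i).symm z)) z = A.J i.2.1 j.2.1 (C.p x) := by
      rw [J, jac, jac, ← e1, hx, (e i).right_inv hz, Filter.EventuallyEq.fderiv_eq
        (eventually_of_mem ((e i).open_target.mem_nhds hz) (e3 g i j))]
    have h4 : i.2.2 + j.2.2 + (F (g • x0) - F x0) = sgn (A.J i.2.1 j.2.1 (C.p x)) := by
      rw [← h1.2.2, ← hz'.2.2, ← hg g x, C.p_smul, ← A.h_sub h1.2.1 h2]
      have a1 := add_self (F (g • x))
      have a2 := add_self (A.h i.2.1 (C.p x))
      rw [← sub_eq_zero, ← sub_self (0 : Additive ℤˣ)]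
      nth_rewrite 1 [← a1]
      rw [← a2]
      abel
    have h5 := sgn_pos (A.J_ne h1.2.1 h2)
    rw [← h4, val_add, val_add] at h5
    rw [h3]
    exact h5
  · set ψ := (φ x0).trans (A.c k0)
    have h1 : ∀ w ∈ closedBall (0 : Fin n → ℝ) 4, w ∈ ψ.target := hk0
    have h2 : ∀ w ∈ closedBall (0 : Fin n → ℝ) 4, C.p (ψ.symm w) ∈ (A.c k0).source :=
      fun w hw => by rw [φ2 x0]; exact (ψ.map_target (h1 w hw)).2
    refine ⟨h1 z hz, h2 z hz, ?_⟩
    exact (convex_closedBall (0 : Fin n → ℝ) 4).isPreconnected.constant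
      (f := fun w => toD (F (ψ.symm w) - A.h k0 (C.p (ψ.symm w))))
      (fun w hw => (continuousAt_const.congr (((ψ.continuousAt_symm (h1 w hw)).eventually
        (hO k0 _ (h2 w hw))).mono fun v hv => congrArg toD hv.symm)).continuousWithinAt)
      hz (mem_closedBall_self (by norm_num))
  · refine C.free' ((φ x0).injOn hx'.1.1 hx.1.1 ?_)
    rw [← φ2]; exact C.p_smul g x

end Atl

end Oa

theorem exists_OA {n : ℕ} {S : Type} [TopologicalSpace S]
    [ChartedSpace (EuclideanSpace ℝ (Fin n)) S] [IsManifold (𝓡 n) ∞ S] (C : Cov S) :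
    Nonempty (OA C.Γ C.T n) := by
  exact (Oa.exists_atl (n := n) (S := S)).elim fun A => A.exists_oa C

namespace OA

variable {Γ T : Type} [Group Γ] [TopologicalSpace T] [MulAction Γ T] {n : ℕ} (A : OA Γ T n)

/-- smooth functions -/
def Sm (f : T → ℝ) : Prop := ∀ i, ContDiffOn ℝ ∞ (fun z => f ((A.e i).symm z)) (A.e i).target

/-- balls of the distinguished chart -/
def B (r : ℝ) : Set T := (A.e A.i₀).source ∩ A.e A.i₀ ⁻¹' ball 0 r

variable {A}

theorem Sm.continuous {f : T → ℝ} (h : A.Sm f) : Continuous f := by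
  refine continuous_iff_continuousAt.2 fun x => ?_
  obtain ⟨i, hi⟩ := A.cover x
  have h1 := ((h i).contDiffAt ((A.e i).open_target.mem_nhds ((A.e i).map_source hi))).continuousAt
  refine (h1.comp ((A.e i).continuousAt hi)).congr ?_
  filter_upwards [(A.e i).eventually_left_inverse hi] with y hy
  simp [hy]

theorem Sm.smul [ContinuousConstSMul Γ T] {f : T → ℝ} (h : A.Sm f) (g : Γ) :
    A.Sm fun x => f (g • x) := by
  intro i z hz
  obtain ⟨j, hj⟩ := A.cover (g • (A.e i).symm z)
  have h0 : ∀ᶠ w in 𝓝 z, w ∈ (A.e i).target ∧ g • (A.e i).symm w ∈ (A.e j).source :=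
    inter_mem ((A.e i).open_target.mem_nhds hz)
      (((continuous_const_smul g).continuousAt.comp ((A.e i).continuousAt_symm hz)).eventually
        ((A.e j).open_source.mem_nhds hj))
  have h1 := (h j).contDiffAt ((A.e j).open_target.mem_nhds ((A.e j).map_source hj))
  refine ((h1.comp z ((A.sm g i j).contDiffAt h0)).congr_of_eventuallyEq ?_).contDiffWithinAt
  filter_upwards [h0] with w hw
  simp [(A.e j).left_inv hw.2]

/-- smoothness is a local property -/
theorem sm_of_local {f : T → ℝ} (h : ∀ x, ∃ f', A.Sm f' ∧ f =ᶠ[𝓝 x] f') : A.Sm f := by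
  intro i z hz
  obtain ⟨f', h1, h2⟩ := h ((A.e i).symm z)
  exact (((h1 i).contDiffAt ((A.e i).open_target.mem_nhds hz)).congr_of_eventuallyEq
    (((A.e i).continuousAt_symm hz).eventually h2)).contDiffWithinAt

/-- extension by zero from a chart -/
theorem sm_indicator [T2Space T] (i : A.I) {u : (Fin n → ℝ) → ℝ} (hu : ContDiff ℝ ∞ u)
    (hc : HasCompactSupport u) (hs : tsupport u ⊆ (A.e i).target) :
    A.Sm ((A.e i).source.indicator fun x => u (A.e i x)) ∧
      tsupport ((A.e i).source.indicator fun x => u (A.e i x)) = (A.e i).symm '' tsupport u := by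
  have h1 : Function.support ((A.e i).source.indicator fun x => u (A.e i x)) =
      (A.e i).symm '' Function.support u := by
    ext x
    constructor
    · intro hx
      obtain ⟨h2, h3⟩ := Set.indicator_apply_ne_zero.1 hx
      exact ⟨_, h3, (A.e i).left_inv h2⟩
    · rintro ⟨z, hz, rfl⟩
      have h2 := hs (subset_tsupport u hz)
      rwa [Function.mem_support, indicator_of_mem ((A.e i).map_target h2), (A.e i).right_inv h2]
  have h2 : tsupport ((A.e i).source.indicator fun x => u (A.e i x)) =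
      (A.e i).symm '' tsupport u := by
    rw [tsupport, h1]
    exact (closure_minimal (image_mono subset_closure)
      (hc.isCompact.image_of_continuousOn ((A.e i).continuousOn_symm.mono hs)).isClosed).antisymm
      ((A.e i).continuousOn_symm.mono hs).image_closure
  refine ⟨fun j z hz => ContDiffAt.contDiffWithinAt ?_, h2⟩
  by_cases hx : (A.e j).symm z ∈ (A.e i).source
  · have h0 : ∀ᶠ w in 𝓝 z, w ∈ (A.e j).target ∧ (1 : Γ) • (A.e j).symm w ∈ (A.e i).source := by
      simp only [one_smul]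
      exact inter_mem ((A.e j).open_target.mem_nhds hz)
        (((A.e j).continuousAt_symm hz).eventually ((A.e i).open_source.mem_nhds hx))
    refine (hu.contDiffAt.comp z ((A.sm 1 j i).contDiffAt h0)).congr_of_eventuallyEq ?_
    filter_upwards [h0] with w hw
    rw [one_smul] at hw
    simp [indicator_of_mem hw.2]
  · have h3 : (A.e j).symm z ∉ tsupport ((A.e i).source.indicator fun x => u (A.e i x)) := by
      rw [h2]
      rintro ⟨w, hw, e⟩
      exact hx (e ▸ (A.e i).map_target (hs hw))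
    exact (contDiffAt_const (c := 0)).congr_of_eventuallyEq
      (((A.e j).continuousAt_symm hz).eventually (notMem_tsupport_iff_eventuallyEq.1 h3))

end OA

end Crest.Agent.N222.C
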