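import Crest.Agent.N222.C.Defs

/-!
# Row 222, part C: the resolved orthant (thickened permutohedral cone)

`q_K = ps (y_K)` (zero on the collar `|y_K| ≤ 1`), `a_j = ∏_{K ∋ j} q_K`,
`e_K = q_K - ∑_{j ∈ K} q_{j} - |K| + |K|²`.
-/

set_option autoImplicit false
set_option maxHeartbeats 400000

open Set Filter Topology

noncomputable section

namespace Crest.Agent.N222.C

/-- non empty subsets of the gaps -/
abbrev JJ (k : ℕ) : Type := {I : Finset (Fin k) // I.Nonempty}

/-- subsets with at least two elements -/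
abbrev J2 (k : ℕ) : Type := {I : Finset (Fin k) // 2 ≤ I.card}

/-- coordinates of the parameter: `none` is `m`, `some K` is `y_K` -/
abbrev KK (k : ℕ) : Type := Option (JJ k)

/-- colours and positions -/
abbrev Col (n k : ℕ) : Type := Fin (n + 1) ⊕ Fin k

/-- coordinates of the target -/
abbrev TT (n k : ℕ) : Type := Col n k ⊕ J2 k

/-- zero on `(-∞, 0]`, increasing bijection of `(0, ∞)` -/
def ph (s : ℝ) : ℝ := s * expNegInvGlue s

/-- even, zero exactly on `[-1, 1]` -/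
def ps (s : ℝ) : ℝ := ph (s - 1) + ph (-s - 1)

variable {k : ℕ}

/-- singleton -/
def sing (j : Fin k) : JJ k := ⟨{j}, Finset.singleton_nonempty j⟩

/-- inclusion -/
def J2.toJJ (K : J2 k) : JJ k := ⟨K.1, Finset.card_pos.1 (lt_of_lt_of_le two_pos K.2)⟩

/-- `q_K` -/
def qq (η : KK k → ℝ) (K : JJ k) : ℝ := ps (η (some K))

/-- the gap `a_j` -/
def aa (η : KK k → ℝ) (j : Fin k) : ℝ := ∏ K ∈ Finset.univ.filter (fun K : JJ k => j ∈ K.1), qq η K

/-- the linear equations -/
def ee (η : KK k → ℝ) (K : J2 k) : ℝ :=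
  qq η K.toJJ - ∑ j ∈ K.1, qq η (sing j) - (K.1.card : ℝ) + (K.1.card : ℝ) ^ 2

/-- the open set where the small coordinates form a chain -/
def UU (k : ℕ) : Set (KK k → ℝ) := {η | IsChain (· ≤ ·) {K : JJ k | |η (some K)| ≤ 1}}

/-- sign change of the coordinates in `g` -/
def flp (g : Finset (JJ k)) (η : KK k → ℝ) : KK k → ℝ
  | none => η none
  | some K => if K ∈ g then -η (some K) else η (some K)

theorem card_TT (n k : ℕ) : Fintype.card (TT n k) = n + Fintype.card (KK k) := by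
  have h : Fintype.card (JJ k) = k + Fintype.card (J2 k) := by
    have h1 := Fintype.card_finset_len (α := Fin k) 1
    rw [Nat.choose_one_right, Fintype.card_fin] at h1
    have h2 := Fintype.card_subtype_or_disjoint (fun I : Finset (Fin k) => I.card = 1)
      (fun I => 2 ≤ I.card) (Pi.disjoint_iff.2 fun I => Prop.disjoint_iff.2 (by omega))
    rw [h1] at h2
    rw [← h2]
    exact Fintype.card_congr (Equiv.subtypeEquivRight fun I => by
      rw [← Finset.card_pos]; omega)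
  simp only [Fintype.card_sum, Fintype.card_option, Fintype.card_fin, h]
  omega

theorem contDiff_ph : ContDiff ℝ (⊤ : ℕ∞) ph := contDiff_id.mul expNegInvGlue.contDiff

theorem ph_nonneg (s : ℝ) : 0 ≤ ph s := by
  rcases le_total s 0 with h | h
  · rw [ph, expNegInvGlue.zero_of_nonpos h, mul_zero]
  · exact mul_nonneg h (expNegInvGlue.nonneg s)

theorem ph_eq_zero_iff {s : ℝ} : ph s = 0 ↔ s ≤ 0 := by
  rw [ph, mul_eq_zero, expNegInvGlue.zero_iff_nonpos]
  exact ⟨fun h => h.elim le_of_eq id, Or.inr⟩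

theorem contDiff_ps : ContDiff ℝ (⊤ : ℕ∞) ps :=
  (contDiff_ph.comp (contDiff_id.sub contDiff_const)).add
    (contDiff_ph.comp (contDiff_id.neg.sub contDiff_const))

theorem ps_nonneg (s : ℝ) : 0 ≤ ps s := add_nonneg (ph_nonneg _) (ph_nonneg _)

theorem ps_eq_zero_iff {s : ℝ} : ps s = 0 ↔ |s| ≤ 1 := by
  rw [ps, add_eq_zero_iff_of_nonneg (ph_nonneg _) (ph_nonneg _), ph_eq_zero_iff, ph_eq_zero_iff,
    abs_le]
  constructor <;> rintro ⟨h1, h2⟩ <;> constructor <;> linarith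

theorem ps_neg (s : ℝ) : ps (-s) = ps s := by rw [ps, ps, neg_neg, add_comm]

theorem le_ps {s : ℝ} (h : 2 ≤ |s|) : (|s| - 1) * expNegInvGlue 1 ≤ ps s := by
  have e : ps s = ps |s| := by
    rcases abs_choice s with h | h
    · rw [h]
    · rw [h, ps_neg]
  rw [e]
  exact le_add_of_le_of_nonneg (mul_le_mul_of_nonneg_left (expNegInvGlue.monotone (by linarith))
    (by linarith)) (ph_nonneg _)

theorem contDiff_qq (K : JJ k) : ContDiff ℝ (⊤ : ℕ∞) (fun η : KK k → ℝ => qq η K) :=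
  contDiff_ps.comp (contDiff_apply ℝ ℝ (some K))

theorem contDiff_aa (j : Fin k) : ContDiff ℝ (⊤ : ℕ∞) (fun η : KK k → ℝ => aa η j) :=
  contDiff_prod fun K _ => contDiff_qq K

theorem contDiff_ee (K : J2 k) : ContDiff ℝ (⊤ : ℕ∞) (fun η : KK k → ℝ => ee η K) :=
  (((contDiff_qq _).sub (ContDiff.sum fun _ _ => contDiff_qq _)).sub contDiff_const).add
    contDiff_const

theorem aa_nonneg (η : KK k → ℝ) (j : Fin k) : 0 ≤ aa η j :=
  Finset.prod_nonneg fun _ _ => ps_nonneg _

theorem aa_eq_zero {η : KK k → ℝ} {K : JJ k} (h : |η (some K)| ≤ 1) {j : Fin k} (hj : j ∈ K.1) :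
    aa η j = 0 :=
  Finset.prod_eq_zero (i := K) (by simpa using hj) (ps_eq_zero_iff.2 h)

theorem qq_flp (g : Finset (JJ k)) (η : KK k → ℝ) : qq (flp g η) = qq η := by
  funext K
  simp only [qq, flp]
  split_ifs
  exacts [ps_neg _, rfl]

theorem aa_flp (g : Finset (JJ k)) (η : KK k → ℝ) : aa (flp g η) = aa η := by
  funext j
  simp only [aa, qq_flp]

theorem ee_flp (g : Finset (JJ k)) (η : KK k → ℝ) : ee (flp g η) = ee η := by
  funext K
  simp only [ee, qq_flp]

theorem flp_flp (g : Finset (JJ k)) (η : KK k → ℝ) : flp g (flp g η) = η := by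
  funext c
  rcases c with _ | K
  · rfl
  · simp only [flp]
    split_ifs
    exacts [neg_neg _, rfl]

theorem contDiff_flp (g : Finset (JJ k)) : ContDiff ℝ (⊤ : ℕ∞) (flp g : (KK k → ℝ) → KK k → ℝ) := by
  refine contDiff_pi.2 fun c => ?_
  rcases c with _ | K
  · exact contDiff_apply ℝ ℝ none
  · simp only [flp]
    split_ifs
    exacts [(contDiff_apply ℝ ℝ (some K)).neg, contDiff_apply ℝ ℝ (some K)]

theorem norm_flp (g : Finset (JJ k)) (η : KK k → ℝ) : ‖flp g η‖ = ‖η‖ := by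
  have h : ∀ c, ‖flp g η c‖₊ = ‖η c‖₊ := fun c => by
    rcases c with _ | K
    · rfl
    · simp only [flp]
      split_ifs
      exacts [nnnorm_neg _, rfl]
  simp only [Pi.norm_def, h]

/-- in a collar nothing depends on the coordinate -/
theorem qq_update {η : KK k → ℝ} {K : JJ k} (h : |η (some K)| ≤ 1) {s : ℝ} (hs : |s| ≤ 1) :
    qq (Function.update η (some K) s) = qq η := by
  funext L
  by_cases hL : L = K
  · rw [hL, qq, qq, Function.update_self, ps_eq_zero_iff.2 h, ps_eq_zero_iff.2 hs]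
  · rw [qq, qq, Function.update_of_ne (by simpa using hL)]

theorem isOpen_UU : IsOpen (UU k) := by
  refine isOpen_iff_mem_nhds.2 fun η hη => ?_
  have h : ∀ᶠ ξ in 𝓝 η, ∀ K : JJ k, |ξ (some K)| ≤ 1 → |η (some K)| ≤ 1 :=
    eventually_all.2 fun K => by
      rcases le_or_gt |η (some K)| 1 with h | h
      · exact .of_forall fun _ _ => h
      · have hc : Continuous fun ξ : KK k → ℝ => |ξ (some K)| := by fun_prop
        filter_upwards [hc.continuousAt.eventually (lt_mem_nhds h)] with ξ h1 h2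
        exact absurd h2 (not_le.2 h1)
  filter_upwards [h] with ξ hξ
  exact IsChain.mono (fun K hK => hξ K hK) hη

theorem two_mem_UU : (fun _ => 2 : KK k → ℝ) ∈ UU k := by
  intro K hK
  norm_num at hK

theorem abs_qq_sub_le {η : KK k → ℝ} (h : ∀ K, |ee η K| ≤ 1 / 4) (K : JJ k) :
    |qq η K - ∑ j ∈ K.1, qq η (sing j) - (K.1.card : ℝ) + (K.1.card : ℝ) ^ 2| ≤ 1 / 4 := by
  rcases le_or_gt 2 K.1.card with h2 | h2
  · exact h ⟨K.1, h2⟩
  · obtain ⟨j, hj⟩ := Finset.card_eq_one.1 (le_antisymm (Nat.le_of_lt_succ h2) K.2.card_pos)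
    obtain rfl : K = sing j := Subtype.ext hj
    simp [sing]

theorem lin_ge {η : KK k → ℝ} (h : ∀ K, |ee η K| ≤ 1 / 4) (I : Finset (Fin k)) :
    -(1 / 4) ≤ ∑ j ∈ I, qq η (sing j) + (I.card : ℝ) - (I.card : ℝ) ^ 2 := by
  rcases I.eq_empty_or_nonempty with rfl | hI
  · simp
  · have h1 := (abs_le.1 (abs_qq_sub_le h ⟨I, hI⟩)).2
    have h2 : 0 ≤ qq η ⟨I, hI⟩ := ps_nonneg _
    simp only at h1
    linarith

/-- supermodularity -/
theorem mem_UU_of_ee {η : KK k → ℝ} (h : ∀ K, |ee η K| ≤ 1 / 4) : η ∈ UU k := by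
  intro K hK L hL _
  by_contra! hc
  have h1 : ¬K.1 ⊆ L.1 := hc.1
  have h2 : ¬L.1 ⊆ K.1 := hc.2
  have c1 : (K.1 ∩ L.1).card + 1 ≤ K.1.card := Finset.card_lt_card
    ⟨Finset.inter_subset_left, fun h => h1 (h.trans Finset.inter_subset_right)⟩
  have c2 : (K.1 ∩ L.1).card + 1 ≤ L.1.card := Finset.card_lt_card
    ⟨Finset.inter_subset_right, fun h => h2 (h.trans Finset.inter_subset_left)⟩
  have c3 := Finset.card_union_add_card_inter K.1 L.1
  have c1' : ((K.1 ∩ L.1).card : ℝ) + 1 ≤ K.1.card := by exact_mod_cast c1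
  have c2' : ((K.1 ∩ L.1).card : ℝ) + 1 ≤ L.1.card := by exact_mod_cast c2
  have c3' : ((K.1 ∪ L.1).card : ℝ) = K.1.card + L.1.card - (K.1 ∩ L.1).card := by
    rw [eq_sub_iff_add_eq]
    exact_mod_cast c3
  have s1 := Finset.sum_union_inter (s₁ := K.1) (s₂ := L.1) (f := fun j => qq η (sing j))
  have a1 := (abs_le.1 (abs_qq_sub_le h K)).1
  have a2 := (abs_le.1 (abs_qq_sub_le h L)).1
  have a3 := lin_ge h (K.1 ∪ L.1)
  have a4 := lin_ge h (K.1 ∩ L.1)
  have z1 : qq η K = 0 := ps_eq_zero_iff.2 hK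
  have z2 : qq η L = 0 := ps_eq_zero_iff.2 hL
  rw [c3'] at a3
  nlinarith [mul_nonneg (sub_nonneg.2 c1') (sub_nonneg.2 c2')]

/-- a priori bound -/
theorem exists_bound (k : ℕ) (B : ℝ) : ∃ L : ℝ, 2 < L ∧ ∀ η : KK k → ℝ, (∀ K, |ee η K| ≤ 1 / 4) →
    (∀ j, aa η j ≤ B) → ∀ K, |η (some K)| < L := by
  have hc := expNegInvGlue.pos_of_pos one_pos
  set T : ℝ := (k : ℝ) ^ 2 + 2 + |B| with hT
  have hT0 : 0 ≤ T := by positivity
  refine ⟨3 + (k * T + k + 1) / expNegInvGlue 1, by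
    have : 0 ≤ (k * T + k + 1) / expNegInvGlue 1 := by positivity
    linarith, fun η h hB K => ?_⟩
  have hk : ∀ K : JJ k, (K.1.card : ℝ) ≤ k := fun K => by
    exact_mod_cast (Finset.card_le_univ K.1).trans_eq (Fintype.card_fin k)
  have h1 : ∀ j, qq η (sing j) ≤ T := fun j => by
    by_contra! hj
    have h2 : ∀ K : JJ k, j ∈ K.1 → 1 ≤ qq η K := fun K hK => by
      have b1 := (abs_le.1 (abs_qq_sub_le h K)).1
      have b2 := Finset.single_le_sum (f := fun j => qq η (sing j)) (fun _ _ => ps_nonneg _) hK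
      have b3 := pow_le_pow_left₀ (Nat.cast_nonneg _) (hk K) 2
      have b4 : (0 : ℝ) ≤ K.1.card := Nat.cast_nonneg _
      linarith [abs_nonneg B]
    have h3 := hB j
    rw [aa, ← Finset.mul_prod_erase _ _ (a := sing j) (by simp [sing])] at h3
    have h4 := le_mul_of_one_le_right (ps_nonneg (η (some (sing j))))
      (Finset.one_le_prod (f := qq η) (s := (Finset.univ.filter fun K : JJ k => j ∈ K.1).erase
        (sing j)) fun K hK => h2 K (by simpa using Finset.mem_of_mem_erase hK))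
    have h5 := h4.trans h3
    change qq η (sing j) ≤ B at h5
    nlinarith [le_abs_self B, sq_nonneg (k : ℝ)]
  have h2 : qq η K ≤ k * T + k + 1 := by
    have b1 := (abs_le.1 (abs_qq_sub_le h K)).2
    have b2 := Finset.sum_le_card_nsmul K.1 (fun j => qq η (sing j)) T fun j _ => h1 j
    rw [nsmul_eq_mul] at b2
    have b3 := mul_le_mul_of_nonneg_right (hk K) hT0
    linarith [hk K, sq_nonneg (K.1.card : ℝ)]
  by_contra! hL
  have h3 : 0 ≤ (k * T + k + 1) / expNegInvGlue 1 := by positivity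
  have h4 := (le_ps (s := η (some K)) (by linarith)).trans h2
  rw [← le_div_iff₀ hc] at h4
  linarith

end Crest.Agent.N222.C
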