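import Crest.Agent.N222.C.Whit
import Crest.Agent.N222.C.Grid

/-!
# Row 222, part C: fine partitions of unity
-/

set_option autoImplicit false

open Set Filter Topology Metric
open scoped ContDiff

noncomputable section

namespace Crest.Agent.N222.C

variable {Γ T : Type} [Group Γ] [TopologicalSpace T] [MulAction Γ T] [ContinuousConstSMul Γ T]
  [T2Space T] [LocallyCompactSpace T] {n : ℕ}

/-- Star refinement.  Cover `K₀` by finitely many compact `C l ⊆ W l` open;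
`N z = ⋂_{z ∈ g C l} g W l ∩ ⋂_{z ∉ g C l} (g C l)ᶜ` (take `W l` relatively compact). -/
theorem exists_star (hp : Prp Γ T) {K₀ : Set T} (hK : IsCompact K₀) (hc : ∀ x, ∃ g : Γ, g • x ∈ K₀)
    {k : ℕ} {G : Set (Fin k → T)} (hG : ∀ (g : Γ), ∀ u ∈ G, (fun a => g • u a) ∈ G)
    (h : ∀ x₀ : T, ∃ W ∈ 𝓝 x₀, ∀ u : Fin k → T, (∀ a, u a ∈ W) → u ∈ G) :
    ∃ N : T → Set T, (∀ z, N z ∈ 𝓝 z) ∧ ∀ (x : T) (u : Fin k → T),
      (∀ a, ∃ (g : Γ) (z : T), g • x ∈ N z ∧ g • u a ∈ N z) → u ∈ G := by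
  choose W hW hWG using h
  choose C hC hCs hCc using fun x => local_compact_nhds (interior_mem_nhds.2 (hW x))
  obtain ⟨t, -, ht⟩ := hK.elim_nhds_subcover C fun x _ => hC x
  refine ⟨fun z => {x | (∀ y : Γ × t, y.1 • z ∈ C y.2 → y.1 • x ∈ W y.2) ∧
    ∀ y : Γ × t, y.1 • x ∈ C y.2 → y.1 • z ∈ C y.2}, fun z => ?_, fun x u hu => ?_⟩
  · have hf : ∀ N, IsCompact N → {y : Γ × t | ({x | y.1 • x ∈ C y.2} ∩ N).Nonempty}.Finite :=
      fun N hN => ((finite_iUnion fun l : t => hp N (C l) hN (hCc l)).prod finite_univ).subset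
        fun y ⟨x, h1, h2⟩ => ⟨mem_iUnion.2 ⟨y.2, x, h2, h1⟩, trivial⟩
    refine Eventually.and ?_ (eventually_sub (F := fun y : Γ × t => {x | y.1 • x ∈ C y.2})
      (fun y => (hCc y.2).isClosed.preimage (continuous_const_smul y.1)) hf z)
    have h1 : ∀ᶠ x in 𝓝 z, ∀ y ∈ {y : Γ × t | ({x | y.1 • x ∈ C y.2} ∩ {z}).Nonempty},
        y.1 • x ∈ W y.2 := (eventually_all_finite (hf _ isCompact_singleton)).2 fun y hy => by
      obtain ⟨_, h1, rfl⟩ := hy
      exact (continuous_const_smul y.1).continuousAt.preimage_mem_nhds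
        (mem_interior_iff_mem_nhds.1 (hCs _ h1))
    exact h1.mono fun x hx y hy => hx y ⟨z, hy, rfl⟩
  · obtain ⟨g₀, h₀⟩ := hc x
    obtain ⟨l, hl, h1⟩ := mem_iUnion₂.1 (ht h₀)
    have := hG g₀⁻¹ _ (hWG l (fun a => g₀ • u a) fun a => by
      obtain ⟨g, z, h2, h3⟩ := hu a
      have := h3.1 (g₀ * g⁻¹, ⟨l, hl⟩) (h2.2 (g₀ * g⁻¹, ⟨l, hl⟩) (by simpa [mul_smul] using h1))
      simpa [mul_smul] using this)
    simpa using this

namespace Pu

variable (Γ) in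
/-- the invariant sum -/
def S1 (b : T → ℝ) (x : T) : ℝ := ∑ᶠ g : Γ, b (g⁻¹ • x)

omit [TopologicalSpace T] [ContinuousConstSMul Γ T] [T2Space T] [LocallyCompactSpace T] in
theorem S1_smul (b : T → ℝ) (g : Γ) (x : T) : S1 Γ b (g • x) = S1 Γ b x := by
  rw [S1, ← finsum_comp_equiv (Equiv.mulLeft g)]
  simp [S1, mul_smul]

omit [TopologicalSpace T] [ContinuousConstSMul Γ T] [T2Space T] [LocallyCompactSpace T] in
theorem S1_mul {c : T → ℝ} (hc : ∀ (g : Γ) x, c (g • x) = c x) (b : T → ℝ) (x : T) :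
    S1 Γ (fun x => c x * b x) x = c x * S1 Γ b x := by
  simp only [S1, hc, mul_finsum]

omit [ContinuousConstSMul Γ T] [T2Space T] [LocallyCompactSpace T] in
theorem fin_supp (hp : Prp Γ T) {b : T → ℝ} (hb : HasCompactSupport b) {N : Set T}
    (hN : IsCompact N) : {g : Γ | ∃ x ∈ N, b (g⁻¹ • x) ≠ 0}.Finite :=
  (hp _ N hb hN).subset fun g ⟨x, h1, h2⟩ => ⟨_, subset_tsupport _ h2, by simpa using h1⟩

omit [ContinuousConstSMul Γ T] [T2Space T] [LocallyCompactSpace T] in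
theorem fin_supp' (hp : Prp Γ T) {b : T → ℝ} (hb : HasCompactSupport b) (x : T) :
    (Function.support fun g : Γ => b (g⁻¹ • x)).Finite :=
  (fin_supp hp hb isCompact_singleton).subset fun _ h => ⟨x, rfl, h⟩

omit [ContinuousConstSMul Γ T] [T2Space T] [LocallyCompactSpace T] in
theorem finsum_lb (hp : Prp Γ T) {ι : Type} [Fintype ι] {b : ι → T → ℝ}
    (hb : ∀ i, HasCompactSupport (b i)) (x : T) :
    ∑ᶠ y : Lb Γ ι, b y.i (y.g⁻¹ • x) = ∑ i, S1 Γ (b i) x := by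
  let e : ι × Γ ≃ Lb Γ ι := ⟨fun p => ⟨p.2, p.1⟩, fun y => (y.i, y.g), fun _ => rfl, fun _ => rfl⟩
  rw [← finsum_comp_equiv e, finsum_curry, finsum_eq_sum_of_fintype]
  · rfl
  · exact (finite_univ.prod (finite_iUnion fun i => fin_supp' hp (hb i) x)).subset
      fun p h => ⟨trivial, mem_iUnion.2 ⟨p.1, h⟩⟩

variable {A : OA Γ T n}

omit [T2Space T] in
theorem sm_S1 (hp : Prp Γ T) {b : T → ℝ} (hb : HasCompactSupport b) (hs : A.Sm b) :
    A.Sm (S1 Γ b) := by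
  refine OA.sm_of_local fun x => ?_
  obtain ⟨N, hN, hN'⟩ := exists_compact_mem_nhds x
  refine ⟨fun x => ∑ g ∈ (fin_supp hp hb hN).toFinset, b (g⁻¹ • x),
    fun i => ContDiffOn.sum fun g _ => hs.smul g⁻¹ i, ?_⟩
  filter_upwards [hN'] with y hy
  exact finsum_eq_sum_of_support_subset _ fun g hg => by simpa using ⟨y, hy, hg⟩

omit [ContinuousConstSMul Γ T] [LocallyCompactSpace T] in
theorem exists_bump (A : OA Γ T n) (z : T) {N : Set T} (hN : N ∈ 𝓝 z) :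
    ∃ (b : T → ℝ) (i : A.I), A.Sm b ∧ HasCompactSupport b ∧ tsupport b ⊆ (A.e i).source ∧
      tsupport b ⊆ N ∧ (∀ x, 0 ≤ b x) ∧ 0 < b z := by
  obtain ⟨i, hi⟩ := A.cover z
  have h1 : (A.e i).target ∩ (A.e i).symm ⁻¹' N ∈ 𝓝 (A.e i z) :=
    inter_mem ((A.e i).open_target.mem_nhds ((A.e i).map_source hi))
      (((A.e i).continuousAt_symm ((A.e i).map_source hi)).preimage_mem_nhds
        (by rwa [(A.e i).left_inv hi]))
  obtain ⟨u, u1, u2, u3, u4, u5⟩ := exists_contDiff_tsupport_subset (n := ⊤) h1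
  obtain ⟨a, b⟩ := OA.sm_indicator (A := A) i u3 u2 (u1.trans inter_subset_left)
  refine ⟨_, i, a, ?_, ?_, ?_, fun x => indicator_nonneg (fun y _ => (u4 ⟨_, rfl⟩).1) x, ?_⟩
  · rw [HasCompactSupport, b]
    exact u2.image_of_continuousOn
      ((A.e i).continuousOn_symm.mono (u1.trans inter_subset_left))
  · rw [b]
    rintro _ ⟨y, hy, rfl⟩
    exact (A.e i).map_target (u1 hy).1
  · rw [b]
    rintro _ ⟨y, hy, rfl⟩
    exact (u1 hy).2
  · rw [indicator_of_mem hi, u5]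
    exact one_pos

end Pu

open Pu

/-- fine partitions -/
theorem OA.exists_pou (A : OA Γ T n) (hp : Prp Γ T) {K₀ : Set T} (hK : IsCompact K₀)
    (hc : ∀ x, ∃ g : Γ, g • x ∈ K₀) {N : T → Set T} (hN : ∀ z, N z ∈ 𝓝 z) :
    ∃ (ι : Type) (_ : Fintype ι) (P : A.Pou ι), ∀ i, ∃ z, tsupport (P.f i) ⊆ N z := by
  choose b c b1 b2 b3 b4 b5 b6 using fun z => exists_bump A z (hN z)
  obtain ⟨t, -, ht⟩ := hK.elim_nhds_subcover (fun z => {x | 0 < b z x}) fun z _ =>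
    (isOpen_lt continuous_const (b1 z).continuous).mem_nhds (b6 z)
  have pos : ∀ x, 0 < ∑ i : t, S1 Γ (b i) x := fun x => by
    obtain ⟨g, hg⟩ := hc x
    obtain ⟨l, hl, h⟩ := mem_iUnion₂.1 (ht hg)
    refine Finset.sum_pos' (fun i _ => finsum_nonneg fun _ => b5 _ _) ⟨⟨l, hl⟩, Finset.mem_univ _,
      finsum_pos (fun _ => b5 _ _) ⟨g⁻¹, by rwa [inv_inv]⟩ (fin_supp' hp (b2 l) x)⟩
  have cs : ∀ i : t, HasCompactSupport fun x => (∑ i : t, S1 Γ (b i) x)⁻¹ * b i x :=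
    fun i => (b2 i).mul_left
  refine ⟨t, inferInstance,
    { f := fun i x => (∑ i : t, S1 Γ (b i) x)⁻¹ * b i x
      sm := fun i j => ((ContDiffOn.sum fun (l : t) _ => sm_S1 hp (b2 l) (b1 l) j).inv
        fun z _ => (pos _).ne').mul (b1 i j)
      cs := cs
      ch := fun i => c i
      sub := fun i => tsupport_mul_subset_right.trans (b3 i)
      sum := fun x => ?_ }, fun i => ⟨i, tsupport_mul_subset_right.trans (b4 i)⟩⟩
  rw [finsum_lb hp cs]
  simp only [S1_mul (Γ := Γ) (c := fun x => (∑ i : t, S1 Γ (b i) x)⁻¹)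
    (fun g x => by simp only [S1_smul]), ← Finset.mul_sum]
  exact inv_mul_cancel₀ (pos x).ne'

/-- Fine partitions which are grid partitions in the distinguished chart: `M` from a Lebesgue number,
`Θ = ∑_g ∑_m f (inl m) ∘ g⁻¹` is `1` on `Γ · B 2`, `f (inr j) = (1 - Θ) ψ j`. -/
theorem OA.exists_special (A : OA Γ T n) (hp : Prp Γ T) {K₀ : Set T} (hK : IsCompact K₀)
    (hc : ∀ x, ∃ g : Γ, g • x ∈ K₀) {N : T → Set T} (hN : ∀ z, N z ∈ 𝓝 z) :
    ∃ (M : ℕ) (ι : Type) (_ : Fintype ι) (P : A.Pou (GA n M ⊕ ι)) (pos : GA n M ⊕ ι → T), 2 ≤ M ∧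
      (∀ i, ∃ z, tsupport (P.f i) ⊆ N z ∧ pos i ∈ N z) ∧
      (∀ m : GA n M, P.f (Sum.inl m) =
          (A.e A.i₀).source.indicator (fun x => thM M m.1 (A.e A.i₀ x)) ∧
        pos (Sum.inl m) = (A.e A.i₀).symm fun l => (m.1 l : ℝ) / M) ∧
      ∀ j, P.f (Sum.inr j) = 0 ∨ ∀ g : Γ, g • pos (Sum.inr j) ∉ A.B 2 := by
  classical
  obtain ⟨ι, _, ψ, hψ⟩ := A.exists_pou hp hK hc hN
  obtain ⟨δ, hδ, hL⟩ := lebesgue_number_lemma_of_metric
    (isCompact_closedBall (0 : Fin n → ℝ) 2)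
    (c := fun z => (A.e A.i₀).target ∩ (A.e A.i₀).symm ⁻¹' interior (N z))
    (fun z => (A.e A.i₀).isOpen_inter_preimage_symm isOpen_interior) fun w hw =>
      mem_iUnion.2 ⟨_, A.big (closedBall_subset_closedBall (by norm_num) hw),
        mem_interior_iff_mem_nhds.2 (hN _)⟩
  obtain ⟨M, hM, hMδ⟩ : ∃ M : ℕ, 2 ≤ M ∧ 1 / (M : ℝ) < δ := by
    obtain ⟨M, h⟩ := exists_nat_one_div_lt hδ
    exact ⟨M + 2, by omega, (one_div_le_one_div_of_le (by positivity)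
      (by push_cast; linarith)).trans_lt h⟩
  have hM0 : (0 : ℝ) < M := by positivity
  have hz : ∀ m : GA n M, ∃ z, closedBall (fun l => (m.1 l : ℝ) / M) (1 / M) ⊆
      (A.e A.i₀).target ∩ (A.e A.i₀).symm ⁻¹' N z := fun m => by
    obtain ⟨z, h⟩ := hL (fun l => (m.1 l : ℝ) / M) (by
      rw [mem_closedBall_zero_iff, pi_norm_le_iff_of_nonneg zero_le_two]
      intro l
      have h := Finset.mem_Icc.1 (Fintype.mem_piFinset.1 m.2 l)
      rw [Real.norm_eq_abs, abs_div, abs_of_pos hM0, div_le_iff₀ hM0, abs_le]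
      exact_mod_cast h)
    exact ⟨z, (closedBall_subset_ball hMδ).trans
      (h.trans (inter_subset_inter_right _ (preimage_mono interior_subset)))⟩
  choose zz hzz using hz
  have t1 : ∀ m : GA n M, tsupport (thM M m.1) ⊆ (A.e A.i₀).target ∩
      (A.e A.i₀).symm ⁻¹' N (zz m) := fun m => (tsupport_thM (by omega) m.1).trans (hzz m)
  have t2 : ∀ m : GA n M, HasCompactSupport (thM M m.1) := fun m =>
    (isCompact_closedBall _ _).of_isClosed_subset (isClosed_tsupport _)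
      (tsupport_thM (by omega) m.1)
  have t3 := fun m : GA n M => OA.sm_indicator (A := A) A.i₀ (u := thM M m.1)
    (contDiff_th.comp (by fun_prop)) (t2 m) ((t1 m).trans inter_subset_left)
  obtain ⟨φ, hφ⟩ : ∃ φ : GA n M → T → ℝ, ∀ m, φ m =
      (A.e A.i₀).source.indicator (fun x => thM M m.1 (A.e A.i₀ x)) := ⟨_, fun _ => rfl⟩
  simp only [← hφ] at t3
  have c1 : ∀ m, HasCompactSupport (φ m) := fun m => by
    rw [HasCompactSupport, (t3 m).2]
    exact (t2 m).image_of_continuousOn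
      ((A.e A.i₀).continuousOn_symm.mono ((t1 m).trans inter_subset_left))
  have inv : ∀ (g : Γ) x, 1 - ∑ m, S1 Γ (φ m) (g • x) = 1 - ∑ m, S1 Γ (φ m) x := fun g x => by
    simp only [S1_smul]
  have one : ∀ x ∈ A.B 2, ∑ m, S1 Γ (φ m) x = 1 := fun x hx => by
    rw [← sum_thM (M := M) (mem_ball_zero_iff.1 hx.2).le, ← Finset.sum_coe_sort (GA n M)]
    refine Finset.sum_congr rfl fun m _ => ?_
    rw [S1, finsum_eq_single _ 1, inv_one, one_smul, hφ, indicator_of_mem hx.1]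
    intro g hg
    rw [hφ, indicator_of_notMem fun h => hg (inv_eq_one.1 (A.wand _ x hx.1 h))]
  have cs : ∀ i, HasCompactSupport (Sum.elim φ
      (fun j x => (1 - ∑ m, S1 Γ (φ m) x) * ψ.f j x) i) := by
    rintro (m | j)
    exacts [c1 m, (ψ.cs j).mul_left]
  have hq : ∀ j, ∃ q z, tsupport (ψ.f j) ⊆ N z ∧ q ∈ N z ∧
      ((fun x => (1 - ∑ m, S1 Γ (φ m) x) * ψ.f j x) = 0 ∨ ∀ g : Γ, g • q ∉ A.B 2) := fun j => by
    obtain ⟨z, hz⟩ := hψ j
    by_cases h : (fun x => (1 - ∑ m, S1 Γ (φ m) x) * ψ.f j x) = 0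
    · exact ⟨z, z, hz, mem_of_mem_nhds (hN z), Or.inl h⟩
    · obtain ⟨x, hx⟩ := Function.ne_iff.1 h
      refine ⟨x, z, hz, hz (subset_tsupport _ (right_ne_zero_of_mul hx)), Or.inr fun g hg => ?_⟩
      exact left_ne_zero_of_mul hx (by rw [← inv g, one _ hg, sub_self])
  choose q hq using hq
  refine ⟨M, ι, inferInstance,
    { f := Sum.elim φ fun j x => (1 - ∑ m, S1 Γ (φ m) x) * ψ.f j x
      sm := ?_
      cs := cs
      ch := Sum.elim (fun _ => A.i₀) ψ.ch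
      sub := ?_
      sum := fun x => ?_ },
    Sum.elim (fun m => (A.e A.i₀).symm fun l => (m.1 l : ℝ) / M) q, hM, ?_,
    fun m => ⟨hφ m, rfl⟩, fun j => (hq j).choose_spec.2.2⟩
  · rintro (m | j)
    · exact (t3 m).1
    · exact fun i => (contDiffOn_const.sub
        (ContDiffOn.sum fun m _ => sm_S1 hp (c1 m) (t3 m).1 i)).mul (ψ.sm j i)
  · rintro (m | j)
    · change tsupport (φ m) ⊆ _
      rw [(t3 m).2]
      rintro _ ⟨y, hy, rfl⟩
      exact (A.e A.i₀).map_target (t1 m hy).1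
    · exact tsupport_mul_subset_right.trans (ψ.sub j)
  · have h := ψ.sum x
    rw [finsum_lb hp ψ.cs] at h
    rw [finsum_lb hp cs, Fintype.sum_sum_type]
    simp only [Sum.elim_inl, Sum.elim_inr,
      S1_mul (Γ := Γ) (c := fun x => 1 - ∑ m, S1 Γ (φ m) x) inv, ← Finset.mul_sum, h]
    ring
  · rintro (m | j)
    · refine ⟨zz m, ?_, (hzz m (mem_closedBall_self (by positivity))).2⟩
      change tsupport (φ m) ⊆ _
      rw [(t3 m).2]
      rintro _ ⟨y, hy, rfl⟩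
      exact (t1 m hy).2
    · obtain ⟨z, h1, h2, -⟩ := hq j
      exact ⟨z, tsupport_mul_subset_right.trans h1, h2⟩

end Crest.Agent.N222.C
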