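import Crest.Agent.N222.C.Alg
import Crest.Agent.N222.C.Cnt
import Crest.Agent.N222.C.CovF
import Crest.Agent.R251.Sm82C

/-!
# Row 222, part C: real singular cochains, small simplices
-/

set_option autoImplicit false

open Set Filter Topology
open Crest.Agent.R251.Sm (Dn face)

noncomputable section

namespace Crest.Agent.N222.C

variable {Γ T : Type} [TopologicalSpace T] {n : ℕ}

/-- the vertices of a singular simplex -/
def vert (σ : C(Dn n, T)) (i : Fin (n + 1)) : T := σ (stdSimplex.vertex i)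

/-- the coboundary of a singular cochain -/
def scob (φ : C(Dn n, T) → ℝ) (σ : C(Dn (n + 1), T)) : ℝ :=
  ∑ i : Fin (n + 2), (-1 : ℝ) ^ (i : ℕ) * φ (σ.comp (face i))

theorem vert_face (σ : C(Dn (n + 1), T)) (i : Fin (n + 2)) :
    vert (σ.comp (face i)) = fun j => vert σ (i.succAbove j) := by
  funext j
  simp only [vert, ContinuousMap.comp_apply]
  congr 1
  exact stdSimplex.map_vertex _ _

theorem scob_vert (f : (Fin (n + 1) → T) → ℝ) (σ : C(Dn (n + 1), T)) :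
    scob (fun τ => f (vert τ)) σ = cob f (vert σ) := by
  simp only [scob, cob, vert_face]

namespace SDefs

open Crest.Agent.R251.Sm (sx un psh InSet IsSmall un_sx sx_un un_face un_psh)
open Crest.GeometryTopology.DeckCochains

theorem cobdry_un (φ : C(Dn n, T) → ℝ) (s : SingSimplex T (n + 1)) :
    cochainCobdry (fun t => φ (un t)) s = scob φ (un s) := by
  simp only [cochainCobdry, scob, un_face, zsmul_eq_mul, Int.cast_pow, Int.cast_neg, Int.cast_one]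

theorem scob_sx (ψ : SingSimplex T n → ℝ) (σ : C(Dn (n + 1), T)) :
    scob (fun τ => ψ (sx τ)) σ = cochainCobdry ψ (sx σ) := by
  rw [← un_sx σ, ← cobdry_un, sx_un]
  simp only [sx_un]

/-- the open cover by the interiors of the chosen neighbourhoods -/
theorem exists_cover {P : Set T → Prop} (h : ∀ x₀ : T, ∃ W ∈ 𝓝 x₀, P W)
    (hP : ∀ W W', W' ⊆ W → P W → P W') :
    ∃ 𝒰 : Set (Set T), (∀ U ∈ 𝒰, IsOpen U) ∧ (∀ x, ∃ U ∈ 𝒰, x ∈ U) ∧ ∀ U ∈ 𝒰, P U := by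
  refine ⟨{U | IsOpen U ∧ P U}, fun U hU => hU.1, fun x => ?_, fun U hU => hU.2⟩
  obtain ⟨W, hW, H⟩ := h x
  exact ⟨interior W, ⟨isOpen_interior, hP _ _ interior_subset H⟩, mem_interior_iff_mem_nhds.2 hW⟩

variable [Group Γ] [MulAction Γ T] [ContinuousConstSMul Γ T]

/-- the action of one group element as a continuous map -/
def act (T : Type) [TopologicalSpace T] [MulAction Γ T] [ContinuousConstSMul Γ T] (g : Γ) :
    C(T, T) := ⟨fun x => g • x, continuous_const_smul g⟩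

theorem un_psh_act (g : Γ) (s : SingSimplex T n) : un (psh (act T g) s) = g • un s := by
  rw [un_psh]; rfl

theorem psh_act_sx (g : Γ) (σ : C(Dn n, T)) : psh (act T g) (sx σ) = sx (g • σ) := by
  rw [← sx_un (psh _ _), un_psh_act, un_sx]

end SDefs

theorem scob_scob (φ : C(Dn n, T) → ℝ) (σ : C(Dn (n + 2), T)) : scob (scob φ) σ = 0 := by
  have h := congrFun (R251.Sm.cobdry_cobdry fun t => φ (R251.Sm.un t)) (R251.Sm.sx σ)
  rw [show Crest.GeometryTopology.DeckCochains.cochainCobdry (fun t => φ (R251.Sm.un t))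
    = fun s => scob φ (R251.Sm.un s) from funext (SDefs.cobdry_un φ), SDefs.cobdry_un,
    R251.Sm.un_sx] at h
  exact h

variable [Group Γ] [MulAction Γ T] [ContinuousConstSMul Γ T]

/-- twisted invariance -/
def STw (χ : Γ →* ℤˣ) (φ : C(Dn n, T) → ℝ) : Prop := ∀ (g : Γ) σ, φ (g • σ) = sg χ g * φ σ

variable {χ : Γ →* ℤˣ}

theorem STw.scob {φ : C(Dn n, T) → ℝ} (h : STw χ φ) : STw χ (scob φ) := by
  intro g σ
  simp only [C.scob, Finset.mul_sum]
  refine Finset.sum_congr rfl fun i _ => ?_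
  rw [show (g • σ).comp (face i) = g • σ.comp (face i) from rfl, h g]
  ring

theorem Tw.vert {f : (Fin (n + 1) → T) → ℝ} (h : Tw χ f) : STw χ fun σ : C(Dn n, T) => f (vert σ) := by
  intro g σ
  exact h g (C.vert σ)

/-- from `R251.Sm.small_vanish` -/
theorem small_vanish {φ : C(Dn (n + 1), T) → ℝ} (ht : STw χ φ) (hc : ∀ σ, scob φ σ = 0)
    (h0 : ∀ x₀ : T, ∃ W ∈ 𝓝 x₀, ∀ σ : C(Dn (n + 1), T), range σ ⊆ W → φ σ = 0) :
    ∃ ψ : C(Dn n, T) → ℝ, STw χ ψ ∧ ∀ σ, scob ψ σ = φ σ := by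
  obtain ⟨𝒰, hU, hcov, H⟩ := SDefs.exists_cover h0 fun W W' hW h σ hσ => h σ (hσ.trans hW)
  obtain ⟨ψ, h1, -, -, h4⟩ := R251.Sm.small_vanish 𝒰 hU hcov (fun t => φ (R251.Sm.un t))
    (funext fun s => (SDefs.cobdry_un φ s).trans (hc _)) fun s ⟨U, hU, hs⟩ => H U hU _ hs
  refine ⟨fun τ => ψ (R251.Sm.sx τ), fun g σ => ?_, fun σ => ?_⟩
  · have := h4 (SDefs.act T g) (AddMonoidHom.mulLeft (sg χ g))
      (fun s => by rw [SDefs.un_psh_act, ht g]; rfl) (R251.Sm.sx σ)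
    rwa [SDefs.psh_act_sx] at this
  · rw [SDefs.scob_sx, h1]
    exact congrArg φ (R251.Sm.un_sx σ)

/-- from `R251.Sm.extend_small` -/
theorem extend_small {φ₀ : C(Dn n, T) → ℝ} (ht : STw χ φ₀)
    (h0 : ∀ x₀ : T, ∃ W ∈ 𝓝 x₀, ∀ σ : C(Dn (n + 1), T), range σ ⊆ W → scob φ₀ σ = 0) :
    ∃ φ : C(Dn n, T) → ℝ, STw χ φ ∧ (∀ σ, scob φ σ = 0) ∧
      ∀ x₀ : T, ∃ W ∈ 𝓝 x₀, ∀ σ : C(Dn n, T), range σ ⊆ W → φ σ = φ₀ σ := by
  obtain ⟨𝒰, hU, hcov, H⟩ := SDefs.exists_cover h0 fun W W' hW h σ hσ => h σ (hσ.trans hW)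
  obtain ⟨ψ, h1, -, h3, h4⟩ := R251.Sm.extend_small 𝒰 hU hcov (fun t => φ₀ (R251.Sm.un t))
    fun s ⟨U, hU, hs⟩ => (SDefs.cobdry_un φ₀ s).trans (H U hU _ hs)
  refine ⟨fun τ => ψ (R251.Sm.sx τ), fun g σ => ?_, fun σ => ?_, fun x₀ => ?_⟩
  · have := h4 (SDefs.act T g) (AddMonoidHom.mulLeft (sg χ g))
      (fun s => by rw [SDefs.un_psh_act, ht g]; rfl) (R251.Sm.sx σ)
    rwa [SDefs.psh_act_sx] at this
  · rw [SDefs.scob_sx, h1]; rfl
  · obtain ⟨U, hU', hx⟩ := hcov x₀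
    refine ⟨U, (hU U hU').mem_nhds hx, fun σ hσ => ?_⟩
    have := h3 (R251.Sm.sx σ) ⟨U, hU', by rwa [R251.Sm.InSet, R251.Sm.un_sx]⟩
    rwa [R251.Sm.un_sx] at this

end Crest.Agent.N222.C
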