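import Crest.Agent.N222.C.Glue
import Crest.Agent.N222.C.Cnt

/-!
# Row 222, part C: sheets and their gluing (Gaifullin's construction)

A sheet is a partial colouring `lam` of labels, an ordering `pos` of the colours, and a copy index.
`Rel I` = "same data on the wall `a_j = 0, j ∈ I`", `PP I` = the equivariant sign reversing
involutions along `Rel I`, `VV = UU × ∏ PP I` with the commuting involutions `Φ I`.
-/

set_option autoImplicit false

open Set

noncomputable section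

namespace Crest.Agent.N222.C

/-- combinatorial data: an equivariant family of sets `O y` and a cocycle on the labels -/
structure Dat (Γ T L : Type) [Group Γ] [MulAction Γ T] [MulAction Γ L] (n k : ℕ) where
  χ : Γ →* ℤˣ
  O : L → Set T
  O_smul : ∀ (g : Γ) y x, g • x ∈ O (g • y) ↔ x ∈ O y
  free : ∀ (g : Γ) (y : L), g • y = y → g = 1
  reps : Finset L
  cover : ∀ y, ∃ g : Γ, g • y ∈ reps
  nb_fin : ∀ y, {y' | (O y ∩ O y').Nonempty}.Finite
  nb_card : ∀ y, {y' | (O y ∩ O y').Nonempty}.ncard ≤ n + 1 + k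
  α : (Fin (n + 1) → L) → ℝ
  tw : Tw χ α
  coc : cob α = 0
  int : ∀ σ : Fin (n + 1) → L, (∃ x, ∀ i, x ∈ O (σ i)) → ∃ z : ℤ, α σ = z

/-- raw sheets -/
@[ext] structure Sh (L : Type) (n k : ℕ) where
  /-- the label of a colour -/
  lam : Col n k → Option L
  /-- the colour of a position -/
  pos : Equiv.Perm (Col n k)
  /-- the labels of the first block -/
  sig : Fin (n + 1) → L
  /-- the copy -/
  cp : ℕ

variable {Γ T L : Type} [Group Γ] [MulAction Γ T] [MulAction Γ L] {n k : ℕ}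

instance : MulAction Γ (Sh L n k) where
  smul g u := ⟨fun c => (u.lam c).map (g • ·), u.pos, fun i => g • u.sig i, u.cp⟩
  one_smul u := by
    refine Sh.ext (funext fun c => ?_) rfl (funext fun i => one_smul _ _) rfl
    change (u.lam c).map ((1 : Γ) • ·) = u.lam c
    cases u.lam c <;> simp
  mul_smul a b u := by
    refine Sh.ext (funext fun c => ?_) rfl (funext fun i => mul_smul _ _ _) rfl
    change (u.lam c).map ((a * b) • ·) = ((u.lam c).map (b • ·)).map (a • ·)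
    cases u.lam c <;> simp [mul_smul]

theorem Sh.smul_lam (g : Γ) (u : Sh L n k) (c : Col n k) :
    (g • u).lam c = (u.lam c).map (g • ·) := rfl

theorem Sh.smul_pos (g : Γ) (u : Sh L n k) : (g • u).pos = u.pos := rfl

theorem Sh.smul_sig (g : Γ) (u : Sh L n k) (i : Fin (n + 1)) : (g • u).sig i = g • u.sig i := rfl

theorem Sh.smul_cp (g : Γ) (u : Sh L n k) : (g • u).cp = u.cp := rfl

/-- the gaps below a position which are not in `I` -/
def blk (I : Finset (Fin k)) : Col n k → Finset (Fin k)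
  | Sum.inl _ => ∅
  | Sum.inr j => Finset.Iic j \ I

namespace Dat

variable (d : Dat Γ T L n k)

/-- the points on which all colours of the top block (after merging along `I`) are active -/
def X (I : Finset (Fin k)) (u : Sh L n k) : Set T :=
  {x | ∀ c, blk I (u.pos.symm c) = ∅ → ∃ y, u.lam c = some y ∧ x ∈ d.O y}

/-- the labels which are active somewhere on `X I u` -/
def A (I : Finset (Fin k)) (u : Sh L n k) : Set L := {y | (d.O y ∩ d.X I u).Nonempty}

/-- same data on the wall `I` -/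
structure Rel (I : Finset (Fin k)) (u u' : Sh L n k) : Prop where
  blk : ∀ c, blk I (u.pos.symm c) = blk I (u'.pos.symm c)
  X : d.X I u = d.X I u'
  lam : ∀ c, ∀ y ∈ d.A I u, u.lam c = some y ↔ u'.lam c = some y

/-- valid sheets -/
structure Valid (u : Sh L n k) : Prop where
  sig : ∀ i, u.lam (u.pos (Sum.inl i)) = some (u.sig i)
  ne : (d.X ∅ u).Nonempty
  inj : PInj u.lam
  img : ∀ y, (∃ c, u.lam c = some y) ↔ y ∈ d.A ∅ u
  cp : u.cp < ⌊|d.α u.sig|⌋₊ * (n + 1 + k - (d.A ∅ u).ncard).factorial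

variable {d}

theorem blk_sdiff {I K : Finset (Fin k)} (h : I ⊆ K) (p : Col n k) : blk K p = blk I p \ K := by
  cases p with
  | inl i => simp [blk]
  | inr j =>
    ext a
    simp only [blk, Finset.mem_sdiff]
    exact ⟨fun ha => ⟨⟨ha.1, fun hI => ha.2 (h hI)⟩, ha.2⟩, fun ha => ⟨ha.1.1, ha.2⟩⟩

theorem map_smul_eq_some (g : Γ) (o : Option L) (y : L) :
    o.map (g • ·) = some (g • y) ↔ o = some y := by
  cases o <;> simp

theorem X_anti {I K : Finset (Fin k)} (h : I ⊆ K) (u : Sh L n k) : d.X K u ⊆ d.X I u := by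
  intro x hx c hc
  exact hx c (by rw [blk_sdiff h, hc, Finset.empty_sdiff])

theorem X_smul (I : Finset (Fin k)) (g : Γ) (u : Sh L n k) (x : T) :
    g • x ∈ d.X I (g • u) ↔ x ∈ d.X I u := by
  refine forall_congr' fun c => imp_congr_right fun _ => ⟨?_, ?_⟩
  · rintro ⟨y, hy, hx⟩
    rw [← smul_inv_smul g y] at hy hx
    exact ⟨_, (map_smul_eq_some g _ _).1 hy, (d.O_smul _ _ _).1 hx⟩
  · rintro ⟨y, hy, hx⟩
    exact ⟨g • y, (map_smul_eq_some g _ _).2 hy, (d.O_smul _ _ _).2 hx⟩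

theorem A_smul (I : Finset (Fin k)) (g : Γ) (u : Sh L n k) (y : L) :
    g • y ∈ d.A I (g • u) ↔ y ∈ d.A I u := by
  constructor
  · rintro ⟨x, h1, h2⟩
    rw [← smul_inv_smul g x] at h1 h2
    exact ⟨_, (d.O_smul _ _ _).1 h1, (X_smul _ _ _ _).1 h2⟩
  · rintro ⟨x, h1, h2⟩
    exact ⟨g • x, (d.O_smul _ _ _).2 h1, (X_smul _ _ _ _).2 h2⟩

theorem A_anti {I K : Finset (Fin k)} (h : I ⊆ K) (u : Sh L n k) : d.A K u ⊆ d.A I u :=
  fun _ ⟨x, h1, h2⟩ => ⟨x, h1, X_anti h u h2⟩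

theorem Rel.A_eq {I : Finset (Fin k)} {u u' : Sh L n k} (r : d.Rel I u u') :
    d.A I u = d.A I u' := by
  rw [A, A, r.X]

theorem A_smul_eq (I : Finset (Fin k)) (g : Γ) (u : Sh L n k) :
    d.A I (g • u) = (g • ·) '' d.A I u := by
  ext y
  refine ⟨fun h => ⟨g⁻¹ • y, (A_smul I g u _).1 (by rwa [smul_inv_smul]), smul_inv_smul g y⟩, ?_⟩
  rintro ⟨y, h, rfl⟩
  exact (A_smul I g u y).2 h

theorem nonempty_X_smul {I : Finset (Fin k)} {u : Sh L n k} (h : (d.X I u).Nonempty) (g : Γ) :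
    (d.X I (g • u)).Nonempty :=
  ⟨g • h.some, (X_smul _ _ _ _).2 h.some_mem⟩

theorem rel_equiv (I : Finset (Fin k)) : Equivalence (d.Rel I) := by
  refine ⟨fun u => ⟨fun _ => rfl, rfl, fun _ _ _ => Iff.rfl⟩, fun r => ⟨fun c => (r.blk c).symm,
    r.X.symm, fun c y hy => (r.lam c y (r.A_eq ▸ hy)).symm⟩, fun r r' => ⟨fun c =>
    (r.blk c).trans (r'.blk c), r.X.trans r'.X, fun c y hy =>
    (r.lam c y hy).trans (r'.lam c y (r.A_eq ▸ hy))⟩⟩

theorem Rel.mono {I K : Finset (Fin k)} (h : I ⊆ K) {u u' : Sh L n k} (r : d.Rel I u u') :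
    d.Rel K u u' := by
  have key : ∀ {u u' : Sh L n k}, d.Rel I u u' → d.X K u ⊆ d.X K u' := fun {u u'} r x hx c hc => by
    obtain ⟨y, hy, hxy⟩ := hx c (by rwa [blk_sdiff h, r.blk, ← blk_sdiff h])
    exact ⟨y, (r.lam c y ⟨x, hxy, X_anti h u hx⟩).1 hy, hxy⟩
  exact ⟨fun c => by rw [blk_sdiff h, r.blk, ← blk_sdiff h],
    (key r).antisymm (key ((rel_equiv I).symm r)), fun c y hy => r.lam c y (A_anti h u hy)⟩

theorem Rel.smul {I : Finset (Fin k)} {u u' : Sh L n k} (r : d.Rel I u u') (g : Γ) :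
    d.Rel I (g • u) (g • u') := by
  refine ⟨r.blk, Set.ext fun x => ?_, fun c y hy => ?_⟩
  · rw [← smul_inv_smul g x, X_smul, X_smul, r.X]
  · rw [← smul_inv_smul g y] at hy ⊢
    rw [Sh.smul_lam, Sh.smul_lam, map_smul_eq_some, map_smul_eq_some]
    exact r.lam c _ ((A_smul _ _ _ _).1 hy)

theorem α_smul (g : Γ) (u : Sh L n k) : d.α (g • u).sig = sg d.χ g * d.α u.sig := d.tw g u.sig

theorem Valid.smul {u : Sh L n k} (h : d.Valid u) (g : Γ) : d.Valid (g • u) := by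
  refine ⟨fun i => (map_smul_eq_some g _ _).2 (h.sig i), nonempty_X_smul h.ne g,
    fun c c' y h1 h2 => ?_, fun y => ?_, ?_⟩
  · rw [← smul_inv_smul g y, Sh.smul_lam, map_smul_eq_some] at h1 h2
    exact h.inj c c' _ h1 h2
  · rw [← smul_inv_smul g y, A_smul, ← h.img]
    simp only [Sh.smul_lam, map_smul_eq_some]
  · have e : |sg d.χ g| = 1 := by rcases sg_eq d.χ g with e | e <;> simp [e]
    rw [α_smul, abs_mul, e, one_mul, A_smul_eq,
      Set.ncard_image_of_injective _ (MulAction.injective g)]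
    exact h.cp

theorem Valid.mem_X {u : Sh L n k} (h : d.Valid u) {x : T} :
    x ∈ d.X ∅ u ↔ ∀ i, x ∈ d.O (u.sig i) := by
  constructor
  · intro hx i
    obtain ⟨y, hy, hxy⟩ := hx (u.pos (Sum.inl i)) (by simp [blk])
    rwa [Option.some_injective _ ((h.sig i).symm.trans hy)]
  · intro hx c hc
    obtain ⟨p, rfl⟩ := u.pos.surjective c
    rw [Equiv.symm_apply_apply] at hc
    cases p with
    | inl i => exact ⟨_, h.sig i, hx i⟩
    | inr j =>
      have : j ∈ blk (n := n) ∅ (Sum.inr j) := by simp [blk]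
      simp [hc] at this

theorem Valid.sig_inj {u : Sh L n k} (h : d.Valid u) : Function.Injective u.sig := by
  intro i i' e
  exact Sum.inl_injective (u.pos.injective (h.inj _ _ _ (h.sig i) (e ▸ h.sig i')))

theorem Valid.free {u : Sh L n k} (h : d.Valid u) {I : Finset (Fin k)} (hI : (d.X I u).Nonempty)
    {g : Γ} (r : d.Rel I u (g • u)) : g = 1 := by
  obtain ⟨x, hx⟩ := hI
  have h1 := (r.lam _ _ ⟨x, h.mem_X.1 (X_anti (Finset.empty_subset _) u hx) 0, hx⟩).1 (h.sig 0)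
  rw [Sh.smul_lam, h.sig 0] at h1
  exact d.free g _ (Option.some_injective _ h1)

variable (d)

/-- the sheets -/
def U : Type := {u : Sh L n k // d.Valid u}

instance : MulAction Γ d.U where
  smul g u := ⟨g • u.1, u.2.smul g⟩
  one_smul u := Subtype.ext (one_smul _ _)
  mul_smul a b u := Subtype.ext (mul_smul a b _)

theorem smul_val (g : Γ) (u : d.U) : (g • u).1 = g • u.1 := rfl

/-- the sign of a sheet -/
def sgn (u : d.U) : ℝ :=
  (if 0 < d.α u.1.sig then 1 else -1) * ((Equiv.Perm.sign u.1.pos : ℤ) : ℝ)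

theorem sgn_eq (u : d.U) : d.sgn u = 1 ∨ d.sgn u = -1 := by
  unfold sgn
  rcases Int.units_eq_one_or (Equiv.Perm.sign u.1.pos) with h | h <;> split_ifs <;> simp [h]

theorem α_ne_zero (u : d.U) : d.α u.1.sig ≠ 0 := fun h => by
  simpa [h] using u.2.cp

theorem sgn_smul (g : Γ) (u : d.U) : d.sgn (g • u) = sg d.χ g * d.sgn u := by
  have h0 := d.α_ne_zero u
  rw [sgn, sgn, smul_val, α_smul, Sh.smul_pos]
  rcases sg_eq d.χ g with e | e
  · simp [e]
  · rcases h0.lt_or_gt with h | h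
    · simp [e, h, h.le]
    · simp [e, h, h.le]

/-- finitely many sheets have their first label in a finite set -/
theorem finite_sig {B : Set L} (hB : B.Finite) : {u : d.U | u.1.sig 0 ∈ B}.Finite := by
  have hN : (⋃ y ∈ B, {y' | (d.O y ∩ d.O y').Nonempty}).Finite := hB.biUnion fun y _ => d.nb_fin y
  set N := ⋃ y ∈ B, {y' | (d.O y ∩ d.O y').Nonempty} with hNe
  have h1 : ({σ : Fin (n + 1) → L | ∀ i, σ i ∈ N}).Finite := Set.Finite.pi' fun _ => hN
  have h2 := h1.biUnion fun σ _ => (finite_singleton σ).prod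
    (finite_Iio (⌊|d.α σ|⌋₊ * (n + 1 + k).factorial))
  have h3 := ((finite_ext (α := Col n k) hN).prod
    (finite_univ (α := Equiv.Perm (Col n k)))).prod h2
  refine Set.Finite.of_finite_image
    (f := fun u : d.U => ((u.1.lam, u.1.pos), (u.1.sig, u.1.cp))) (h3.subset ?_) ?_
  · rintro _ ⟨u, hu, rfl⟩
    have hl : ∀ c y, u.1.lam c = some y → y ∈ N := fun c y h => by
      obtain ⟨x, hx, hx'⟩ := (u.2.img y).1 ⟨c, h⟩
      exact mem_biUnion hu ⟨x, u.2.mem_X.1 hx' 0, hx⟩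
    refine ⟨⟨hl, mem_univ _⟩, mem_biUnion (x := u.1.sig) (fun i => hl _ _ (u.2.sig i)) ⟨rfl, ?_⟩⟩
    exact u.2.cp.trans_le (Nat.mul_le_mul_left _ (Nat.factorial_le (Nat.sub_le _ _)))
  · intro u _ u' _ e
    simp only [Prod.mk.injEq] at e
    exact Subtype.ext (Sh.ext e.1.1 e.1.2 e.2.1 e.2.2)

theorem finite_X (x : T) : {u : d.U | x ∈ d.X ∅ u.1}.Finite := by
  have h : {y | x ∈ d.O y}.Finite := by
    rcases {y | x ∈ d.O y}.eq_empty_or_nonempty with h | ⟨y, hy⟩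
    · rw [h]; exact finite_empty
    · exact (d.nb_fin y).subset fun y' hy' => ⟨x, hy, hy'⟩
  exact (d.finite_sig h).subset fun u hu => u.2.mem_X.1 hu 0

theorem finite_rel {I : Finset (Fin k)} (u : d.U) (hu : (d.X I u.1).Nonempty) :
    {u' : d.U | d.Rel I u.1 u'.1}.Finite :=
  (d.finite_X hu.some).subset fun _ r =>
    X_anti (Finset.empty_subset _) _ ((Rel.X r).subset hu.some_mem)

/-! ### the three counts -/

theorem blk_empty {q : Col n k} : blk ∅ q = ∅ ↔ ∃ i, q = Sum.inl i := by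
  rcases q with i | i
  · exact ⟨fun _ => ⟨i, rfl⟩, fun _ => rfl⟩
  · refine ⟨fun h => absurd h (Finset.ne_empty_of_mem (a := i) ?_), fun ⟨_, h⟩ => by cases h⟩
    simp [blk]

/-- the labels which are active somewhere on the intersection of the `O (σ i)` -/
def As (σ : Fin (n + 1) → L) : Set L := {y | ∃ x ∈ d.O y, ∀ i, x ∈ d.O (σ i)}

theorem mem_X_empty {u : Sh L n k} (h : ∀ i, u.lam (u.pos (Sum.inl i)) = some (u.sig i)) {x : T} :
    x ∈ d.X ∅ u ↔ ∀ i, x ∈ d.O (u.sig i) := by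
  refine ⟨fun hx i => ?_, fun hx c hc => ?_⟩
  · obtain ⟨y, hy, hxy⟩ := hx (u.pos (Sum.inl i)) (by rw [Equiv.symm_apply_apply]; rfl)
    rwa [← Option.some_injective _ (hy.symm.trans (h i))]
  · obtain ⟨i, hi⟩ := blk_empty.1 hc
    exact ⟨_, by rw [← h i, ← hi, Equiv.apply_symm_apply], hx i⟩

theorem A_empty {u : Sh L n k} (h : ∀ i, u.lam (u.pos (Sum.inl i)) = some (u.sig i)) :
    d.A ∅ u = d.As u.sig :=
  Set.ext fun _ => exists_congr fun _ => and_congr_right fun _ => d.mem_X_empty h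

theorem As_sub (σ : Fin (n + 1) → L) : d.As σ ⊆ {y' | (d.O (σ 0) ∩ d.O y').Nonempty} :=
  fun _ ⟨x, h, h'⟩ => ⟨x, h' 0, h⟩

/-- the sheets with given positions and first block which agree with `lam₀` on `B` -/
def Fib (p : Equiv.Perm (Col n k)) (σ : Fin (n + 1) → L) (B : Set L) (lam₀ : Col n k → Option L) :
    Set d.U :=
  {u | u.1.pos = p ∧ u.1.sig = σ ∧ ∀ c, ∀ y ∈ B, u.1.lam c = some y ↔ lam₀ c = some y}

theorem finite_Fib (p : Equiv.Perm (Col n k)) (σ : Fin (n + 1) → L) (B : Set L)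
    (lam₀ : Col n k → Option L) : (d.Fib p σ B lam₀).Finite :=
  (d.finite_sig (finite_singleton (σ 0))).subset fun _ h => congrFun h.2.1 0

theorem card_Fib {p : Equiv.Perm (Col n k)} {σ : Fin (n + 1) → L} {B : Set L}
    {lam₀ : Col n k → Option L} (hx : ∃ x, ∀ i, x ∈ d.O (σ i)) (hσ : ∀ i, σ i ∈ B)
    (hB : B ⊆ d.As σ) (h₀ : ∀ y ∈ B, ∃! c, lam₀ c = some y)
    (hp : ∀ i, lam₀ (p (Sum.inl i)) = some (σ i)) :
    (d.Fib p σ B lam₀).ncard = (n + 1 + k - B.ncard).factorial * ⌊|d.α σ|⌋₊ := by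
  have hA : (d.As σ).Finite := (d.nb_fin _).subset (d.As_sub σ)
  have h1 : (d.As σ).ncard ≤ n + 1 + k :=
    (ncard_le_ncard (d.As_sub σ) (d.nb_fin _)).trans (d.nb_card _)
  have h2 : B.ncard ≤ (d.As σ).ncard := ncard_le_ncard hB hA
  have hc := card_ext hA hB h₀
  rw [Fintype.card_sum, Fintype.card_fin, Fintype.card_fin] at hc
  have h3 := Nat.factorial_mul_descFactorial
    (show (d.As σ).ncard - B.ncard ≤ n + 1 + k - B.ncard by omega)
  rw [show n + 1 + k - B.ncard - ((d.As σ).ncard - B.ncard) = n + 1 + k - (d.As σ).ncard by omega,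
    ← hc] at h3
  rw [← h3, mul_right_comm, mul_comm, mul_comm (Nat.factorial _), ← Nat.card_coe_set_eq,
    ← Nat.card_fin (_ * Nat.factorial _), ← Nat.card_prod]
  have hs : ∀ (lam : Col n k → Option L) (c : ℕ),
      (∀ c, ∀ y ∈ B, lam c = some y ↔ lam₀ c = some y) →
      ∀ i, (Sh.mk lam p σ c).lam ((Sh.mk lam p σ c).pos (Sum.inl i)) = some ((Sh.mk lam p σ c).sig i) :=
    fun lam c h i => (h _ _ (hσ i)).2 (hp i)
  refine (Nat.card_eq_of_bijective (fun z => ⟨⟨⟨z.1.1, p, σ, z.2⟩, hs _ _ z.1.2.2.2,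
    hx.imp fun x h => (d.mem_X_empty (hs _ _ z.1.2.2.2)).2 h, z.1.2.1,
    fun y => by rw [d.A_empty (hs _ _ z.1.2.2.2)]; exact z.1.2.2.1 y,
    by rw [d.A_empty (hs _ _ z.1.2.2.2)]; exact z.2.2⟩,
    rfl, rfl, z.1.2.2.2⟩) ⟨fun z z' h => ?_, ?_⟩).symm
  · exact Prod.ext (Subtype.ext (congrArg (fun u : d.Fib p σ B lam₀ => u.1.1.lam) h))
      (Fin.ext (congrArg (fun u : d.Fib p σ B lam₀ => u.1.1.cp) h))
  · rintro ⟨⟨⟨lam, p', σ', c⟩, hv⟩, rfl, rfl, h⟩
    have e := d.A_empty hv.sig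
    exact ⟨(⟨lam, hv.inj, fun y => (hv.img y).trans (by rw [e]), h⟩,
      ⟨c, by have := hv.cp; rwa [e] at this⟩), rfl⟩

theorem sum_Fib {p : Equiv.Perm (Col n k)} {σ : Fin (n + 1) → L} {B : Set L}
    {lam₀ : Col n k → Option L} (hx : ∃ x, ∀ i, x ∈ d.O (σ i)) (hσ : ∀ i, σ i ∈ B)
    (hB : B ⊆ d.As σ) (h₀ : ∀ y ∈ B, ∃! c, lam₀ c = some y)
    (hp : ∀ i, lam₀ (p (Sum.inl i)) = some (σ i)) {f : d.U → ℝ} {s : ℝ}
    (hf : ∀ u ∈ d.Fib p σ B lam₀, f u = (if 0 < d.α σ then 1 else -1) * s) :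
    ∑ᶠ u ∈ d.Fib p σ B lam₀, f u = (n + 1 + k - B.ncard).factorial * (s * d.α σ) := by
  rw [finsum_mem_congr rfl hf, finsum_mem_eq_finite_toFinset_sum _ (d.finite_Fib p σ B lam₀),
    Finset.sum_const, ← ncard_eq_toFinset_card _ (d.finite_Fib p σ B lam₀), d.card_Fib hx hσ hB h₀ hp, nsmul_eq_mul,
    Nat.cast_mul]
  obtain ⟨z, hz⟩ := d.int σ hx
  have h1 : (⌊|d.α σ|⌋₊ : ℝ) = |d.α σ| := by
    rw [hz, ← Int.cast_abs, ← Int.natCast_natAbs, Int.cast_natCast, Nat.floor_natCast]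
  rw [h1]
  split_ifs with h
  · rw [abs_of_pos h]; ring
  · rw [abs_of_nonpos (not_lt.1 h)]; ring

/-- the signed number of sheets with given first block -/
theorem sum_sig {σ : Fin (n + 1) → L} (hσ : Function.Injective σ) (hx : ∃ x, ∀ i, x ∈ d.O (σ i)) :
    ∑ᶠ u ∈ {u : d.U | u.1.sig = σ}, (if 0 < d.α u.1.sig then 1 else -1 : ℝ) =
      ((n + 1 + k).factorial * k.factorial : ℕ) * d.α σ := by
  let l : Equiv.Perm (Col n k) → Col n k → Option L := fun p c =>
    (p.symm c).elim (fun i => some (σ i)) fun _ => none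
  have hl : ∀ p c i, l p c = some (σ i) ↔ c = p (Sum.inl i) := fun p c i => by
    obtain ⟨q, rfl⟩ := p.surjective c
    rcases q with i' | i' <;> simp [l, hσ.eq_iff]
  have e : {u : d.U | u.1.sig = σ} = ⋃ p, d.Fib p σ (range σ) (l p) := by
    refine Set.ext fun u => ⟨fun h => mem_iUnion.2 ⟨u.1.pos, rfl, h, ?_⟩,
      fun h => (mem_iUnion.1 h).choose_spec.2.1⟩
    rintro c _ ⟨i, rfl⟩
    have h1 : u.1.lam (u.1.pos (Sum.inl i)) = some (σ i) := h ▸ u.2.sig i
    rw [hl]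
    exact ⟨fun h2 => u.2.inj _ _ _ h2 h1, fun h2 => h2 ▸ h1⟩
  have hc : (range σ).ncard = n + 1 := by
    rw [← image_univ, ncard_image_of_injective _ hσ, ncard_univ, Nat.card_fin]
  rw [e, finsum_mem_iUnion (fun p p' h => disjoint_left.2 fun u h1 h2 => h (h1.1.symm.trans h2.1))
    fun p => d.finite_Fib _ _ _ _, finsum_eq_sum_of_fintype,
    Finset.sum_congr rfl fun p _ => d.sum_Fib (s := 1) hx mem_range_self
      (by rintro _ ⟨i, rfl⟩; exact hx.imp fun x h => ⟨h i, h⟩)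
      (by rintro _ ⟨i, rfl⟩; simp only [hl]; exact existsUnique_eq) (fun i => (hl _ _ _).2 rfl)
      fun u hu => by rw [hu.2.1, mul_one],
    Finset.sum_const, Finset.card_univ, Fintype.card_perm, hc, Fintype.card_sum, Fintype.card_fin,
    Fintype.card_fin, Nat.add_sub_cancel_left, nsmul_eq_mul, Nat.cast_mul]
  ring

/-- the positions of the top block on the first wall -/
def emb (n : ℕ) (j : Fin k) : Fin (n + 2) ↪ Col n k :=
  ⟨Fin.cons (Sum.inr j) Sum.inl, Fin.cons_injective_iff.2 ⟨by simp, Sum.inl_injective⟩⟩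

theorem emb_succ (j : Fin k) (i : Fin (n + 1)) : emb n j i.succ = Sum.inl i := rfl

theorem blk_first {j : Fin k} (hj : (j : ℕ) = 0) {q : Col n k} :
    blk {j} q = ∅ ↔ q ∈ range (emb n j) := by
  rcases q with i | i
  · exact ⟨fun _ => ⟨i.succ, rfl⟩, fun _ => rfl⟩
  · refine ⟨fun h => ⟨0, congrArg Sum.inr ?_⟩, fun ⟨r, h⟩ => ?_⟩
    · exact (Finset.mem_singleton.1 (Finset.sdiff_eq_empty_iff_subset.1 h
        (Finset.mem_Iic.2 le_rfl))).symm
    · refine Finset.sdiff_eq_empty_iff_subset.2 fun a ha => Finset.mem_singleton.2 (Fin.ext ?_)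
      have h1 : (a : ℕ) ≤ i := Fin.le_def.1 (Finset.mem_Iic.1 ha)
      have h2 : j = i := by
        induction r using Fin.cases with
        | zero => exact Sum.inr_injective h
        | succ r => cases h
      subst h2
      omega

theorem blk_first_inj {j : Fin k} (hj : (j : ℕ) = 0) {q q' : Col n k} (hq : q ∉ range (emb n j))
    (h : blk {j} q' = blk {j} q) : q' = q := by
  have hq' : q' ∉ range (emb n j) := fun h' => hq ((blk_first hj).1 (h ▸ (blk_first hj).2 h'))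
  have key : ∀ i i' : Fin k, Sum.inr i ∉ range (emb n j) →
      blk {j} (Sum.inr i : Col n k) = blk {j} (Sum.inr i' : Col n k) → i ≤ i' := fun i i' hi e => by
    have h1 : i ∈ blk {j} (Sum.inr i : Col n k) := Finset.mem_sdiff.2 ⟨Finset.mem_Iic.2 le_rfl,
      fun h2 => hi ⟨0, congrArg Sum.inr (Finset.mem_singleton.1 h2).symm⟩⟩
    exact Finset.mem_Iic.1 (Finset.mem_sdiff.1 (e ▸ h1 : i ∈ blk {j} (Sum.inr i' : Col n k))).1
  rcases q with i | i
  · exact absurd ⟨i.succ, rfl⟩ hq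
  rcases q' with i' | i'
  · exact absurd ⟨i'.succ, rfl⟩ hq'
  exact congrArg Sum.inr (le_antisymm (key _ _ hq' h) (key _ _ hq h.symm))

theorem blk_via {j : Fin k} (hj : (j : ℕ) = 0) (ρ : Equiv.Perm (Fin (n + 2))) (q : Col n k) :
    blk {j} (ρ.viaFintypeEmbedding (emb n j) q) = blk {j} q := by
  by_cases hq : q ∈ range (emb n j)
  · obtain ⟨r, rfl⟩ := hq
    rw [Equiv.Perm.viaFintypeEmbedding_apply_image, (blk_first hj).2 ⟨_, rfl⟩,
      (blk_first hj).2 ⟨_, rfl⟩]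
  · rw [Equiv.Perm.viaFintypeEmbedding_apply_notMem_range _ _ hq]

theorem exists_via {j : Fin k} (hj : (j : ℕ) = 0) {π : Equiv.Perm (Col n k)}
    (h : ∀ q, blk {j} (π q) = blk {j} q) :
    ∃ ρ : Equiv.Perm (Fin (n + 2)), π = ρ.viaFintypeEmbedding (emb n j) := by
  choose f hf using fun r => (blk_first hj).1 ((h (emb n j r)).trans ((blk_first hj).2 ⟨r, rfl⟩))
  have hi : Function.Injective f := fun r r' e =>
    (emb n j).injective (π.injective (by rw [← hf, ← hf, e]))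
  refine ⟨Equiv.ofBijective f (Finite.injective_iff_bijective.1 hi), Equiv.ext fun q => ?_⟩
  by_cases hq : q ∈ range (emb n j)
  · obtain ⟨r, rfl⟩ := hq
    rw [Equiv.Perm.viaFintypeEmbedding_apply_image, ← hf]
    rfl
  · rw [Equiv.Perm.viaFintypeEmbedding_apply_notMem_range _ _ hq]
    exact blk_first_inj hj hq (h q)

/-- the signed count of a class on the first wall vanishes (cocycle identity) -/
theorem sum_first {j : Fin k} (hj : (j : ℕ) = 0) (u : d.U) (hu : (d.X {j} u.1).Nonempty) :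
    ∑ᶠ u' ∈ {u' : d.U | d.Rel {j} u.1 u'.1}, d.sgn u' = 0 := by
  obtain ⟨x₀, hx₀⟩ := hu
  choose τ hτ hτx using fun r => hx₀ (u.1.pos (emb n j r))
    (by rw [Equiv.symm_apply_apply]; exact (blk_first hj).2 ⟨r, rfl⟩)
  have hX : ∀ v : Sh L n k, (∀ c, blk {j} (u.1.pos.symm c) = blk {j} (v.pos.symm c)) →
      (∀ r, v.lam (u.1.pos (emb n j r)) = some (τ r)) →
      ∀ x, x ∈ d.X {j} v ↔ ∀ r, x ∈ d.O (τ r) := fun v hb hl x => by
    refine ⟨fun hx r => ?_, fun hx c hc => ?_⟩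
    · obtain ⟨y, hy, hxy⟩ := hx (u.1.pos (emb n j r))
        (by rw [← hb, Equiv.symm_apply_apply]; exact (blk_first hj).2 ⟨r, rfl⟩)
      rwa [← Option.some_injective _ (hy.symm.trans (hl r))]
    · obtain ⟨r, hr⟩ := (blk_first hj).1 ((hb c).trans hc)
      exact ⟨_, by rw [← hl r, hr, Equiv.apply_symm_apply], hx r⟩
  have hτB : ∀ r, τ r ∈ d.A {j} u.1 := fun r => ⟨x₀, hτx r, hx₀⟩
  have hp : ∀ (ρ : Equiv.Perm (Fin (n + 2))) i,
      (u.1.pos * ρ.viaFintypeEmbedding (emb n j)) (Sum.inl i) = u.1.pos (emb n j (ρ i.succ)) :=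
    fun ρ i => by
      rw [Equiv.Perm.mul_apply, ← emb_succ j, Equiv.Perm.viaFintypeEmbedding_apply_image]
  have e : {u' : d.U | d.Rel {j} u.1 u'.1} = ⋃ ρ : Equiv.Perm (Fin (n + 2)),
      d.Fib (u.1.pos * ρ.viaFintypeEmbedding (emb n j)) (fun i => τ (ρ i.succ)) (d.A {j} u.1)
        u.1.lam := by
    refine Set.ext fun v => ⟨fun h => mem_iUnion.2 ?_, fun h => ?_⟩
    · obtain ⟨ρ, hρ⟩ := exists_via hj (π := u.1.pos⁻¹ * v.1.pos) fun q => by
        have := h.blk (v.1.pos q)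
        rwa [Equiv.symm_apply_apply] at this
      have h1 : v.1.pos = u.1.pos * ρ.viaFintypeEmbedding (emb n j) := by
        rw [← hρ, mul_inv_cancel_left]
      refine ⟨ρ, h1, funext fun i => Option.some_injective _ ?_, fun c y hy => (h.lam c y hy).symm⟩
      rw [← v.2.sig i, h1, hp]
      exact (h.lam _ _ (hτB _)).1 (hτ _)
    · obtain ⟨ρ, h1, -, h3⟩ := mem_iUnion.1 h
      have hb : ∀ c, blk {j} (u.1.pos.symm c) = blk {j} (v.1.pos.symm c) := fun c => by
        obtain ⟨q, rfl⟩ := v.1.pos.surjective c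
        rw [Equiv.symm_apply_apply, h1, Equiv.Perm.mul_apply, Equiv.symm_apply_apply, blk_via hj]
      exact ⟨hb, Set.ext fun x => (hX _ (fun _ => rfl) hτ x).trans
        (hX _ hb (fun r => (h3 _ _ (hτB r)).2 (hτ r)) x).symm, fun c y hy => (h3 c y hy).symm⟩
  rw [e, finsum_mem_iUnion (fun ρ ρ' h => disjoint_left.2 fun v h1 h2 => h ?_)
    fun ρ => d.finite_Fib _ _ _ _, finsum_eq_sum_of_fintype,
    Finset.sum_congr rfl fun ρ _ => d.sum_Fib
      (s := ((Equiv.Perm.sign u.1.pos : ℤ) : ℝ) * ((Equiv.Perm.sign ρ : ℤ) : ℝ))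
      ⟨x₀, fun _ => hτx _⟩ (fun _ => hτB _)
      (fun y ⟨x, h, h'⟩ => ⟨x, h, fun _ => (hX _ (fun _ => rfl) hτ x).1 h' _⟩)
      (fun y ⟨x, h, h'⟩ => ?_) (fun i => by rw [hp, hτ]) fun v hv => ?_]
  · simp only [mul_assoc, ← Finset.mul_sum, sum_perm_succ d.coc τ, mul_zero]
  · obtain ⟨c, hc⟩ := (u.2.img y).2 ⟨x, h, X_anti (Finset.empty_subset _) _ h'⟩
    exact ⟨c, hc, fun c' hc' => u.2.inj _ _ _ hc' hc⟩
  · rw [sgn, hv.1, hv.2.1, Equiv.Perm.sign_mul, Equiv.Perm.viaFintypeEmbedding_sign, Units.val_mul,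
      Int.cast_mul]
  · have h3 := mul_left_cancel (h1.1.symm.trans h2.1)
    refine Equiv.ext fun r => (emb n j).injective ?_
    rw [← Equiv.Perm.viaFintypeEmbedding_apply_image, h3,
      Equiv.Perm.viaFintypeEmbedding_apply_image]

/-- reordering the positions below the first block -/
def reord (s : Equiv.Perm (Col n k)) (hs : ∀ i, s (Sum.inl i) = Sum.inl i) (u : d.U) : d.U :=
  have h : ∀ i, (Sh.mk u.1.lam (u.1.pos * s) u.1.sig u.1.cp).lam
      ((Sh.mk u.1.lam (u.1.pos * s) u.1.sig u.1.cp).pos (Sum.inl i)) =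
      some ((Sh.mk u.1.lam (u.1.pos * s) u.1.sig u.1.cp).sig i) := fun i => by
    change u.1.lam (u.1.pos (s _)) = _
    rw [hs]
    exact u.2.sig i
  ⟨⟨u.1.lam, u.1.pos * s, u.1.sig, u.1.cp⟩, h,
    u.2.ne.imp fun _ hx => (d.mem_X_empty h).2 ((d.mem_X_empty u.2.sig).1 hx), u.2.inj,
    fun y => by rw [d.A_empty h]; exact (u.2.img y).trans (by rw [d.A_empty u.2.sig]),
    by rw [d.A_empty h]; have := u.2.cp; rwa [d.A_empty u.2.sig] at this⟩

theorem rel_reord {I : Finset (Fin k)} {s : Equiv.Perm (Col n k)}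
    (hs : ∀ i, s (Sum.inl i) = Sum.inl i) (hb : ∀ q, blk I (s q) = blk I q) (u : d.U) :
    d.Rel I u.1 (d.reord s hs u).1 := by
  have h : ∀ c, blk I (u.1.pos.symm c) = blk I ((d.reord s hs u).1.pos.symm c) := fun c => by
    obtain ⟨q, rfl⟩ := (d.reord s hs u).1.pos.surjective c
    rw [Equiv.symm_apply_apply, ← hb q]
    exact congrArg _ (u.1.pos.symm_apply_apply _)
  refine ⟨h, Set.ext fun x => forall_congr' fun c => ?_, fun _ _ _ => Iff.rfl⟩
  rw [h c]
  rfl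

/-- the signed count of a class on another wall vanishes (swap two positions) -/
theorem sum_other {j : Fin k} (hj : (j : ℕ) ≠ 0) (u : d.U) (hu : (d.X {j} u.1).Nonempty) :
    ∑ᶠ u' ∈ {u' : d.U | d.Rel {j} u.1 u'.1}, d.sgn u' = 0 := by
  let j' : Fin k := ⟨j - 1, by omega⟩
  have hne : (Sum.inr j : Col n k) ≠ Sum.inr j' := fun h => by
    have : (j : ℕ) = j - 1 := congrArg Fin.val (Sum.inr_injective h)
    omega
  let s : Equiv.Perm (Col n k) := Equiv.swap (Sum.inr j) (Sum.inr j')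
  have hs : ∀ i, s (Sum.inl i) = Sum.inl i := fun i =>
    Equiv.swap_apply_of_ne_of_ne Sum.inl_ne_inr Sum.inl_ne_inr
  have hb : ∀ q, blk {j} (s q) = blk {j} q := Equiv.apply_swap_eq_self (by
    ext a
    simp only [blk, Finset.mem_sdiff, Finset.mem_Iic, Finset.mem_singleton, Fin.le_def, Fin.ext_iff,
      j']
    omega)
  have inv : Function.Involutive (d.reord s hs) := fun v =>
    Subtype.ext (Sh.ext rfl (by
      change v.1.pos * s * s = v.1.pos
      rw [mul_assoc, Equiv.swap_mul_self, mul_one]) rfl rfl)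
  have hm : MapsTo (d.reord s hs) {u' : d.U | d.Rel {j} u.1 u'.1} {u' : d.U | d.Rel {j} u.1 u'.1} :=
    fun v hv => (rel_equiv _).trans hv (d.rel_reord hs hb v)
  have h := finsum_mem_eq_of_bijOn (f := d.sgn) (g := fun v => -d.sgn v) _
    (InvOn.bijOn ⟨fun v _ => inv v, fun v _ => inv v⟩ hm hm)
    fun v _ => by
      change _ = -(_ * ((Equiv.Perm.sign (v.1.pos * s) : ℤ) : ℝ))
      rw [Equiv.Perm.sign_mul, Equiv.Perm.sign_swap hne]
      simp only [sgn, mul_neg, mul_one, Units.val_neg, Int.cast_neg, neg_neg]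
      rfl
  simp only [finsum_neg_distrib] at h
  linarith

/-- admissible pairings along the wall `I` -/
structure IsP (I : JJ k) (Λ : Equiv.Perm d.U) : Prop where
  sq : Λ * Λ = 1
  eqv : ∀ (g : Γ) u, Λ (g • u) = g • Λ u
  rel : ∀ u, d.Rel I.1 u.1 (Λ u).1
  sgn : ∀ u, (d.X I.1 u.1).Nonempty → d.sgn (Λ u) = -d.sgn u
  fix : ∀ u, ¬ (d.X I.1 u.1).Nonempty → Λ u = u

theorem exists_isP (I : JJ k) : ∃ Λ, d.IsP I Λ := by
  obtain ⟨j, hj⟩ := I.2
  have hs : ({j} : Finset (Fin k)) ⊆ I.1 := Finset.singleton_subset_iff.2 hj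
  have hne : ∀ u : d.U, (d.X I.1 u.1).Nonempty → (d.X {j} u.1).Nonempty := fun u h =>
    h.mono (X_anti hs _)
  obtain ⟨Λ, h1, h2, h3, h4, h5⟩ := exists_inv (U := d.U) d.χ (fun u u' => d.Rel {j} u.1 u'.1)
    ⟨fun u => (rel_equiv _).refl _, fun r => (rel_equiv _).symm r,
      fun r r' => (rel_equiv _).trans r r'⟩
    (fun g u u' r => r.smul g) (fun u => (d.X I.1 u.1).Nonempty)
    (fun u u' r h => (r.mono hs).X ▸ h) (fun g u h => nonempty_X_smul h g)
    (fun g u h r => u.2.free (hne u h) r) d.sgn d.sgn_eq d.sgn_smul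
    (fun u h => d.finite_rel u (hne u h))
    (fun u h => by
      by_cases h0 : (j : ℕ) = 0
      · exact d.sum_first h0 u (hne u h)
      · exact d.sum_other h0 u (hne u h))
  exact ⟨Λ, h1, h2, fun u => (h3 u).mono hs, h4, h5⟩

theorem finite_isP (I : JJ k) : {Λ | d.IsP I Λ}.Finite := by
  have hR := d.finite_sig d.reps.finite_toSet
  have := hR.to_subtype
  have hC : ∀ u : d.U, {u' : d.U | d.Rel I.1 u.1 u'.1 ∧
      (¬ (d.X I.1 u.1).Nonempty → u' = u)}.Finite := fun u => by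
    by_cases h : (d.X I.1 u.1).Nonempty
    · exact (d.finite_rel u h).subset fun _ h' => h'.1
    · exact (finite_singleton u).subset fun _ h' => h'.2 h
  refine Set.Finite.of_finite_image
    (f := fun (Λ : Equiv.Perm d.U) (u : {u : d.U | u.1.sig 0 ∈ (d.reps : Set L)}) => Λ u)
    ((Set.Finite.pi' fun u : {u : d.U | u.1.sig 0 ∈ (d.reps : Set L)} => hC u).subset ?_) ?_
  · rintro _ ⟨Λ, hΛ, rfl⟩ u
    exact ⟨hΛ.rel u, hΛ.fix u⟩
  · intro Λ hΛ Λ' hΛ' e
    refine Equiv.ext fun u => ?_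
    obtain ⟨g, hg⟩ := d.cover (u.1.sig 0)
    have h1 : Λ (g • u) = Λ' (g • u) := congrFun e ⟨g • u, hg⟩
    rw [hΛ.eqv, hΛ'.eqv] at h1
    exact MulAction.injective g h1

theorem IsP.apply_apply {d : Dat Γ T L n k} {I : JJ k} {Λ : Equiv.Perm d.U} (h : d.IsP I Λ)
    (u : d.U) : Λ (Λ u) = u := by
  rw [← Equiv.Perm.mul_apply, h.sq, Equiv.Perm.one_apply]

theorem IsP.mul_mul {d : Dat Γ T L n k} {I : JJ k} {Λ : Equiv.Perm d.U} (h : d.IsP I Λ)
    (M : Equiv.Perm d.U) : Λ * (Λ * M) = M := by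
  rw [← mul_assoc, h.sq, one_mul]

theorem IsP.conj {d : Dat Γ T L n k} {I K : JJ k} (h : I ≤ K) {Λ Λ' : Equiv.Perm d.U}
    (hI : d.IsP I Λ) (hK : d.IsP K Λ') : d.IsP K (Λ * Λ' * Λ) := by
  have hs : I.1 ⊆ K.1 := h
  have r1 : ∀ u, d.X K.1 u.1 = d.X K.1 (Λ u).1 := fun u => ((hI.rel u).mono hs).X
  refine ⟨by simp only [mul_assoc, hI.mul_mul, hK.mul_mul, hI.sq], fun g u => ?_, fun u => ?_,
    fun u hu => ?_, fun u hu => ?_⟩
  · simp only [Equiv.Perm.mul_apply, hI.eqv, hK.eqv]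
  · exact (rel_equiv _).trans ((hI.rel u).mono hs)
      ((rel_equiv _).trans (hK.rel _) ((hI.rel _).mono hs))
  · have h1 : (d.X K.1 (Λ u).1).Nonempty := r1 u ▸ hu
    have h2 : (d.X K.1 (Λ' (Λ u)).1).Nonempty := (hK.rel _).X ▸ h1
    rw [Equiv.Perm.mul_apply, Equiv.Perm.mul_apply, hI.sgn _ (h2.mono (X_anti hs _)), hK.sgn _ h1,
      hI.sgn _ (hu.mono (X_anti hs _)), neg_neg]
  · rw [Equiv.Perm.mul_apply, Equiv.Perm.mul_apply, hK.fix _ (r1 u ▸ hu), hI.apply_apply]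

/-- a choice of a pairing for every wall -/
def LL : Type := ∀ I : JJ k, {Λ : Equiv.Perm d.U // d.IsP I Λ}

instance : Finite d.LL := by
  have := fun I => (d.finite_isP I).to_subtype
  exact inferInstanceAs (Finite (∀ I : JJ k, {Λ | d.IsP I Λ}))

instance : Nonempty d.LL := by
  exact ⟨fun I => ⟨_, (d.exists_isP I).choose_spec⟩⟩

/-- the sheets of the resolution -/
@[ext] structure VV where
  u : d.U
  l : d.LL

instance : MulAction Γ d.VV where
  smul g v := ⟨g • v.u, v.l⟩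
  one_smul v := VV.ext (one_smul _ _) rfl
  mul_smul a b v := VV.ext (mul_smul a b _) rfl

theorem smul_u (g : Γ) (v : d.VV) : (g • v).u = g • v.u := rfl

theorem smul_l (g : Γ) (v : d.VV) : (g • v).l = v.l := rfl

open Classical in
/-- the involution of the wall `I` -/
def flip (I : JJ k) (v : d.VV) : d.VV :=
  ⟨(v.l I).1 v.u, fun K => if h : I < K then
    ⟨(v.l I).1 * (v.l K).1 * (v.l I).1, IsP.conj h.le (v.l I).2 (v.l K).2⟩ else v.l K⟩

theorem flip_u (I : JJ k) (v : d.VV) : (d.flip I v).u = (v.l I).1 v.u := rfl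

theorem flip_l_of_lt {I K : JJ k} (h : I < K) (v : d.VV) :
    ((d.flip I v).l K).1 = (v.l I).1 * (v.l K).1 * (v.l I).1 := by
  simp only [flip, dif_pos h]

theorem flip_l_of_not {I K : JJ k} (h : ¬ I < K) (v : d.VV) : (d.flip I v).l K = v.l K := by
  simp only [flip, dif_neg h]

theorem flip_flip (I : JJ k) : Function.Involutive (d.flip I) := by
  intro v
  refine VV.ext ?_ (funext fun K => Subtype.ext ?_)
  · rw [flip_u, flip_l_of_not _ (lt_irrefl I), flip_u, (v.l I).2.apply_apply]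
  · by_cases h : I < K
    · rw [flip_l_of_lt _ h, flip_l_of_lt _ h, flip_l_of_not _ (lt_irrefl I)]
      simp only [mul_assoc, (v.l I).2.mul_mul, (v.l I).2.sq, mul_one]
    · rw [flip_l_of_not _ h, flip_l_of_not _ h]

theorem flip_comm {I K : JJ k} (h : I ≤ K) (v : d.VV) :
    d.flip I (d.flip K v) = d.flip K (d.flip I v) := by
  rcases h.eq_or_lt with rfl | h
  · rfl
  refine VV.ext ?_ (funext fun M => Subtype.ext ?_)
  · rw [flip_u, flip_u, flip_u, flip_u, flip_l_of_not _ h.not_gt, flip_l_of_lt _ h,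
      Equiv.Perm.mul_apply, Equiv.Perm.mul_apply, (v.l I).2.apply_apply]
  · by_cases hM : K < M
    · rw [flip_l_of_lt _ (h.trans hM), flip_l_of_lt _ hM, flip_l_of_lt _ hM,
        flip_l_of_not _ h.not_gt, flip_l_of_lt _ h, flip_l_of_lt _ (h.trans hM)]
      simp only [mul_assoc, (v.l I).2.mul_mul]
    · rw [flip_l_of_not _ hM]
      by_cases hI : I < M
      · rw [flip_l_of_lt _ hI, flip_l_of_lt _ hI, flip_l_of_not _ h.not_gt, flip_l_of_not _ hM]
      · rw [flip_l_of_not _ hI, flip_l_of_not _ hI, flip_l_of_not _ hM]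

/-- `VV` is a product -/
def eVV : d.VV ≃ d.U × d.LL := ⟨fun v => (v.u, v.l), fun p => ⟨p.1, p.2⟩, fun _ => rfl, fun _ => rfl⟩

theorem finite_VV {S : Set d.U} (hS : S.Finite) : {v : d.VV | v.u ∈ S}.Finite :=
  ((hS.prod (finite_univ (α := d.LL))).preimage d.eVV.injective.injOn).subset
    fun _ hv => ⟨hv, mem_univ _⟩

theorem exists_reps : ∃ R : Finset d.VV, (∀ v, ∃ g : Γ, g • v ∈ R) ∧
    ∀ v ∈ R, ∀ g : Γ, g • v ∈ R → g = 1 := by
  obtain ⟨p, hp, hp'⟩ : ∃ p : L → L, (∀ y, ∃ g : Γ, g • y = p y) ∧ ∀ (g : Γ) y, p (g • y) = p y :=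
    ⟨fun b => (Quotient.mk (MulAction.orbitRel Γ L) b).out,
      fun b => Quotient.mk_out (s := MulAction.orbitRel Γ L) b,
      fun g b => congrArg Quotient.out (Quotient.sound (s := MulAction.orbitRel Γ L) ⟨g, rfl⟩)⟩
  choose γ hγ using d.cover
  have hf := d.finite_VV ((d.finite_sig d.reps.finite_toSet).subset
    (s := _) (t := {u : d.U | u.1.sig 0 = γ (p (u.1.sig 0)) • p (u.1.sig 0)}) fun u hu => by
      have hu' : u.1.sig 0 = _ := hu
      change u.1.sig 0 ∈ d.reps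
      rw [hu']
      exact hγ _)
  refine ⟨hf.toFinset, fun v => ?_, fun v hv g hg => ?_⟩
  · obtain ⟨g, hg⟩ := hp (v.u.1.sig 0)
    refine ⟨γ (p (v.u.1.sig 0)) * g, hf.mem_toFinset.2 ?_⟩
    change (γ (p (v.u.1.sig 0)) * g) • v.u.1.sig 0 = γ (p ((γ (p (v.u.1.sig 0)) * g) • v.u.1.sig 0))
      • p ((γ (p (v.u.1.sig 0)) * g) • v.u.1.sig 0)
    rw [hp', mul_smul, hg]
  · have h1 : v.u.1.sig 0 = γ (p (v.u.1.sig 0)) • p (v.u.1.sig 0) := hf.mem_toFinset.1 hv
    have h2 : g • v.u.1.sig 0 = γ (p (g • v.u.1.sig 0)) • p (g • v.u.1.sig 0) :=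
      hf.mem_toFinset.1 hg
    rw [hp', ← h1] at h2
    exact d.free g _ h2

/-- the gluing data -/
def gl : Gl Γ d.VV k where
  Φ I := (d.flip_flip I).toPerm
  sq I := Equiv.ext fun v => d.flip_flip I v
  comm _ _ h := Equiv.ext fun v => d.flip_comm h v
  eqv I g v := VV.ext ((v.l I).2.eqv g v.u) rfl
  reps := d.exists_reps.choose
  cover := d.exists_reps.choose_spec.1
  uniq := d.exists_reps.choose_spec.2

theorem gl_Φ (I : JJ k) (v : d.VV) : d.gl.Φ I v = d.flip I v := rfl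

/-- sums over `VV` of functions of the sheet -/
theorem finsum_VV (f : d.U → ℝ) (hf : (Function.support f).Finite) :
    ∑ᶠ v : d.VV, f v.u = Nat.card d.LL * ∑ᶠ u, f u := by
  have := Fintype.ofFinite d.LL
  have h1 : ∑ᶠ v : d.VV, f v.u = ∑ᶠ p : d.U × d.LL, f p.1 :=
    finsum_comp_equiv d.eVV (f := fun p : d.U × d.LL => f p.1)
  rw [h1, finsum_curry (fun p : d.U × d.LL => f p.1)
    ((hf.prod (finite_univ (α := d.LL))).subset fun p hp => ⟨hp, mem_univ _⟩), mul_finsum]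
  refine finsum_congr fun u => ?_
  rw [finsum_eq_sum_of_fintype]
  simp only [Finset.sum_const, nsmul_eq_mul, Nat.card_eq_fintype_card, Finset.card_univ]

end Dat

end Crest.Agent.N222.C
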