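import Crest.Agent.N222.C.SDefs
import Crest.Agent.R185.Hur3

/-!
# Row 222, part C: extension of maps into a weakly contractible space from the boundary of a simplex
-/

set_option autoImplicit false

open Set Filter Topology
open Crest.Agent.R251.Sm (Dn face)

noncomputable section

namespace Crest.Agent.N222.C

/-- all homotopy groups vanish -/
def WC (T : Type) [TopologicalSpace T] : Prop :=
  ∀ (k : ℕ) (x : T), Subsingleton (HomotopyGroup (Fin k) T x)

theorem Cov.wc {S : Type} [TopologicalSpace S] (C : Cov S)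
    (h : ∀ k : ℕ, 2 ≤ k → ∀ x : S, Subsingleton (HomotopyGroup (Fin k) S x)) : WC C.T := by
  intro k x
  have := C.sc
  rcases k with _ | _ | k
  · have : Subsingleton (ZerothHomotopy C.T) :=
      (pathConnectedSpace_iff_zerothHomotopy.1 inferInstance).2
    exact (HomotopyGroup.pi0EquivZerothHomotopy (x := x)).subsingleton
  · have : Subsingleton (FundamentalGroup C.T x) :=
      inferInstanceAs (Subsingleton (Path.Homotopic.Quotient x x))
    exact (HomotopyGroup.pi1EquivFundamentalGroup (x := x)).subsingleton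
  · have cov : IsCoveringMap C.p := C.qc.isCoveringMap
    let P : C(C.T, S) := ⟨C.p, cov.continuous⟩
    let push : GenLoop (Fin (k + 1 + 1)) C.T x → GenLoop (Fin (k + 1 + 1)) S (C.p x) := fun f =>
      ⟨P.comp f.1, fun y hy => congrArg C.p (f.2 y hy)⟩
    refine ⟨fun a b => ?_⟩
    obtain ⟨f, rfl⟩ := R185.Hur.cl_surj a
    obtain ⟨g, rfl⟩ := R185.Hur.cl_surj b
    rw [R185.Hur.cl_eq_iff]
    have h1 : GenLoop.Homotopic (push f) (push g) :=
      R185.Hur.cl_eq_iff.1 ((h (k + 1 + 1) (by omega) (C.p x)).elim _ _)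
    have h0 : (fun _ => 0 : Fin (k + 1 + 1) → unitInterval) ∈ Cube.boundary (Fin (k + 1 + 1)) :=
      ⟨0, Or.inl rfl⟩
    exact (cov.homotopicRel_iff_comp ⟨_, h0, (f.2 _ h0).trans (g.2 _ h0).symm⟩).2 h1

namespace Simp1

open unitInterval

/-- scaling of the cube towards the origin -/
def sc {k : ℕ} (s : I) (p : I × (Fin k → I)) : I × (Fin k → I) := (s * p.1, fun i => s * p.2 i)

theorem continuous_sc {k : ℕ} : Continuous fun q : I × (I × (Fin k → I)) => sc q.1 q.2 := by
  unfold sc
  refine Continuous.prodMk ?_ (continuous_pi fun i => ?_)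
  · exact Continuous.subtype_mk (by fun_prop) _
  · exact Continuous.subtype_mk (by fun_prop) _

theorem sc_one {k : ℕ} (p : I × (Fin k → I)) : sc 1 p = p := by
  simp [sc]

theorem sc_zero {k : ℕ} (p : I × (Fin k → I)) : sc 0 p = (0, fun _ => 0) := by
  simp [sc]

theorem bdry_cases {k : ℕ} {y : Fin (k + 1) → I} (hy : y ∈ Cube.boundary (Fin (k + 1))) :
    y 0 = 1 ∨ (y 0, Fin.tail y) ∈ R185.Hur.Box k := by
  obtain ⟨i, hi⟩ := hy
  revert hi
  refine Fin.cases (fun hi => ?_) (fun j hi => ?_) i
  · rcases hi with hi | hi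
    · exact Or.inr (Or.inl hi)
    · exact Or.inl hi
  · exact Or.inr (Or.inr ⟨j, hi⟩)

theorem continuous_cons {k : ℕ} :
    Continuous fun p : I × (Fin k → I) => (Fin.cons p.1 p.2 : Fin (k + 1) → I) := by
  refine continuous_pi fun j => ?_
  refine Fin.cases ?_ (fun l => ?_) j
  · simp only [Fin.cons_zero]; exact continuous_fst
  · simp only [Fin.cons_succ]; fun_prop

theorem continuous_tail {k : ℕ} : Continuous fun y : Fin (k + 1) → I => (Fin.tail y : Fin k → I) :=
  continuous_pi fun j => continuous_apply j.succ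

end Simp1

open Simp1 unitInterval in
/-- extension from the boundary of a cube (`R185.Hur.exists_box_ext`, homotopy extension) -/
theorem WC.ext_cube {T : Type} [TopologicalSpace T] (h : WC T) {k : ℕ}
    {g : (Fin (k + 1) → unitInterval) → T} (hg : ContinuousOn g (Cube.boundary (Fin (k + 1)))) :
    ∃ G : C(Fin (k + 1) → unitInterval, T), ∀ y ∈ Cube.boundary (Fin (k + 1)), G y = g y := by
  classical
  -- the box part
  obtain ⟨U, hU⟩ := R185.Hur.exists_box_ext (N := k) (fun p => g (Fin.cons p.1 p.2)) (by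
    refine hg.comp continuous_cons.continuousOn ?_
    rintro p (hp | ⟨j, hp⟩)
    · exact ⟨0, Or.inl hp⟩
    · exact ⟨j.succ, hp⟩)
  -- the top face
  let b : C(Fin k → I, T) := ⟨fun y => g (Fin.cons 1 y), by
    refine hg.comp_continuous (continuous_cons.comp (Continuous.prodMk continuous_const continuous_id))
      fun y => ⟨0, Or.inr rfl⟩⟩
  obtain ⟨V, hV0, hV⟩ := R185.Hur.cube_hep b (fun p => U (sc (σ p.1) (1, p.2)))
    (Continuous.continuousOn (U.continuous.comp (continuous_sc.comp
      (f := fun p : I × (Fin k → I) => (σ p.1, ((1 : I), p.2))) (by fun_prop)))) (by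
      intro y hy
      show U (sc (σ 0) (1, y)) = _
      rw [symm_zero, sc_one, hU _ (Or.inr hy)]
      rfl)
  let w : T := U (0, fun _ => 0)
  let l : GenLoop (Fin k) T w := ⟨V.comp ⟨fun y => ((1 : I), y), by fun_prop⟩, fun y hy => by
    show V (1, y) = w
    rw [hV 1 y hy]
    show U (sc (σ 1) (1, y)) = _
    rw [symm_one, sc_zero]⟩
  obtain ⟨K⟩ : GenLoop.Homotopic GenLoop.const l := R185.Hur.cl_eq_iff.1 ((h k w).elim _ _)
  let K0 : C(Fin (k + 1) → I, T) := ⟨fun y => K (y 0, Fin.tail y),
    K.continuous.comp (Continuous.prodMk (continuous_apply 0) continuous_tail)⟩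
  obtain ⟨W, -, hW⟩ := R185.Hur.cube_hep K0
    (fun p => if p.2 0 = 1 then V (σ p.1, Fin.tail p.2) else U (sc p.1 (p.2 0, Fin.tail p.2))) (by
      have e : {p : I × (Fin (k + 1) → I) | p.2 ∈ Cube.boundary (Fin (k + 1))} ⊆
          {p : I × (Fin (k + 1) → I) | p.2 0 = 1} ∪
            {p : I × (Fin (k + 1) → I) | (p.2 0, Fin.tail p.2) ∈ R185.Hur.Box k} :=
        fun p hp => bdry_cases hp
      refine ContinuousOn.mono ?_ e
      have ht : Continuous fun p : I × (Fin (k + 1) → I) => (Fin.tail p.2 : Fin k → I) :=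
        continuous_tail.comp continuous_snd
      refine ContinuousOn.union_of_isClosed ?_ ?_ ?_ ?_
      · have hc : Continuous fun p : I × (Fin (k + 1) → I) => V (σ p.1, Fin.tail p.2) :=
          V.continuous.comp (Continuous.prodMk (by fun_prop) ht)
        exact hc.continuousOn.congr fun p hp => if_pos hp
      · have hc : Continuous fun p : I × (Fin (k + 1) → I) => U (sc p.1 (p.2 0, Fin.tail p.2)) :=
          U.continuous.comp (continuous_sc.comp
            (f := fun p : I × (Fin (k + 1) → I) => (p.1, (p.2 0, (Fin.tail p.2 : Fin k → I))))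
            (Continuous.prodMk continuous_fst (Continuous.prodMk (by fun_prop) ht)))
        refine hc.continuousOn.congr fun p hp => ?_
        show (if p.2 0 = 1 then _ else _) = _
        split_ifs with h1
        · rcases hp with hp | hp
          · have hp' : p.2 0 = 0 := hp
            rw [hp'] at h1; exact absurd h1 zero_ne_one
          · have hp' : (Fin.tail p.2 : Fin k → I) ∈ Cube.boundary (Fin k) := hp
            rw [hV _ _ hp']
            show U (sc (σ (σ p.1)) (1, Fin.tail p.2)) = U (sc p.1 (p.2 0, Fin.tail p.2))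
            rw [symm_symm, h1]
        · rfl
      · exact isClosed_eq (by fun_prop) continuous_const
      · refine IsClosed.union (isClosed_eq (by fun_prop) continuous_const) ?_
        exact R185.Hur.isClosed_boundary.preimage ht) (by
      intro y hy
      show (if y 0 = 1 then _ else _) = K (y 0, Fin.tail y)
      split_ifs with h1
      · rw [h1, K.apply_one, symm_zero]
        rfl
      · rw [sc_zero]
        rcases bdry_cases hy with h2 | h2 | h2
        · exact absurd h2 h1
        · have h2' : y 0 = 0 := h2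
          rw [h2', K.apply_zero]
          rfl
        · rw [K.eq_fst _ h2]
          rfl)
  refine ⟨W.comp ⟨fun y => ((1 : I), y), by fun_prop⟩, fun y hy => ?_⟩
  show W (1, y) = _
  rw [hW 1 y hy]
  show (if y 0 = 1 then _ else _) = _
  split_ifs with h1
  · rw [symm_one, hV0]
    show g (Fin.cons 1 (Fin.tail y)) = g y
    rw [← h1, Fin.cons_self_tail]
  · rw [sc_one, hU _ ((bdry_cases hy).resolve_left h1)]
    show g (Fin.cons (y 0) (Fin.tail y)) = g y
    rw [Fin.cons_self_tail]

/-- the boundary of the simplex -/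
def bdry (k : ℕ) : Set (Dn k) := {t | ∃ i, t i = 0}

namespace Simp1

open unitInterval R185.Hur

/-- the parametrisation of the simplex by the cube -/
def qm (k : ℕ) : C(Fin k → I, Dn k) :=
  ⟨fun x => ⟨wt x, wt_nonneg x, wt_sum x⟩, Continuous.subtype_mk (continuous_pi continuous_wt) _⟩

theorem qm_apply {k : ℕ} (x : Fin k → I) (i : Fin (k + 1)) : qm k x i = wt x i := rfl

theorem qm_surj (k : ℕ) : Function.Surjective (qm k) := fun t => by
  obtain ⟨x, hx⟩ := exists_wt t.1 t.2.1 t.2.2
  exact ⟨x, Subtype.ext hx⟩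

theorem qm_mem_iff {k : ℕ} (x : Fin k → I) : qm k x ∈ bdry k ↔ x ∈ Cube.boundary (Fin k) := by
  constructor
  · rintro ⟨i, hi⟩
    by_contra hx
    exact (wt_pos x hx i).ne' hi
  · rintro ⟨j, hj | hj⟩
    · exact ⟨Fin.last k, wt_eq_zero_of_zero x j hj _ j.2⟩
    · exact ⟨j.castSucc, wt_eq_zero_of_one x j hj⟩

theorem qm_inj {k : ℕ} {x y : Fin k → I} (h : qm k x = qm k y) (hx : x ∉ Cube.boundary (Fin k)) :
    x = y :=
  wt_inj x y (congrArg Subtype.val h) (wt_pos x hx)

theorem qm_quot (k : ℕ) : IsQuotientMap (qm k) :=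
  (qm k).continuous.isClosedMap.isQuotientMap (qm k).continuous (qm_surj k)

theorem exists_face {k : ℕ} {t : Dn (k + 1)} (ht : t ∈ bdry (k + 1)) : ∃ i s, t = face i s := by
  obtain ⟨i, hi⟩ := ht
  have hs : ∑ j : Fin (k + 1), t (i.succAbove j) = 1 := by
    have := t.2.2
    rw [Fin.sum_univ_succAbove _ i] at this
    have hi' : t.1 i = 0 := hi
    rw [hi', zero_add] at this
    exact this
  refine ⟨i, ⟨fun j => t (i.succAbove j), fun j => t.2.1 _, hs⟩, ?_⟩
  apply Subtype.ext
  funext j
  refine Eq.trans ?_ (R251.Sm.face_apply i _ j).symm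
  refine Fin.succAboveCases i ?_ (fun l => ?_) j
  · rw [Finset.sum_eq_zero fun l _ => if_neg (Fin.succAbove_ne i l)]
    exact hi
  · rw [Finset.sum_eq_single l (fun m _ hm => if_neg fun e => hm (Fin.succAbove_right_injective e))
      (fun hl => absurd (Finset.mem_univ l) hl), if_pos rfl]
    rfl

end Simp1

open Simp1 in
/-- extension from the boundary of a simplex (`R185.Hur.wt` is a quotient map, injective over the
interior) -/
theorem WC.ext_simplex {T : Type} [TopologicalSpace T] (h : WC T) {k : ℕ} {g : Dn (k + 1) → T}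
    (hg : ContinuousOn g (bdry (k + 1))) : ∃ G : C(Dn (k + 1), T), ∀ t ∈ bdry (k + 1), G t = g t := by
  obtain ⟨F, hF⟩ := h.ext_cube (k := k) (g := fun x => g (qm (k + 1) x))
    (hg.comp (qm (k + 1)).continuous.continuousOn fun x hx => (qm_mem_iff x).2 hx)
  have hd : ∀ x y, qm (k + 1) x = qm (k + 1) y → F x = F y := by
    intro x y e
    by_cases hx : x ∈ Cube.boundary (Fin (k + 1))
    · have hy : y ∈ Cube.boundary (Fin (k + 1)) := by
        rw [← qm_mem_iff, ← e, qm_mem_iff]; exact hx
      rw [hF x hx, hF y hy, e]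
    · rw [qm_inj e hx]
  have hc : (fun t => F (Function.surjInv (qm_surj (k + 1)) t)) ∘ qm (k + 1) = F :=
    funext fun x => hd _ _ (Function.surjInv_eq _ _)
  refine ⟨⟨fun t => F (Function.surjInv (qm_surj (k + 1)) t), ?_⟩, fun t ht => ?_⟩
  · rw [(qm_quot (k + 1)).continuous_iff, hc]
    exact F.continuous
  · have e := Function.surjInv_eq (qm_surj (k + 1)) t
    show F _ = g t
    rw [hF _ ((qm_mem_iff _).1 (by rw [e]; exact ht)), e]

/-- gluing compatible faces -/
theorem exists_bdry {T : Type} [TopologicalSpace T] {k : ℕ} (τ : Fin (k + 2) → C(Dn k, T))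
    (h : ∀ i j s t, face i s = face j t → τ i s = τ j t) :
    ∃ g : Dn (k + 1) → T, ContinuousOn g (bdry (k + 1)) ∧ (∀ i s, g (face i s) = τ i s) ∧
      ∀ t ∈ bdry (k + 1), ∃ i s, t = face i s := by
  classical
  let g : Dn (k + 1) → T := fun t =>
    if e : ∃ p : Fin (k + 2) × Dn k, t = face p.1 p.2 then τ e.choose.1 e.choose.2
    else τ 0 (stdSimplex.vertex 0)
  have hgf : ∀ i s, g (face i s) = τ i s := by
    intro i s
    have e : ∃ p : Fin (k + 2) × Dn k, face i s = face p.1 p.2 := ⟨(i, s), rfl⟩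
    show (if e : _ then _ else _) = _
    rw [dif_pos e]
    exact (h _ _ _ _ e.choose_spec).symm
  refine ⟨g, ?_, hgf, fun t ht => Simp1.exists_face ht⟩
  rw [continuousOn_iff_isClosed]
  intro A hA
  refine ⟨⋃ i, face i '' (τ i ⁻¹' A), isClosed_iUnion_of_finite fun i =>
    (face i).continuous.isClosedMap _ (hA.preimage (τ i).continuous), ?_⟩
  ext t
  constructor
  · rintro ⟨h1, h2⟩
    obtain ⟨i, s, rfl⟩ := Simp1.exists_face h2
    refine ⟨mem_iUnion.2 ⟨i, s, ?_, rfl⟩, h2⟩
    show τ i s ∈ A
    rw [← hgf]; exact h1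
  · rintro ⟨h1, h2⟩
    obtain ⟨i, s, hs, rfl⟩ := mem_iUnion.1 h1
    refine ⟨?_, h2⟩
    show g (face i s) ∈ A
    rw [hgf]; exact hs

end Crest.Agent.N222.C
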