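import Crest.Agent.N222.C.Fill

/-!
# Row 222, part C: `sing : SingStmt`
-/

set_option autoImplicit false

open Set Filter Topology
open Crest.Agent.R251.Sm (Dn face)

noncomputable section

namespace Crest.Agent.N222.C

namespace Sing

open Crest.Agent.R263.SCQ734 (liftC bd sgl bd_sgl liftC_sgl)

theorem map_bd {X : Type} [TopologicalSpace X] {n : ℕ} (L : (R263.SCQ734.SC X).X n →ₗ[ℚ] ℝ)
    (σ : C(Dn (n + 1), X)) : L (bd X n (sgl σ)) = scob (fun τ => L (sgl τ)) σ := by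
  rw [bd_sgl, map_sum]
  refine Finset.sum_congr rfl fun i _ => ?_
  rw [map_zsmul, zsmul_eq_mul, Int.cast_pow, Int.cast_neg, Int.cast_one]
  rfl

theorem scob_add {T : Type} [TopologicalSpace T] {n : ℕ} (φ ψ : C(Dn n, T) → ℝ)
    (σ : C(Dn (n + 1), T)) : scob (fun τ => φ τ + ψ τ) σ = scob φ σ + scob ψ σ := by
  simp only [scob, mul_add, Finset.sum_add_distrib]

theorem scob_sub {T : Type} [TopologicalSpace T] {n : ℕ} (φ ψ : C(Dn n, T) → ℝ)
    (σ : C(Dn (n + 1), T)) : scob (fun τ => φ τ - ψ τ) σ = scob φ σ - scob ψ σ := by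
  simp only [scob, mul_sub, Finset.sum_sub_distrib]

end Sing

open Crest.Agent.R263.SCQ734 (liftC bd sgl push hcl hcl_surjective map_hcl hcl_eq_zero_iff chain_ext
  liftC_sgl push_sgl mem_cyc_succ Hmap) in
/-- a non zero map in homology is detected by a cocycle (a `ℚ`-linear form on `C_{n+1}(X)` which
kills the boundaries and not the image of a cycle) -/
theorem exists_cocycle {S X : Type} [TopologicalSpace S] [TopologicalSpace X] (c : C(S, X)) {n : ℕ}
    (h : ((AlgebraicTopology.singularHomologyFunctor (ModuleCat.{0} ℚ) (n + 1)).obj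
      (ModuleCat.of ℚ ℚ)).map (TopCat.ofHom c) ≠ 0) :
    ∃ β : C(Dn (n + 1), X) → ℝ, (∀ σ, scob β σ = 0) ∧
      ∀ ψ : C(Dn n, S) → ℝ, ¬ ∀ σ, scob ψ σ = β (c.comp σ) := by
  have h1 : ∃ x, Hmap c (n + 1) (hcl S (n + 1) x) ≠ 0 := by
    by_contra h2
    refine h (ModuleCat.hom_ext (LinearMap.ext fun z => ?_))
    obtain ⟨x, rfl⟩ := hcl_surjective S (n + 1) z
    exact not_not.1 fun h3 => h2 ⟨x, h3⟩
  obtain ⟨x, hx⟩ := h1
  rw [map_hcl, Ne, hcl_eq_zero_iff] at hx
  obtain ⟨f, hf, hf0⟩ := Submodule.exists_dual_map_eq_bot_of_notMem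
    (p := LinearMap.range (bd X (n + 1))) (x := push c (n + 1) x.1) hx inferInstance
  let L := (Algebra.linearMap ℚ ℝ).comp f
  refine ⟨fun σ => L (sgl σ), fun σ => ?_, fun ψ hψ => hf ?_⟩
  · have : f (bd X (n + 1) (sgl σ)) = 0 :=
      (Submodule.eq_bot_iff _).1 hf0 _ (Submodule.mem_map_of_mem (LinearMap.mem_range_self _ _))
    rw [← Sing.map_bd, LinearMap.comp_apply, this, map_zero]
  · have e : (liftC ψ).comp (bd S n) = L.comp (push c (n + 1)) := chain_ext fun σ => by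
      rw [LinearMap.comp_apply, Sing.map_bd, LinearMap.comp_apply, push_sgl]
      simp only [liftC_sgl]
      exact hψ σ
    have := LinearMap.congr_fun e x.1
    rw [LinearMap.comp_apply, (mem_cyc_succ _).1 x.2, map_zero] at this
    exact (algebraMap ℚ ℝ).injective (this.symm.trans (map_zero _).symm)

/-- simplices lift -/
theorem Cov.exists_lift {S : Type} [TopologicalSpace S] (C : Cov S) {k : ℕ} (σ : C(Dn k, S)) :
    ∃ τ : C(Dn k, C.T), ∀ t, C.p (τ t) = σ t := by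
  obtain ⟨t₀⟩ : Nonempty (Dn k) := inferInstance
  have := (convex_stdSimplex ℝ (Fin (k + 1))).contractibleSpace ⟨_, t₀.2⟩
  have := (convex_stdSimplex ℝ (Fin (k + 1))).locallyPathConnectedSpace
  obtain ⟨e, he⟩ := C.qc.surjective (σ t₀)
  obtain ⟨τ, hτ, -⟩ := C.cov.existsUnique_continuousMap_lifts σ t₀ e he
  exact ⟨τ, congrFun hτ.2⟩

/-- two lifts differ by a deck transformation -/
theorem Cov.lift_unique {S : Type} [TopologicalSpace S] (C : Cov S) {k : ℕ} {τ τ' : C(Dn k, C.T)}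
    (h : ∀ t, C.p (τ t) = C.p (τ' t)) : ∃ g : C.Γ, τ' = g • τ := by
  obtain ⟨t₀⟩ : Nonempty (Dn k) := inferInstance
  obtain ⟨g, hg⟩ := C.exists_smul (h t₀).symm
  exact ⟨g, DFunLike.coe_injective (C.cov.eq_of_comp_eq τ'.continuous (g • τ).continuous
    (funext fun t => (h t).symm.trans (C.p_smul g _).symm) t₀ hg.symm)⟩

/-- `β = β_X ∘ q`, `exists_act`, `exists_fill`; if `a` were locally exact, `small_vanish` would make
`β_X (c ∘ p ∘ σ)` the coboundary of an invariant cochain, which descends to `S`. -/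
theorem sing_stmt : SingStmt := by
  intro n S _ _ C X _ ⟨E, _, q, hE, hq, hs⟩ c hn h
  have := ChartedSpace.locallyPathConnectedSpace (EuclideanSpace ℝ (Fin n)) S
  obtain ⟨m, rfl⟩ : ∃ m, n = m + 1 := ⟨n - 1, by omega⟩
  obtain ⟨β, hβ, hne⟩ := exists_cocycle c h
  obtain ⟨c', A, h1, h2, h3⟩ := exists_act C hq hs c
  let Q : C(E, X) := ⟨q, hq.continuous⟩
  obtain ⟨a, ψ, ht, hc, hψ, e⟩ := exists_fill C.free A c' h3 (β := fun σ => β (Q.comp σ))
    (fun g σ => congrArg β (ContinuousMap.ext fun t => h2 g _)) fun σ => hβ (Q.comp σ)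
  refine ⟨⟨1, a, ht, hc, fun ⟨γ, hγ, hl⟩ => ?_⟩⟩
  obtain ⟨ψ', hψ', e'⟩ := small_vanish (χ := (1 : C.Γ →* ℤˣ))
    (φ := fun σ : C(Dn (m + 1), C.T) => a (vert σ) - scob (fun τ => γ (vert τ)) σ)
    (fun g σ => (congrArg₂ (· - ·) (ht.vert g σ) (hγ.vert.scob g σ)).trans (mul_sub _ _ _).symm)
    (fun σ => by rw [Sing.scob_sub, scob_vert, scob_scob, hc, sub_zero]; rfl)
    fun x₀ => (hl x₀).imp fun W hW => ⟨hW.1, fun σ hσ => by
      rw [scob_vert, hW.2 (vert σ) fun i => hσ (mem_range_self _), sub_self]⟩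
  let Ψ : C(Dn m, C.T) → ℝ := fun τ => ψ τ + (ψ' τ + γ (vert τ))
  have hΨ : ∀ (g : C.Γ) τ, Ψ (g • τ) = Ψ τ := fun g τ => by
    have h4 : γ (vert (g • τ)) = _ := hγ.vert g τ
    simp only [Ψ, hψ g τ, hψ' g τ, h4, sg, MonoidHom.one_apply, Units.val_one,
      Int.cast_one, one_mul]
  choose l hl using fun σ : C(Dn m, S) => C.exists_lift σ
  refine hne (fun σ => Ψ (l σ)) fun σ => ?_
  obtain ⟨τ, hτ⟩ := C.exists_lift σ
  have e1 : scob (fun σ => Ψ (l σ)) σ = scob Ψ τ := Finset.sum_congr rfl fun i _ => by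
    obtain ⟨g, hg⟩ := C.lift_unique (τ := τ.comp (face i)) (τ' := l (σ.comp (face i)))
      fun t => (hτ _).trans (hl (σ.comp (face i)) t).symm
    simp only [hg, hΨ]
  have e2 : c.comp σ = Q.comp (c'.comp τ) := ContinuousMap.ext fun t => by
    change c (σ t) = q (c' (τ t))
    rw [h1, hτ]
  rw [e1, e2, Sing.scob_add, Sing.scob_add, e', ← e]
  ring

end Crest.Agent.N222.C
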