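import Crest.Agent.N222.C.Defs

/-!
# Row 222, part C: existence of the universal covering (helper69, after `R273/UCovA-C_914`)

The covering is the total space of the `FiberBundleCore` of the locally constant cocycle
`c i j x = [al i x · (al j x)⁻¹]` of a cover by small open sets.
-/

set_option autoImplicit false
set_option linter.unusedSectionVars false

open Set Filter Topology unitInterval

noncomputable section

namespace Crest.Agent.N222.C

namespace UC

open Path.Homotopic.Quotient (mk)

/-- a cover by open sets in which paths exist and are unique up to homotopy -/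
structure Cv (M : Type) [TopologicalSpace M] where
  intro ::
  ι : Type
  U : ι → Set M
  op : ∀ i, IsOpen (U i)
  cover : ∀ x, ∃ i, x ∈ U i
  joined : ∀ i, ∀ x ∈ U i, ∀ y ∈ U i, ∃ p : Path x y, ∀ t, p t ∈ U i
  uniq : ∀ i {x y : M} (p q : Path x y), (∀ t, p t ∈ U i) → (∀ t, q t ∈ U i) → p.Homotopic q

/-- discrete copy of a type -/
def Disc (A : Type) : Type := A

instance (A : Type) : TopologicalSpace (Disc A) := ⊥
instance (A : Type) : DiscreteTopology (Disc A) := ⟨rfl⟩

/-- to the discrete copy -/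
def toD {A : Type} (a : A) : Disc A := a

/-- from the discrete copy -/
def ofD {A : Type} (a : Disc A) : A := a

/-- homotopy classes of paths -/
abbrev Q {M : Type} [TopologicalSpace M] (x y : M) : Type := Path.Homotopic.Quotient x y

variable {M : Type} [TopologicalSpace M]

theorem Q.trans_symm' {x y z : M} (p : Q x y) (q : Q y z) :
    (p.trans q).symm = q.symm.trans p.symm := by
  obtain ⟨p, rfl⟩ := Path.Homotopic.Quotient.mk_surjective p
  obtain ⟨q, rfl⟩ := Path.Homotopic.Quotient.mk_surjective q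
  change mk (p.trans q).symm = mk (q.symm.trans p.symm)
  rw [Path.trans_symm]

theorem trans_cast' {x0 a b a' b' : M} (ha : a' = a) (hb : b' = b) (q : Q x0 a) (r : Q a b) :
    (q.cast rfl ha).trans (r.cast ha hb) = (q.trans r).cast rfl hb := by
  subst ha
  subst hb
  simp

namespace Cv

variable [PathConnectedSpace M] (A : Cv M) (x0 : M)

/-- the preferred index -/
def ix (x : M) : A.ι := (A.cover x).choose

theorem mem_ix (x : M) : x ∈ A.U (A.ix x) := (A.cover x).choose_spec

open Classical in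
/-- homotopy class of the paths from `x` to `y` in `U i` -/
def seg (i : A.ι) (x y : M) : Q x y :=
  if h : ∃ p : Path x y, ∀ t, p t ∈ A.U i then mk h.choose
  else mk (PathConnectedSpace.somePath x y)

theorem seg_eq {i : A.ι} {x y : M} (p : Path x y) (hp : ∀ t, p t ∈ A.U i) :
    mk p = A.seg i x y := by
  have h : ∃ p : Path x y, ∀ t, p t ∈ A.U i := ⟨p, hp⟩
  rw [seg, dif_pos h]
  exact Path.Homotopic.Quotient.eq.2 (A.uniq i p h.choose hp h.choose_spec)

theorem seg_trans {i : A.ι} {x y z : M} (hx : x ∈ A.U i) (hy : y ∈ A.U i) (hz : z ∈ A.U i) :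
    (A.seg i x y).trans (A.seg i y z) = A.seg i x z := by
  obtain ⟨p, hp⟩ := A.joined i x hx y hy
  obtain ⟨q, hq⟩ := A.joined i y hy z hz
  rw [← A.seg_eq p hp, ← A.seg_eq q hq]
  change mk (p.trans q) = _
  refine A.seg_eq _ fun t => ?_
  have := mem_range_self (f := p.trans q) t
  rw [Path.trans_range] at this
  rcases this with ⟨s, hs⟩ | ⟨s, hs⟩
  · rw [← hs]; exact hp s
  · rw [← hs]; exact hq s

open Classical in
/-- base point in `U i` -/
def bp (i : A.ι) : M := if h : (A.U i).Nonempty then h.some else x0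

theorem bp_mem {i : A.ι} {x : M} (hx : x ∈ A.U i) : A.bp x0 i ∈ A.U i := by
  have h : (A.U i).Nonempty := ⟨x, hx⟩
  rw [bp, dif_pos h]
  exact h.some_mem

/-- reference class from the base point to the points of `U i` -/
def al (i : A.ι) (x : M) : Q x0 x :=
  (mk (PathConnectedSpace.somePath x0 (A.bp x0 i))).trans (A.seg i (A.bp x0 i) x)

theorem al_seg {i : A.ι} {x y : M} (hx : x ∈ A.U i) (hy : y ∈ A.U i) :
    (A.al x0 i x).trans (A.seg i x y) = A.al x0 i y := by
  rw [al, Path.Homotopic.Quotient.trans_assoc, A.seg_trans (A.bp_mem x0 hx) hx hy, al]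

/-- class relative to the reference class, as an element of the fundamental group -/
def be (i : A.ι) {x : M} (q : Q x0 x) : FundamentalGroup M x0 :=
  FundamentalGroup.fromPath (q.trans (A.al x0 i x).symm)

theorem be_seg {i : A.ι} {x y : M} (q : Q x0 x) (hx : x ∈ A.U i) (hy : y ∈ A.U i) :
    A.be x0 i (q.trans (A.seg i x y)) = A.be x0 i q := by
  unfold be
  rw [← A.al_seg x0 hx hy, Q.trans_symm', Path.Homotopic.Quotient.trans_assoc,
    ← Path.Homotopic.Quotient.trans_assoc (A.seg i x y), Path.Homotopic.Quotient.trans_symm,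
    Path.Homotopic.Quotient.refl_trans]

theorem be_inj (i : A.ι) {x : M} {q q' : Q x0 x} (h : A.be x0 i q = A.be x0 i q') : q = q' := by
  have h' : q.trans (A.al x0 i x).symm = q'.trans (A.al x0 i x).symm := h
  have h2 := congrArg (fun r => Path.Homotopic.Quotient.trans r (A.al x0 i x)) h'
  simpa [Path.Homotopic.Quotient.trans_assoc] using h2

theorem be_surj (i : A.ι) (x : M) (g : FundamentalGroup M x0) : ∃ q : Q x0 x, A.be x0 i q = g := by
  refine ⟨(FundamentalGroup.toPath g).trans (A.al x0 i x), ?_⟩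
  unfold be
  rw [Path.Homotopic.Quotient.trans_assoc, Path.Homotopic.Quotient.trans_symm,
    Path.Homotopic.Quotient.trans_refl]

/-- the cocycle -/
def c (i j : A.ι) (x : M) : FundamentalGroup M x0 := A.be x0 j (A.al x0 i x)

theorem be_change (i j : A.ι) {x : M} (q : Q x0 x) : A.be x0 j q = A.c x0 i j x * A.be x0 i q := by
  rw [FundamentalGroup.mul_def, c]
  unfold be
  change q.trans (A.al x0 j x).symm = (q.trans (A.al x0 i x).symm).trans
      ((A.al x0 i x).trans (A.al x0 j x).symm)
  rw [Path.Homotopic.Quotient.trans_assoc, ← Path.Homotopic.Quotient.trans_assoc _ (A.al x0 i x),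
      Path.Homotopic.Quotient.symm_trans, Path.Homotopic.Quotient.refl_trans]

theorem c_mul (i j k : A.ι) (x : M) : A.c x0 j k x * A.c x0 i j x = A.c x0 i k x :=
  (A.be_change x0 j k _).symm

theorem c_self (i : A.ι) (x : M) : A.c x0 i i x = 1 :=
  mul_right_cancel ((A.c_mul x0 i i i x).trans (one_mul _).symm)

variable [LocallyPathConnectedSpace M]

theorem c_loc {i j : A.ι} {x : M} (hx : x ∈ A.U i ∩ A.U j) :
    ∀ᶠ y in 𝓝 x, y ∈ A.U i ∩ A.U j ∧ A.c x0 i j y = A.c x0 i j x := by
  filter_upwards [pathComponentIn_mem_nhds (((A.op i).inter (A.op j)).mem_nhds hx)] with y hy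
  obtain ⟨p, hp⟩ := hy
  have hy : y ∈ A.U i ∩ A.U j := by simpa using hp 1
  refine ⟨hy, ?_⟩
  rw [c, c, ← A.al_seg x0 hx.1 hy.1, ← A.seg_eq p fun t => (hp t).1, A.seg_eq p fun t => (hp t).2,
    A.be_seg x0 _ hx.2 hy.2]

/-- the bundle core -/
def core : FiberBundleCore A.ι M (Disc (FundamentalGroup M x0)) where
  baseSet := A.U
  isOpen_baseSet := A.op
  indexAt := A.ix
  mem_baseSet_at := A.mem_ix
  coordChange i j x v := toD (A.c x0 i j x * ofD v)
  coordChange_self i x _ v := by rw [c_self, one_mul]; rfl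
  continuousOn_coordChange i j := by
    rintro ⟨y, v⟩ ⟨hy, -⟩
    apply ContinuousAt.continuousWithinAt
    have h3 : ∀ᶠ p : M × Disc (FundamentalGroup M x0) in 𝓝 (y, v), p.2 = v :=
      (continuous_snd.continuousAt (x := (y, v))).eventually
        ((isOpen_discrete {v}).mem_nhds rfl)
    have h2 := (continuous_fst.continuousAt (x := (y, v))).eventually (A.c_loc x0 hy)
    refine (continuousAt_const (y := toD (A.c x0 i j y * ofD v))).congr ?_
    filter_upwards [h2, h3] with p hp hp'
    rw [hp', hp.2]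
  coordChange_comp i j k x _ v := by
    change toD (A.c x0 j k x * (A.c x0 i j x * ofD v)) = _
    rw [← mul_assoc, c_mul]

/-- the covering space -/
abbrev cov : Type := (A.core x0).TotalSpace

variable {A x0}

/-- projection -/
def pr (e : A.cov x0) : M := e.1

/-- coordinate of `e` over `U i` -/
def co (i : A.ι) (e : A.cov x0) : FundamentalGroup M x0 :=
  A.c x0 (A.ix e.1) i e.1 * ofD (A := FundamentalGroup M x0) e.2

/-- point over `x` with coordinate `v` in `U i` -/
def pt (i : A.ι) (v : FundamentalGroup M x0) (x : M) : A.cov x0 :=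
  ⟨x, toD (A.c x0 i (A.ix x) x * v)⟩

theorem co_pt (i j : A.ι) (v : FundamentalGroup M x0) (x : M) :
    co j (pt i v x) = A.c x0 i j x * v := by
  change A.c x0 (A.ix x) j x * (A.c x0 i (A.ix x) x * v) = _
  rw [← mul_assoc, c_mul]

theorem co_eq (i j : A.ι) (e : A.cov x0) : co j e = A.c x0 i j (pr e) * co i e := by
  change A.c x0 _ j e.1 * _ = A.c x0 i j e.1 * (A.c x0 _ i e.1 * _)
  rw [← mul_assoc, c_mul]

theorem ext_co (i : A.ι) {e e' : A.cov x0} (h1 : pr e = pr e') (h2 : co i e = co i e') :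
    e = e' := by
  obtain ⟨x, v⟩ := e
  obtain ⟨y, w⟩ := e'
  obtain rfl : x = y := h1
  obtain rfl : v = w := mul_left_cancel (G := FundamentalGroup M x0) h2
  rfl

theorem pt_co (i : A.ι) (e : A.cov x0) : pt i (co i e) (pr e) = e :=
  ext_co i rfl (by rw [co_pt, c_self, one_mul])

theorem isCoveringMap : IsCoveringMap (pr : A.cov x0 → M) :=
  FiberBundle.isCoveringMap (F := Disc (FundamentalGroup M x0)) (E := (A.core x0).Fiber)

theorem continuousAt_pt {i : A.ι} (v : FundamentalGroup M x0) {x : M} (hx : x ∈ A.U i) :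
    ContinuousAt (pt i v) x := by
  have h := ((A.core x0).localTriv i).toOpenPartialHomeomorph.symm.continuousOn
  have h2 : ContinuousOn (fun x : M => (x, toD v)) (A.U i) := by
    fun_prop
  exact (h.comp h2 fun x hx => ⟨hx, mem_univ _⟩).continuousAt ((A.op i).mem_nhds hx)

/-- the coordinate is locally constant -/
theorem co_eventually {i : A.ι} {e : A.cov x0} (h : pr e ∈ A.U i) :
    ∀ᶠ e' in 𝓝 e, co i e' = co i e := by
  have h2 : ContinuousOn (fun e => ((A.core x0).localTriv i e).2)
      ((A.core x0).localTriv i).source :=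
    continuous_snd.comp_continuousOn ((A.core x0).localTriv i).continuousOn
  exact (h2.continuousAt (((A.core x0).localTriv i).open_source.mem_nhds h)).eventually
    ((isOpen_discrete {_}).mem_nhds rfl)

instance deck : MulAction (FundamentalGroup M x0) (A.cov x0) where
  smul g e := ⟨e.1, toD (ofD (A := FundamentalGroup M x0) e.2 * g⁻¹)⟩
  one_smul e := ext_co (A.ix e.1) rfl (by
    change _ * (_ * 1⁻¹) = _ * _
    rw [inv_one, mul_one]
    rfl)
  mul_smul g h e := ext_co (A.ix e.1) rfl (by
    change _ * (_ * (g * h)⁻¹) = _ * (_ * h⁻¹ * g⁻¹)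
    rw [mul_inv_rev, mul_assoc _ h⁻¹]
    rfl)

theorem co_deck (g : FundamentalGroup M x0) (i : A.ι) (e : A.cov x0) :
    co i (g • e) = co i e * g⁻¹ := (mul_assoc _ _ _).symm

theorem isQuotientCoveringMap :
    IsQuotientCoveringMap (pr : A.cov x0 → M) (FundamentalGroup M x0) := by
  refine (isQuotientCoveringMap_iff_isCoveringMap_and _ _).2 ⟨isCoveringMap,
    fun x => ⟨pt (A.ix x) 1 x, rfl⟩, ⟨fun g => continuous_iff_continuousAt.2 fun e => ?_⟩,
    isCancelSMul_iff_eq_one_of_smul_eq.2 fun g e h => ?_, fun {e e'} => ⟨fun h => ?_, ?_⟩⟩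
  · have hi := A.mem_ix (pr e)
    refine (ContinuousAt.comp (f := pr) (continuousAt_pt (co (A.ix (pr e)) e * g⁻¹) hi)
      isCoveringMap.continuous.continuousAt).congr ?_
    filter_upwards [co_eventually hi] with e' he'
    rw [← he', ← co_deck]
    exact pt_co _ (g • e')
  · have h1 := congrArg (co (A.ix (pr e))) h
    rw [co_deck] at h1
    exact inv_eq_one.1 (mul_eq_left.1 h1)
  · refine ⟨(co (A.ix (pr e)) e)⁻¹ * co (A.ix (pr e)) e', ext_co (A.ix (pr e)) h.symm ?_⟩
    rw [co_deck]
    group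
  · rintro ⟨g, rfl⟩
    rfl

/-- the point with transported coordinate `v` along the class `q` -/
def ptq {x : M} (q : Q x0 x) (v : FundamentalGroup M x0) : A.cov x0 :=
  pt (A.ix x) (A.be x0 (A.ix x) q * v) x

theorem co_ptq (i : A.ι) {x : M} (q : Q x0 x) (v : FundamentalGroup M x0) :
    co i (ptq q v : A.cov x0) = A.be x0 i q * v := by
  rw [ptq, co_pt, ← mul_assoc, ← be_change]

theorem ptq_eq (i : A.ι) {x : M} (q : Q x0 x) (v : FundamentalGroup M x0) :
    ptq q v = pt i (A.be x0 i q * v) x :=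
  ext_co i rfl (by rw [co_ptq, co_pt, c_self, one_mul])

theorem exists_ptq (e : A.cov x0) (q : Q x0 (pr e)) : ∃ v, ptq q v = e :=
  ⟨(A.be x0 (A.ix (pr e)) q)⁻¹ * co (A.ix (pr e)) e,
    ext_co (A.ix (pr e)) rfl (by rw [co_ptq, mul_inv_cancel_left])⟩

theorem ptq_cast {x x' : M} (h : x' = x) (q : Q x0 x) (v : FundamentalGroup M x0) :
    (ptq (q.cast rfl h) v : A.cov x0) = ptq q v := by
  subst h
  simp

/-- the lift of the path `γ` -/
def lp {a b : M} (γ : Path a b) (q : Q x0 a) (v : FundamentalGroup M x0) :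
    Path (ptq q v : A.cov x0) (ptq (q.trans (mk γ)) v) where
  toFun t := ptq ((q.cast rfl γ.source).trans (mk (γ.subpath 0 t))) v
  continuous_toFun := by
    rw [continuous_iff_continuousAt]
    intro t0
    obtain ⟨i, hi⟩ := A.cover (γ t0)
    have hev : ∀ᶠ t in 𝓝 t0, ∀ s ∈ (univ : Set I), γ.subpath t0 t s ∈ A.U i := by
      refine isCompact_univ.eventually_forall_of_forall_eventually fun s _ => ?_
      have hc : Continuous fun z : I × I => γ.subpath t0 z.1 z.2 :=
        γ.subpath_continuous_family.comp (f := fun z : I × I => (t0, z.1, z.2)) (by fun_prop)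
      refine hc.continuousAt.eventually ((A.op i).mem_nhds ?_)
      change γ.subpath t0 t0 s ∈ _
      rw [Path.subpath_self]
      exact hi
    have hev2 : ∀ᶠ t in 𝓝 t0, γ t ∈ A.U i :=
      γ.continuous.continuousAt.eventually ((A.op i).mem_nhds hi)
    refine (ContinuousAt.comp (f := γ) (continuousAt_pt
      (A.be x0 i ((q.cast rfl γ.source).trans (mk (γ.subpath 0 t0))) * v) hi)
      γ.continuous.continuousAt).congr ?_
    filter_upwards [hev, hev2] with t ht ht2
    rw [ptq_eq i, Function.comp_apply]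
    congr 2
    have h3 : mk (γ.subpath 0 t) = (mk (γ.subpath 0 t0)).trans (A.seg i (γ t0) (γ t)) := by
      rw [← A.seg_eq (γ.subpath t0 t) fun s => ht s (mem_univ s)]
      exact (Path.Homotopic.Quotient.eq.2 ⟨Path.Homotopy.subpathTransSubpath γ 0 t0 t⟩).symm
    rw [h3, ← Path.Homotopic.Quotient.trans_assoc, A.be_seg x0 _ hi ht2]
  source' := by
    rw [Path.subpath_self]
    change ptq ((q.cast rfl γ.source).trans (Path.Homotopic.Quotient.refl _)) v = _
    rw [Path.Homotopic.Quotient.trans_refl, ptq_cast]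
  target' := by
    rw [Path.subpath_zero_one, Path.Homotopic.Quotient.mk_cast, trans_cast', ptq_cast]

theorem pathConnected : PathConnectedSpace (A.cov x0) := by
  refine ⟨⟨ptq (Path.Homotopic.Quotient.refl x0) 1⟩, fun e e' => ?_⟩
  set q0 : Q x0 (pr e) := mk (PathConnectedSpace.somePath _ _)
  obtain ⟨v, hv⟩ := exists_ptq e q0
  obtain ⟨q, hq⟩ := A.be_surj x0 (A.ix (pr e')) (pr e') (co (A.ix (pr e')) e' * v⁻¹)
  obtain ⟨γ, hγ⟩ := Path.Homotopic.Quotient.mk_surjective (q0.symm.trans q)
  have h1 : ptq (q0.trans (mk γ)) v = e' := by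
    rw [hγ, ← Path.Homotopic.Quotient.trans_assoc, Path.Homotopic.Quotient.trans_symm,
      Path.Homotopic.Quotient.refl_trans]
    exact ext_co (A.ix (pr e')) rfl (by rw [co_ptq, hq, inv_mul_cancel_right])
  rw [← hv, ← h1]
  exact ⟨lp γ q0 v⟩

theorem simplyConnected : SimplyConnectedSpace (A.cov x0) := by
  rw [simply_connected_iff_loops_nullhomotopic]
  refine ⟨pathConnected, fun e ℓ => ?_⟩
  have hcov := isCoveringMap (A := A) (x0 := x0)
  obtain ⟨q0, -⟩ : ∃ q0 : Q x0 (pr e), True := ⟨mk (PathConnectedSpace.somePath _ _), trivial⟩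
  obtain ⟨v, hv⟩ := exists_ptq e q0
  obtain ⟨γ, hγ⟩ : ∃ γ : Path (pr e) (pr e), γ = ℓ.map hcov.continuous := ⟨_, rfl⟩
  have h1 : (fun t => ℓ t) = lp γ q0 v := by
    refine hcov.eq_of_comp_eq ℓ.continuous (lp γ q0 v).continuous ?_ 0 ?_
    · funext t
      rw [hγ]
      rfl
    · exact ℓ.source.trans (hv.symm.trans (lp γ q0 v).source.symm)
  have h2 : (ptq (q0.trans (mk γ)) v : A.cov x0) = ptq q0 v := by
    rw [← (lp γ q0 v).target, ← h1, hv]
    exact ℓ.target
  have h3 := congrArg (co (A.ix (pr e))) h2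
  rw [co_ptq, co_ptq] at h3
  have h4 : q0.trans (mk γ) = q0 := A.be_inj x0 _ (mul_right_cancel h3)
  have h5 : mk γ = Path.Homotopic.Quotient.refl _ := by
    have := congrArg (fun r => q0.symm.trans r) h4
    simpa [← Path.Homotopic.Quotient.trans_assoc] using this
  refine Path.Homotopic.Quotient.eq.1 (hcov.injective_path_homotopic_map e e ?_)
  rw [hγ] at h5
  exact h5

variable (A x0) in
theorem countable [TopologicalSpace.SeparableSpace M] [Countable A.ι] :
    Countable (FundamentalGroup M x0) := by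
  let S : Set (FundamentalGroup M x0) :=
    ⋃ i, ⋃ j, {g | {x | x ∈ A.U i ∩ A.U j ∧ A.c x0 i j x = g}.Nonempty}
  have hS : S.Countable := countable_iUnion fun i => countable_iUnion fun j =>
    Set.PairwiseDisjoint.countable_of_isOpen
      (s := fun g => {x | x ∈ A.U i ∩ A.U j ∧ A.c x0 i j x = g})
      (fun g _ g' _ h => Set.disjoint_left.2 fun x hx hx' => h (hx.2.symm.trans hx'.2))
      (fun g _ => isOpen_iff_mem_nhds.2 fun x hx =>
        (A.c_loc x0 hx.1).mono fun y hy => ⟨hy.1, hy.2.trans hx.2⟩) fun g hg => hg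
  have := hS.to_subtype
  let φ : FreeGroup S →* FundamentalGroup M x0 := FreeGroup.lift Subtype.val
  have hc : ∀ i j x, x ∈ A.U i → x ∈ A.U j → A.c x0 i j x ∈ φ.range := fun i j x hi hj =>
    ⟨FreeGroup.of ⟨_, mem_iUnion₂.2 ⟨i, j, x, ⟨hi, hj⟩, rfl⟩⟩, FreeGroup.lift_apply_of⟩
  have hloc : ∀ e : A.cov x0, ∀ᶠ e' in 𝓝 e,
      (co (A.ix (pr e')) e' ∈ φ.range ↔ co (A.ix (pr e)) e ∈ φ.range) := fun e => by
    filter_upwards [co_eventually (A.mem_ix (pr e)), isCoveringMap.continuous.continuousAt.eventually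
      ((A.op _).mem_nhds (A.mem_ix (pr e)))] with e' h1 h2
    rw [co_eq (A.ix (pr e)), h1, Subgroup.mul_mem_cancel_left _ (hc _ _ _ h2 (A.mem_ix _))]
  have := pathConnected (A := A) (x0 := x0)
  have hcl : IsClopen {e : A.cov x0 | co (A.ix (pr e)) e ∈ φ.range} :=
    ⟨⟨isOpen_iff_mem_nhds.2 fun e he => (hloc e).mono fun e' h h' => he (h.1 h')⟩,
      isOpen_iff_mem_nhds.2 fun e he => (hloc e).mono fun e' h => h.2 he⟩
  have hco : ∀ g, co (A.ix x0) (pt (A.ix x0) g x0 : A.cov x0) = g := fun g => by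
    rw [co_pt, c_self, one_mul]
  have hu := hcl.eq_univ ⟨pt (A.ix x0) 1 x0,
    (congrArg (· ∈ φ.range) (hco 1)).mpr φ.range.one_mem⟩
  refine Function.Surjective.countable (f := φ) fun g => ?_
  have h : pt (A.ix x0) g x0 ∈ {e : A.cov x0 | co (A.ix (pr e)) e ∈ φ.range} := hu ▸ mem_univ _
  exact (congrArg (· ∈ φ.range) (hco g)).mp h

end Cv

section Chart

variable {E : Type} [NormedAddCommGroup E] [NormedSpace ℝ E] {e : OpenPartialHomeomorph M E}

theorem joined (hc : Convex ℝ e.target) {x y : M} (hx : x ∈ e.source) (hy : y ∈ e.source) :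
    ∃ p : Path x y, ∀ t, p t ∈ e.source := by
  have hmem : ∀ t : I, (1 - (t : ℝ)) • e x + (t : ℝ) • e y ∈ e.target := fun t =>
    hc (e.map_source hx) (e.map_source hy) (by linarith [t.2.2]) t.2.1 (by ring)
  have hcont : Continuous fun t : I => e.symm ((1 - (t : ℝ)) • e x + (t : ℝ) • e y) :=
    e.continuousOn_symm.comp_continuous (by fun_prop) hmem
  refine ⟨⟨⟨_, hcont⟩, ?_, ?_⟩, fun t => e.map_target (hmem t)⟩
  · simp [e.left_inv hx]
  · simp [e.left_inv hy]

theorem uniq (hc : Convex ℝ e.target) {x y : M} (p q : Path x y)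
    (hp : ∀ t, p t ∈ e.source) (hq : ∀ t, q t ∈ e.source) : p.Homotopic q := by
  have hmem : ∀ u : I × I, (1 - (u.1 : ℝ)) • e (p u.2) + (u.1 : ℝ) • e (q u.2) ∈ e.target :=
    fun u => hc (e.map_source (hp _)) (e.map_source (hq _)) (by linarith [u.1.2.2]) u.1.2.1
      (by ring)
  have h1 : Continuous fun t => e (p t) := e.continuousOn.comp_continuous p.continuous hp
  have h2 : Continuous fun t => e (q t) := e.continuousOn.comp_continuous q.continuous hq
  have hcont : Continuous fun u : I × I =>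
      e.symm ((1 - (u.1 : ℝ)) • e (p u.2) + (u.1 : ℝ) • e (q u.2)) :=
    e.continuousOn_symm.comp_continuous
      (((continuous_const.sub (continuous_subtype_val.comp continuous_fst)).smul
        (h1.comp continuous_snd)).add
        ((continuous_subtype_val.comp continuous_fst).smul (h2.comp continuous_snd))) hmem
  refine ⟨⟨⟨⟨_, hcont⟩, fun t => ?_, fun t => ?_⟩, fun s t ht => ?_⟩⟩
  · simp [e.left_inv (hp t)]
  · simp [e.left_inv (hq t)]
  · have hpq : p t = q t := by
      rcases ht with rfl | rfl <;> simp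
    change e.symm ((1 - (s : ℝ)) • e (p t) + (s : ℝ) • e (q t)) = p t
    rw [← hpq, ← add_smul, sub_add_cancel, one_smul, e.left_inv (hp t)]

theorem exists_convex (e : OpenPartialHomeomorph M E) {x : M} (hx : x ∈ e.source) :
    ∃ e' : OpenPartialHomeomorph M E, x ∈ e'.source ∧ Convex ℝ e'.target := by
  obtain ⟨r, hr, h⟩ := Metric.isOpen_iff.1 e.open_target _ (e.map_source hx)
  refine ⟨(e.symm.restrOpen _ (Metric.isOpen_ball (x := e x) (ε := r))).symm,
    ⟨hx, Metric.mem_ball_self hr⟩, ?_⟩
  change Convex ℝ (e.target ∩ Metric.ball (e x) r)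
  rw [inter_eq_right.2 h]
  exact convex_ball _ _

end Chart

end UC

open UC in
/-- **existence of the universal covering** -/
theorem cov : CovStmt := by
  intro n S _ _ _ _
  have := ChartedSpace.locallyPathConnectedSpace (EuclideanSpace ℝ (Fin n)) S
  have : PathConnectedSpace S := PathConnectedSpace.of_locallyPathConnectedSpace
  choose e he hc using fun x : S =>
    exists_convex (chartAt (EuclideanSpace ℝ (Fin n)) x) (mem_chart_source _ x)
  obtain ⟨t, -, ht⟩ := isCompact_univ.elim_nhds_subcover (fun x => (e x).source)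
    fun x _ => (e x).open_source.mem_nhds (he x)
  let A : Cv S :=
    { ι := t
      U := fun i => (e i).source
      op := fun i => (e i).open_source
      cover := fun x => by
        obtain ⟨i, hi, hx⟩ := mem_iUnion₂.1 (ht (mem_univ x))
        exact ⟨⟨i, hi⟩, hx⟩
      joined := fun i x hx y hy => joined (hc i) hx hy
      uniq := fun i _ _ p q => uniq (hc i) p q }
  obtain ⟨x0⟩ : Nonempty S := inferInstance
  have : Countable A.ι := inferInstanceAs (Countable t)
  exact ⟨@Cov.mk S _ (A.cov x0) (FundamentalGroup S x0) _ _ Cv.deck Cv.pr Cv.isQuotientCoveringMap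
    Cv.simplyConnected (A.countable x0)⟩

end Crest.Agent.N222.C
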