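import Crest.Agent.N222.C.Whit0

/-!
# Row 222, part C: the twisted fundamental cycle of a partition of unity

`W (y₀, …, y_n) = ∫ f_{y₀} det (d f_{y₁}, …, d f_{y_n})`.
-/

set_option autoImplicit false

open Set Filter Topology Metric MeasureTheory
open scoped ContDiff

noncomputable section

namespace Crest.Agent.N222.C

section Pair

variable {Γ ι : Type} [Group Γ] [Fintype ι] {m : ℕ}

/-- pairing of a twisted chain with a twisted cochain -/
def pair (W φ : (Fin (m + 1) → Lb Γ ι) → ℝ) : ℝ :=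
  ∑ i : ι, ∑ᶠ y : Fin m → Lb Γ ι, W (Fin.cons ⟨1, i⟩ y) * φ (Fin.cons ⟨1, i⟩ y)

namespace Wh1

omit [Fintype ι] in
/-- changing the normalised vertex -/
theorem norm_change {F : (Fin (m + 2) → Lb Γ ι) → ℝ}
    (hF : ∀ (g : Γ) Y, F (fun i => g • Y i) = F Y) (b : Fin (m + 2)) :
    ∑ᶠ Y ∈ {Y : Fin (m + 2) → Lb Γ ι | (Y 0).g = 1}, F Y =
      ∑ᶠ Y ∈ {Y : Fin (m + 2) → Lb Γ ι | (Y b).g = 1}, F Y := by
  refine finsum_mem_eq_of_bijOn (fun Y i => (Y b).g⁻¹ • Y i) ?_ fun Y _ => (hF _ Y).symm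
  refine InvOn.bijOn (f' := fun Y i => (Y 0).g⁻¹ • Y i) ⟨fun Y hY => ?_, fun Y hY => ?_⟩
    (fun Y _ => by simp) fun Y _ => by simp
  · funext i
    simp only [mem_ofPred_eq] at hY
    simp [hY, smul_smul]
  · funext i
    simp only [mem_ofPred_eq] at hY
    simp [hY, smul_smul]

theorem fin_norm {W : (Fin (m + 2) → Lb Γ ι) → ℝ}
    (hfin : ∀ a y₀, {y | y a = y₀ ∧ W y ≠ 0}.Finite) (b : Fin (m + 2)) :
    {Y | (Y b).g = 1 ∧ W Y ≠ 0}.Finite :=
  (finite_iUnion fun i : ι => hfin b ⟨1, i⟩).subset fun Y hY =>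
    mem_iUnion.2 ⟨(Y b).i, Lb.ext hY.1 rfl, hY.2⟩

theorem pair_eq {W : (Fin (m + 2) → Lb Γ ι) → ℝ}
    (hfin : ∀ a y₀, {y | y a = y₀ ∧ W y ≠ 0}.Finite) (φ : (Fin (m + 2) → Lb Γ ι) → ℝ) :
    pair W φ = ∑ᶠ Y ∈ {Y : Fin (m + 2) → Lb Γ ι | (Y 0).g = 1}, W Y * φ Y := by
  have hi : Function.Injective fun p : ι × (Fin (m + 1) → Lb Γ ι) =>
      (Fin.cons ⟨1, p.1⟩ p.2 : Fin (m + 2) → Lb Γ ι) := fun p q h => by
    obtain ⟨h1, h2⟩ := Fin.cons_inj.1 h
    exact Prod.ext (congrArg Lb.i h1) h2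
  rw [pair, ← finsum_eq_sum_of_fintype, ← finsum_curry
    (fun p : ι × (Fin (m + 1) → Lb Γ ι) => W (Fin.cons ⟨1, p.1⟩ p.2) * φ (Fin.cons ⟨1, p.1⟩ p.2))
    (((fin_norm hfin 0).preimage hi.injOn).subset fun p hp => ⟨rfl, left_ne_zero_of_mul hp⟩),
    ← finsum_mem_univ]
  refine finsum_mem_eq_of_bijOn _ ⟨fun p _ => rfl, hi.injOn, fun Y hY => ?_⟩ fun p _ => rfl
  refine ⟨((Y 0).i, Fin.tail Y), trivial, ?_⟩
  have : (⟨1, (Y 0).i⟩ : Lb Γ ι) = Y 0 := Lb.ext hY.symm rfl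
  simp only [this, Fin.cons_self_tail]

theorem face_zero {W : (Fin (m + 2) → Lb Γ ι) → ℝ}
    (hfin : ∀ a y₀, {y | y a = y₀ ∧ W y ≠ 0}.Finite) (a : Fin (m + 2))
    (hbd : ∀ y : Fin (m + 1) → Lb Γ ι, ∑ᶠ y₀ : Lb Γ ι, W (Fin.insertNth a y₀ y) = 0)
    (γ : (Fin (m + 1) → Lb Γ ι) → ℝ) :
    ∑ᶠ Y ∈ {Y : Fin (m + 2) → Lb Γ ι | (Y (a.succAbove 0)).g = 1},
      W Y * γ (fun j => Y (a.succAbove j)) = 0 := by
  have hi : Function.Injective fun p : (Fin (m + 1) → Lb Γ ι) × Lb Γ ι =>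
      (Fin.insertNth a p.2 p.1 : Fin (m + 2) → Lb Γ ι) := fun p q h => by
    refine Prod.ext (funext fun j => ?_) ?_
    · simpa using congrFun h (a.succAbove j)
    · simpa using congrFun h a
  rw [← finsum_mem_eq_of_bijOn (s := {p : (Fin (m + 1) → Lb Γ ι) × Lb Γ ι | (p.1 0).g = 1})
    (f := fun p => W (Fin.insertNth a p.2 p.1) * γ p.1) (fun p => Fin.insertNth a p.2 p.1)
    ⟨fun p hp => by simpa using hp, hi.injOn, fun Y hY =>
      ⟨(fun j => Y (a.succAbove j), Y a), hY, Fin.insertNth_self_removeNth a Y⟩⟩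
    fun p _ => by simp, finsum_mem_def, finsum_curry]
  · refine finsum_eq_zero_of_forall_eq_zero fun y => ?_
    by_cases hy : (y 0).g = 1
    · simp [indicator, hy, ← finsum_mul, hbd]
    · simp [indicator, hy]
  · refine ((fin_norm hfin (a.succAbove 0)).preimage hi.injOn).subset fun p hp => ?_
    rw [support_indicator] at hp
    exact ⟨by simpa using hp.1, left_ne_zero_of_mul hp.2⟩

end Wh1

/-- cycles kill coboundaries (for the face `0` normalise the vertex `1` instead of the vertex `0`: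
`W y * γ (y ∘ succ)` is `Γ`-invariant) -/
theorem pair_cob {χ : Γ →* ℤˣ} {W : (Fin (m + 2) → Lb Γ ι) → ℝ} (hW : Tw χ W)
    (hfin : ∀ a y₀, {y | y a = y₀ ∧ W y ≠ 0}.Finite)
    (hbd : ∀ (a : Fin (m + 2)) (y : Fin (m + 1) → Lb Γ ι),
      ∑ᶠ y₀ : Lb Γ ι, W (Fin.insertNth a y₀ y) = 0)
    {γ : (Fin (m + 1) → Lb Γ ι) → ℝ} (hγ : Tw χ γ) : pair W (cob γ) = 0 := by
  have key : ∀ φ : (Fin (m + 2) → Lb Γ ι) → ℝ,
      ∑ᶠ Y ∈ {Y : Fin (m + 2) → Lb Γ ι | (Y 0).g = 1}, W Y * φ Y =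
        ∑ Y ∈ (Wh1.fin_norm hfin 0).toFinset, W Y * φ Y := fun φ =>
    finsum_mem_eq_sum_of_inter_support_eq _ (Set.ext fun Y => ⟨fun h =>
      ⟨by simpa using ⟨h.1, left_ne_zero_of_mul h.2⟩, h.2⟩, fun h =>
      ⟨((Finite.mem_toFinset _).1 h.1).1, h.2⟩⟩)
  rw [Wh1.pair_eq hfin, key]
  simp only [cob, Finset.mul_sum]
  rw [Finset.sum_comm]
  refine Finset.sum_eq_zero fun a _ => ?_
  simp only [mul_left_comm (W _), ← Finset.mul_sum]
  rw [← key, Wh1.norm_change (b := a.succAbove 0), Wh1.face_zero hfin a (hbd a), mul_zero]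
  intro g Y
  rw [hW g Y, hγ g fun j => Y (a.succAbove j)]
  linear_combination (W Y * γ fun j => Y (a.succAbove j)) * sg_mul_self χ g

end Pair

/-- a map with a locally vanishing component has zero Jacobian -/
theorem Wh1.jac_eq_zero_of_comp {n : ℕ} {F : (Fin n → ℝ) → Fin n → ℝ} {z : Fin n → ℝ} (a : Fin n)
    (h : ∀ᶠ w in 𝓝 z, F w a = 0) : jac F z = 0 := by
  rw [jac, det_eq_vol, vol_apply]
  refine Matrix.det_eq_zero_of_column_eq_zero a fun j => ?_
  by_cases hF : DifferentiableAt ℝ F z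
  · have h1 := (hasFDerivAt_pi'.1 hF.hasFDerivAt a).unique
      ((hasFDerivAt_const (0 : ℝ) z).congr_of_eventuallyEq h)
    exact congrArg (fun L => L (Pi.single j 1)) h1
  · rw [fderiv_zero_of_not_differentiableAt hF]; rfl

theorem Wh1.integral_box {n : ℕ} {G : (Fin n → ℝ) → Fin n → ℝ} (hG : ContDiff ℝ 2 G) {R : ℝ}
    (hR : 0 < R) (a : Fin n) (h : ∀ z, R ≤ ‖z‖ → G z a = 0) :
    ∫ z in Icc (fun _ => -R) (fun _ => R), jac G z = 0 := by
  have hH : ContDiff ℝ 2 fun x : Fin (n + 1) → ℝ => x 0 • G (Fin.tail x) :=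
    (contDiff_apply ℝ ℝ 0).smul (hG.comp (contDiff_pi.2 fun i => contDiff_apply ℝ ℝ i.succ))
  have key := box_stokes (w := fun _ => 1) contDiff_const
    (a := Fin.cons 0 fun _ => -R) (b := Fin.cons 1 fun _ => R)
    (Fin.cons_le_cons.2 ⟨zero_le_one, fun _ => by linarith⟩) isOpen_univ hH.contDiffOn
    isCompact_Icc (subset_univ _) fun x hx _ h => (h hx).elim
  have z : ∀ (i : Fin (n + 1)) (c : ℝ) (a' b' : Fin n → ℝ),
      (∀ w, ins i c w 0 * G (Fin.tail (ins i c w)) a = 0) →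
      bint (fun _ => 1) (ins i c ⁻¹' univ)
        ((fun x : Fin (n + 1) → ℝ => x 0 • G (Fin.tail x)) ∘ ins i c) a' b' = 0 :=
    fun i c a' b' hw => bint_eq_zero fun x _ _ => by
      rw [Wh1.jac_eq_zero_of_comp a (Eventually.of_forall hw), mul_zero]
  have s : ∀ (j : Fin n) (c : ℝ), |c| = R → ∀ w,
      ins j.succ c w 0 * G (Fin.tail (ins j.succ c w)) a = 0 := fun j c hc w => by
    refine mul_eq_zero_of_right _ (h _ ?_)
    have := norm_le_pi_norm (Fin.tail (ins j.succ c w)) j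
    rwa [Fin.tail, ins, Fin.insertNth_apply_same, Real.norm_eq_abs, hc] at this
  rw [Fin.sum_univ_succ, Finset.sum_eq_zero fun j _ => by
    rw [z _ _ _ _ (s j _ (by simp [abs_of_pos hR])), z _ _ _ _ (s j _ (by simp [abs_of_pos hR])),
      sub_zero, mul_zero], z 0 ((Fin.cons 0 fun _ => -R : Fin (n + 1) → ℝ) 0) _ _ fun w => by
        simp [ins]] at key
  have e : (fun x : Fin (n + 1) → ℝ => x 0 • G (Fin.tail x)) ∘ ins 0 1 = G := by
    funext w
    simp [ins]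
  simpa [bint, dens, e] using key

/-- `∫ det DF = 0` if one component has compact support (replace `F` by `ζ F`, `ζ` a cut-off equal to `1`
near `K`; then `box_stokes` with `w = 1`, `O = univ`, `K` = the whole box, for `(t, z) ↦ t • ζ z • F z`) -/
theorem integral_jac_eq_zero {n : ℕ} {O : Set (Fin n → ℝ)} (hO : IsOpen O)
    {F : (Fin n → ℝ) → Fin n → ℝ} (hF : ContDiffOn ℝ ∞ F O) {K : Set (Fin n → ℝ)}
    (hK : IsCompact K) (hKO : K ⊆ O) (a : Fin n) (h : ∀ z ∈ O, z ∉ K → F z a = 0) :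
    ∫ z in O, jac F z = 0 := by
  obtain ⟨ζ, h0, h1, -⟩ := exists_contMDiffMap_zero_one_nhds_of_isClosed
    (modelWithCornersSelf ℝ (Fin n → ℝ)) (n := (⊤ : ℕ∞)) hO.isClosed_compl hK.isClosed
    (disjoint_compl_left_iff_subset.2 hKO)
  have hζ : ContDiff ℝ ∞ ζ := ζ.contMDiff.contDiff
  have hG : ContDiff ℝ ∞ fun z => ζ z • F z := contDiff_iff_contDiffAt.2 fun z => by
    by_cases hz : z ∈ O
    · exact hζ.contDiffAt.smul (hF.contDiffAt (hO.mem_nhds hz))
    · refine (contDiffAt_const (c := 0)).congr_of_eventuallyEq ?_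
      filter_upwards [h0.filter_mono (nhds_le_nhdsSet hz)] with w hw
      rw [hw, zero_smul]
  have hGa : ∀ z, z ∉ K → (ζ z • F z) a = 0 := fun z hz => by
    by_cases hzO : z ∈ O
    · rw [Pi.smul_apply, h z hzO hz, smul_zero]
    · rw [h0.self_of_nhdsSet z hzO, zero_smul]; rfl
  obtain ⟨R, hR, hKR⟩ := hK.isBounded.subset_ball_lt 0 0
  have hKI : K ⊆ Icc (fun _ => -R) fun _ => R := fun z hz => by
    have := mem_ball_zero_iff.1 (hKR hz)
    exact ⟨fun i => (abs_le.1 ((norm_le_pi_norm z i).trans this.le)).1,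
      fun i => (abs_le.1 ((norm_le_pi_norm z i).trans this.le)).2⟩
  rw [setIntegral_eq_of_subset_of_forall_sdiff_eq_zero hO.measurableSet hKO fun z hz =>
      Wh1.jac_eq_zero_of_comp a (by
        filter_upwards [hO.mem_nhds hz.1, hK.isClosed.isOpen_compl.mem_nhds hz.2] with w h1 h2
        exact h w h1 h2),
    ← Wh1.integral_box (hG.of_le (by norm_cast)) hR a fun z hz => hGa z fun hzK =>
      absurd (mem_ball_zero_iff.1 (hKR hzK)) (not_lt.2 hz),
    setIntegral_eq_of_subset_of_forall_sdiff_eq_zero measurableSet_Icc hKI fun z hz =>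
      Wh1.jac_eq_zero_of_comp a (by
        filter_upwards [hK.isClosed.isOpen_compl.mem_nhds hz.2] with w h2
        exact hGa w h2)]
  refine setIntegral_congr_fun hK.measurableSet fun z hz => ?_
  refine congrArg ContinuousLinearMap.det (EventuallyEq.fderiv_eq ?_)
  filter_upwards [h1.filter_mono (nhds_le_nhdsSet hz)] with w hw
  rw [hw, one_smul]

namespace OA

variable {Γ T : Type} [Group Γ] [TopologicalSpace T] [MulAction Γ T] {n : ℕ} (A : OA Γ T n)

/-- the integral in a chart -/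
def wJ (i : A.I) (f₀ : T → ℝ) (f : Fin n → T → ℝ) : ℝ :=
  A.o i * ∫ z in (A.e i).target, f₀ ((A.e i).symm z) * jac (fun z a => f a ((A.e i).symm z)) z

/-- change of chart (`integral_image_eq_integral_abs_det_fderiv_smul`) -/
theorem wJ_change [ContinuousConstSMul Γ T] {i j : A.I} {g : Γ} {f₀ : T → ℝ} {f : Fin n → T → ℝ}
    (hf : ∀ a, A.Sm (f a))
    (h : ∀ x, f₀ x ≠ 0 → (∀ a, x ∈ tsupport (f a)) → x ∈ (A.e i).source ∧ g • x ∈ (A.e j).source) :
    A.wJ j (fun x => f₀ (g⁻¹ • x)) (fun a x => f a (g⁻¹ • x)) = sg A.χ g * A.wJ i f₀ f := by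
  set φ : (Fin n → ℝ) → Fin n → ℝ := fun z => A.e j (g • (A.e i).symm z) with hφ
  set D : Set (Fin n → ℝ) := {z | z ∈ (A.e i).target ∧ g • (A.e i).symm z ∈ (A.e j).source} with hD
  have hDo : IsOpen D := (A.e i).isOpen_inter_preimage_symm
    ((A.e j).open_source.preimage (continuous_const_smul g))
  have hd : ∀ z ∈ D, DifferentiableAt ℝ φ z := fun z hz =>
    ((A.sm g i j).contDiffAt (hDo.mem_nhds hz)).differentiableAt (by simp)
  have hl : ∀ z ∈ D, g⁻¹ • (A.e j).symm (φ z) = (A.e i).symm z := fun z hz => by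
    rw [hφ, (A.e j).left_inv hz.2, inv_smul_smul]
  have hinj : InjOn φ D := fun z hz z' hz' e =>
    (A.e i).symm.injOn hz.1 hz'.1 (by rw [← hl z hz, e, hl z' hz'])
  have h1 : ∫ z in (A.e j).target, f₀ (g⁻¹ • (A.e j).symm z) *
      jac (fun z a => f a (g⁻¹ • (A.e j).symm z)) z = ∫ z in φ '' D, f₀ (g⁻¹ • (A.e j).symm z) *
      jac (fun z a => f a (g⁻¹ • (A.e j).symm z)) z := by
    refine setIntegral_eq_of_subset_of_forall_sdiff_eq_zero (A.e j).open_target.measurableSet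
      (by rintro _ ⟨z, hz, rfl⟩; exact (A.e j).map_source hz.2) fun z hz => by_contra fun h0 => ?_
    obtain ⟨h2, h3⟩ := h _ (left_ne_zero_of_mul h0) fun a => by_contra fun ha =>
      right_ne_zero_of_mul h0 (Wh.jac_comp_zero (τ := fun z => g⁻¹ • (A.e j).symm z)
        (((A.e j).continuousAt_symm hz.1).const_smul _) ha)
    refine hz.2 ⟨A.e i (g⁻¹ • (A.e j).symm z), ⟨(A.e i).map_source h2, ?_⟩, ?_⟩
    · rwa [(A.e i).left_inv h2]
    · simp only [hφ, (A.e i).left_inv h2, smul_inv_smul, (A.e j).right_inv hz.1]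
  have h2 : ∫ z in (A.e i).target, f₀ ((A.e i).symm z) * jac (fun z a => f a ((A.e i).symm z)) z =
      ∫ z in D, f₀ ((A.e i).symm z) * jac (fun z a => f a ((A.e i).symm z)) z :=
    setIntegral_eq_of_subset_of_forall_sdiff_eq_zero (A.e i).open_target.measurableSet
      (fun _ hz => hz.1) fun z hz => by_contra fun h0 => hz.2 ⟨hz.1, (h _ (left_ne_zero_of_mul h0)
        fun a => by_contra fun ha => right_ne_zero_of_mul h0
          (Wh.jac_comp_zero ((A.e i).continuousAt_symm hz.1) ha)).2⟩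
  rw [wJ, wJ, h1, h2, integral_image_eq_integral_abs_det_fderiv_smul volume hDo.measurableSet
    (fun z hz => (hd z hz).hasFDerivAt.hasFDerivWithinAt) hinj, ← integral_const_mul,
    ← integral_const_mul, ← integral_const_mul]
  refine setIntegral_congr_fun hDo.measurableSet fun z hz => ?_
  have h3 : (fun z a => f a ((A.e i).symm z)) =ᶠ[𝓝 z]
      (fun z a => f a (g⁻¹ • (A.e j).symm z)) ∘ φ := by
    filter_upwards [hDo.mem_nhds hz] with w hw
    simp only [Function.comp_apply, hl w hw]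
  have h4 : DifferentiableAt ℝ (fun z a => f a (g⁻¹ • (A.e j).symm z)) (φ z) :=
    differentiableAt_pi.2 fun a => (((hf a).smul g⁻¹ j).contDiffAt ((A.e j).open_target.mem_nhds
      ((A.e j).map_source hz.2))).differentiableAt (by simp)
  have h5 : jac (fun z a => f a ((A.e i).symm z)) z =
      jac (fun z a => f a (g⁻¹ • (A.e j).symm z)) (φ z) * jac φ z := by
    rw [← Wh.jac_comp h4 (hd z hz), jac, jac, h3.fderiv_eq]
  have h6 : A.o j * |(fderiv ℝ φ z).det| = sg A.χ g * A.o i * jac φ z :=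
    Wh.sign_aux (A.o_eq i) (A.o_eq j) (sg_eq A.χ g) (A.pos g i j z hz.1 hz.2)
  simp only [smul_eq_mul, hl z hz, h5]
  linear_combination f₀ ((A.e i).symm z) * jac (fun z a => f a (g⁻¹ • (A.e j).symm z)) (φ z) * h6

/-- equivariant partitions of unity -/
structure Pou (ι : Type) where
  f : ι → T → ℝ
  sm : ∀ i, A.Sm (f i)
  cs : ∀ i, HasCompactSupport (f i)
  ch : ι → A.I
  sub : ∀ i, tsupport (f i) ⊆ (A.e (ch i)).source
  sum : ∀ x, ∑ᶠ y : Lb Γ ι, f y.i (y.g⁻¹ • x) = 1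

namespace Pou

variable {A} {ι : Type} (P : A.Pou ι)

/-- the function of a label -/
def fy (y : Lb Γ ι) (x : T) : ℝ := P.f y.i (y.g⁻¹ • x)

/-- the cycle -/
def W (y : Fin (n + 1) → Lb Γ ι) : ℝ :=
  sg A.χ (y 0).g * A.wJ (P.ch (y 0).i) (P.f (y 0).i) fun a x => P.fy (y a.succ) ((y 0).g • x)

theorem tw_W : Tw A.χ P.W := by
  intro g y
  simp [W, fy, sg, mul_smul, mul_assoc]

variable [ContinuousConstSMul Γ T]

theorem W_supp {y : Fin (n + 1) → Lb Γ ι} (h : P.W y ≠ 0) :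
    ∃ x, ∀ a, x ∈ tsupport (P.fy (y a)) := by
  by_contra! H
  refine right_ne_zero_of_mul (right_ne_zero_of_mul h)
    (setIntegral_eq_zero_of_forall_eq_zero fun z hz => ?_)
  obtain ⟨a, ha⟩ := H ((y 0).g • (A.e (P.ch (y 0).i)).symm z)
  cases a using Fin.cases with
  | zero =>
    have := image_eq_zero_of_notMem_tsupport ha
    rw [fy, inv_smul_smul] at this
    rw [this, zero_mul]
  | succ a =>
    rw [Wh.jac_comp_zero (f := fun a : Fin n => P.fy (y a.succ))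
      (τ := fun z => (y 0).g • (A.e (P.ch (y 0).i)).symm z)
      (((A.e _).continuousAt_symm hz).const_smul _) ha, mul_zero]

theorem sm_fy (y : Lb Γ ι) : A.Sm (P.fy y) := (P.sm y.i).smul y.g⁻¹

theorem mem_tsupport_fy {y : Lb Γ ι} {x : T} : x ∈ tsupport (P.fy y) ↔ y.g⁻¹ • x ∈ tsupport (P.f y.i) :=
  ⟨Wh.mem_tsupport_smul, fun h => by
    have e : P.f y.i = fun x => P.fy y (y.g • x) := funext fun x => by rw [fy, inv_smul_smul]
    rw [e] at h
    simpa using Wh.mem_tsupport_smul h⟩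

/-- the cycle in an arbitrary chart -/
theorem W_eq (y : Fin (n + 1) → Lb Γ ι) {g : Γ} {j : A.I}
    (h : ∀ x, (∀ a, x ∈ tsupport (P.fy (y a))) → g • x ∈ (A.e j).source) :
    P.W y = sg A.χ g * A.wJ j (fun x => P.fy (y 0) (g⁻¹ • x))
      fun a x => P.fy (y a.succ) (g⁻¹ • x) := by
  have key := A.wJ_change (i := P.ch (y 0).i) (j := j) (g := g * (y 0).g) (f₀ := P.f (y 0).i)
    (f := fun a x => P.fy (y a.succ) ((y 0).g • x)) (fun a => (P.sm_fy _).smul _) fun x h0 h1 =>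
      ⟨P.sub _ (subset_tsupport _ h0), by
        rw [mul_smul]
        refine h _ fun a => Fin.cases ?_ (fun a => Wh.mem_tsupport_smul (h1 a)) a
        rw [mem_tsupport_fy, inv_smul_smul]
        exact subset_tsupport _ h0⟩
  simp only [mul_inv_rev, mul_smul, smul_inv_smul] at key
  rw [W, show (fun x => P.fy (y 0) (g⁻¹ • x)) = fun x => P.f (y 0).i ((y 0).g⁻¹ • g⁻¹ • x) from rfl,
    key, Wh.sg_mul, ← mul_assoc, ← mul_assoc, sg_mul_self, one_mul]

theorem W_fin [Fintype ι] (hp : Prp Γ T) (a : Fin (n + 1)) (y₀ : Lb Γ ι) :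
    {y | y a = y₀ ∧ P.W y ≠ 0}.Finite := by
  have ts : ∀ (l : Lb Γ ι) x, x ∈ tsupport (P.fy l) → l.g⁻¹ • x ∈ tsupport (P.f l.i) :=
    fun l x hx => closure_minimal (s := Function.support (P.fy l))
      (t := (fun x => l.g⁻¹ • x) ⁻¹' tsupport (P.f l.i)) (fun w hw => subset_closure hw)
      (isClosed_closure.preimage (continuous_const_smul _)) hx
  have hS : (⋃ i : ι, (fun g : Γ => (⟨y₀.g * g⁻¹, i⟩ : Lb Γ ι)) ''
      {g | ∃ x ∈ tsupport (P.f y₀.i), g • x ∈ tsupport (P.f i)}).Finite :=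
    finite_iUnion fun i => (hp _ _ (P.cs _) (P.cs _)).image _
  refine (Finite.pi' fun _ => hS).subset fun y hy b => ?_
  obtain ⟨x, hx⟩ := P.W_supp hy.2
  refine mem_iUnion.2 ⟨(y b).i, (y b).g⁻¹ * y₀.g, ⟨y₀.g⁻¹ • x, ts _ _ (hy.1 ▸ hx a), ?_⟩, ?_⟩
  · simpa [mul_smul] using ts _ _ (hx b)
  · exact Lb.ext (by simp) rfl

end Pou

end OA

/-- `W` is a cycle: for `a ≠ 0` because `∑ d f_y = 0` (the determinant is linear in a row), for
`a = 0` by `W_eq` in the chart of `y 0` and `integral_jac_eq_zero` -/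
theorem OA.Pou.W_bd {Γ T : Type} [Group Γ] [TopologicalSpace T] [MulAction Γ T]
    [ContinuousConstSMul Γ T] [T2Space T] [LocallyCompactSpace T] {m : ℕ} {A : OA Γ T (m + 1)}
    {ι : Type} [Fintype ι] (P : A.Pou ι) (hp : Prp Γ T) (a : Fin (m + 2))
    (y : Fin (m + 1) → Lb Γ ι) : ∑ᶠ y₀ : Lb Γ ι, P.W (Fin.insertNth a y₀ y) = 0 := by
  set j := P.ch (y 0).i
  set g := (y 0).g with hg
  have hC : IsCompact (tsupport (P.f (y 0).i)) := P.cs _
  obtain ⟨N, hN, hCN⟩ := exists_compact_superset (hC.image (continuous_const_smul g))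
  have hfin : {l : Lb Γ ι | ∃ x ∈ N, x ∈ tsupport (P.fy l)}.Finite := by
    refine (finite_iUnion fun i : ι => (hp N _ hN (P.cs i)).image
      fun h => (⟨h⁻¹, i⟩ : Lb Γ ι)).subset fun l ⟨x, hx, hl⟩ => mem_iUnion.2
        ⟨l.i, l.g⁻¹, ⟨x, hx, P.mem_tsupport_fy.1 hl⟩, by simp⟩
  have hy : ∀ l : Lb Γ ι, ∀ x, (∀ b, x ∈ tsupport (P.fy ((Fin.insertNth a l y : Fin (m + 2) → _) b))) →
      x ∈ tsupport (P.fy l) ∧ g⁻¹ • x ∈ tsupport (P.f (y 0).i) := fun l x h =>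
    ⟨by simpa using h a, P.mem_tsupport_fy.1 (by simpa using h (a.succAbove 0))⟩
  rw [finsum_eq_sum_of_support_subset (s := hfin.toFinset) _ fun l hl => by
    obtain ⟨x, hx⟩ := P.W_supp hl
    exact (Finite.mem_toFinset _).2
      ⟨x, interior_subset (hCN ⟨_, (hy l x hx).2, smul_inv_smul g x⟩), (hy l x hx).1⟩]
  let U : Lb Γ ι → (Fin (m + 1) → ℝ) → ℝ := fun l z => P.fy l (g • (A.e j).symm z)
  have hU : ∀ l, ContDiffOn ℝ ∞ (U l) (A.e j).target := fun l => (P.sm_fy l).smul g j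
  have hK : IsCompact (A.e j '' tsupport (P.f (y 0).i)) :=
    hC.image_of_continuousOn ((A.e j).continuousOn.mono (P.sub _))
  have hKO : A.e j '' tsupport (P.f (y 0).i) ⊆ (A.e j).target := by
    rintro _ ⟨x, hx, rfl⟩
    exact (A.e j).map_source (P.sub _ hx)
  have h0 : ∀ z ∈ (A.e j).target, z ∉ A.e j '' tsupport (P.f (y 0).i) → U (y 0) z = 0 :=
    fun z hz hz' => by_contra fun h => hz' ⟨(A.e j).symm z, subset_tsupport _ (by
      simpa only [U, OA.Pou.fy, ← hg, inv_smul_smul, Function.mem_support] using h), (A.e j).right_inv hz⟩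
  have e : ∀ l, P.W (Fin.insertNth a l y) = sg A.χ g⁻¹ * A.o j *
      ∫ z in (A.e j).target, Wh.itg U (Fin.insertNth a l y) z := fun l => by
    rw [P.W_eq _ (g := g⁻¹) (j := j) fun x hx => P.sub _ (hy l x hx).2, inv_inv, mul_assoc]
    rfl
  simp only [e]
  rw [← Finset.mul_sum, Wh.sum_itg (A.e j).open_target hU hK hKO y h0 _ ?_
    (integral_jac_eq_zero (A.e j).open_target (contDiffOn_pi.2 fun b => hU (y b)) hK hKO 0 h0),
    mul_zero]
  rintro _ ⟨x, hx, rfl⟩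
  have h1 : ContinuousAt (fun z => g • (A.e j).symm z) (A.e j x) :=
    ((A.e j).continuousAt_symm ((A.e j).map_source (P.sub _ hx))).const_smul g
  refine (h1.eventually (mem_interior_iff_mem_nhds.1 (hCN ⟨x, hx, ?_⟩))).mono fun z hz => ?_
  · simp only [(A.e j).left_inv (P.sub _ hx)]
  · rw [← P.sum (g • (A.e j).symm z)]
    exact (finsum_eq_sum_of_support_subset _ fun l hl =>
      hfin.mem_toFinset.2 ⟨_, hz, subset_tsupport (P.fy l) hl⟩).symm

end Crest.Agent.N222.C
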