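import Crest.Agent.N222.C.OA

/-!
# Row 222, part C: Jacobians row by row (tools for `C/Whit`)
-/

set_option autoImplicit false

open Set Filter Topology Metric MeasureTheory
open scoped ContDiff

noncomputable section

namespace Crest.Agent.N222.C.Wh

variable {n : ℕ}

theorem sg_mul {Γ : Type} [Group Γ] (χ : Γ →* ℤˣ) (g h : Γ) : sg χ (g * h) = sg χ g * sg χ h := by
  simp [sg]

theorem sign_aux {a b c d : ℝ} (ha : a = 1 ∨ a = -1) (hb : b = 1 ∨ b = -1) (hc : c = 1 ∨ c = -1)
    (h : 0 < a * b * c * d) : b * |d| = c * a * d := by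
  rcases abs_cases d with ⟨h1, h2⟩ | ⟨h1, h2⟩ <;> rcases ha with rfl | rfl <;>
    rcases hb with rfl | rfl <;> rcases hc with rfl | rfl <;> linarith

theorem jac_eq (F : (Fin n → ℝ) → Fin n → ℝ) (x : Fin n → ℝ) :
    jac F x = Matrix.det (Matrix.of fun a j => fderiv ℝ F x (Pi.single j 1) a) := by
  rw [jac, ContinuousLinearMap.det, ← LinearMap.det_toMatrix']
  rfl

/-- a component vanishes near the point -/
theorem jac_row_zero {F : (Fin n → ℝ) → Fin n → ℝ} {x : Fin n → ℝ} (a : Fin n)
    (h : ∀ᶠ z in 𝓝 x, F z a = 0) : jac F x = 0 := by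
  rw [jac_eq]
  refine Matrix.det_eq_zero_of_row_eq_zero a fun j => ?_
  by_cases hF : DifferentiableAt ℝ F x
  · have h1 := (hasFDerivAt_pi'.1 hF.hasFDerivAt a).fderiv
    have h2 : (fun z => F z a) =ᶠ[𝓝 x] fun _ => 0 := h
    rw [h2.fderiv_eq, fderiv_fun_const] at h1
    exact (congrArg (fun L : (Fin n → ℝ) →L[ℝ] ℝ => L (Pi.single j 1)) h1).symm
  · rw [fderiv_zero_of_not_differentiableAt hF]
    rfl

theorem jac_comp_zero {T : Type} [TopologicalSpace T] {f : Fin n → T → ℝ} {τ : (Fin n → ℝ) → T}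
    {x : Fin n → ℝ} (hτ : ContinuousAt τ x) {a : Fin n} (h : τ x ∉ tsupport (f a)) :
    jac (fun z a => f a (τ z)) x = 0 :=
  jac_row_zero a (hτ.eventually (notMem_tsupport_iff_eventuallyEq.1 h))

theorem jac_rows {V : Fin n → (Fin n → ℝ) → ℝ} {x : Fin n → ℝ}
    (h : ∀ b, DifferentiableAt ℝ (V b) x) : jac (fun z b => V b z) x =
      Matrix.detRowAlternating fun b j => fderiv ℝ (V b) x (Pi.single j 1) := by
  rw [jac_eq, fderiv_pi h]
  rfl

theorem jac_comp {F φ : (Fin n → ℝ) → Fin n → ℝ} {x : Fin n → ℝ}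
    (hF : DifferentiableAt ℝ F (φ x)) (hφ : DifferentiableAt ℝ φ x) :
    jac (F ∘ φ) x = jac F (φ x) * jac φ x := by
  rw [jac, fderiv_comp x hF hφ, ContinuousLinearMap.det, ContinuousLinearMap.toLinearMap_comp,
    LinearMap.det_comp]
  rfl

theorem mem_tsupport_smul {Γ T : Type} [Group Γ] [TopologicalSpace T] [MulAction Γ T]
    [ContinuousConstSMul Γ T] {f : T → ℝ} {g : Γ} {x : T} (h : x ∈ tsupport fun x => f (g • x)) :
    g • x ∈ tsupport f := by
  by_contra h'
  exact notMem_tsupport_iff_eventuallyEq.2 ((continuous_const_smul g).continuousAt.eventually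
    (notMem_tsupport_iff_eventuallyEq.1 h')) h

/-- the integrand of the cycle in a chart -/
def itg {L : Type} (U : L → (Fin n → ℝ) → ℝ) (Y : Fin (n + 1) → L) (z : Fin n → ℝ) : ℝ :=
  U (Y 0) z * jac (fun z b => U (Y b.succ) z) z

/-- the boundary of the cycle in a chart -/
theorem sum_itg {m : ℕ} {L : Type} {U : L → (Fin (m + 1) → ℝ) → ℝ} {O K : Set (Fin (m + 1) → ℝ)}
    (hO : IsOpen O) (hU : ∀ l, ContDiffOn ℝ ∞ (U l) O) (hK : IsCompact K) (hKO : K ⊆ O)
    (y : Fin (m + 1) → L) (h0 : ∀ z ∈ O, z ∉ K → U (y 0) z = 0) (s : Finset L)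
    (hs : ∀ z ∈ K, ∀ᶠ z' in 𝓝 z, ∑ l ∈ s, U l z' = 1)
    (hj : ∫ z in O, jac (fun z b => U (y b) z) z = 0) (a : Fin (m + 2)) :
    ∑ l ∈ s, ∫ z in O, itg U (Fin.insertNth a l y) z = 0 := by
  have h1 : ∀ z ∈ O, z ∉ K → jac (fun z b => U (y b) z) z = 0 := fun z hz hz' =>
    jac_row_zero 0 (by
      filter_upwards [hO.mem_nhds hz, hK.isClosed.isOpen_compl.mem_nhds hz'] with w h h'
      exact h0 w h h')
  have hc : ∀ Y, ContinuousOn (itg U Y) O := fun Y => (hU _).continuousOn.mul
    (ContinuousLinearMap.continuous_det.comp_continuousOn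
      ((contDiffOn_pi.2 fun b : Fin (m + 1) => hU (Y b.succ)).continuousOn_fderiv_of_isOpen hO (by simp)))
  have hi : ∀ Y, (∀ z ∈ O, z ∉ K → itg U Y z = 0) → IntegrableOn (itg U Y) O := fun Y h =>
    (((hc Y).mono hKO).integrableOn_compact hK).of_forall_sdiff_eq_zero hO.measurableSet
      fun z hz => h z hz.1 hz.2
  cases a using Fin.cases with
  | zero =>
    have e : ∀ l z, itg U (Fin.insertNth 0 l y) z = U l z * jac (fun z b => U (y b) z) z :=
      fun l z => by simp only [itg, Fin.insertNth_zero', Fin.cons_zero, Fin.cons_succ]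
    rw [← integral_finsetSum s fun l _ => hi _ fun z hz hz' => by rw [e, h1 z hz hz', mul_zero],
      ← hj]
    refine setIntegral_congr_fun hO.measurableSet fun z hz => ?_
    simp only [e, ← Finset.sum_mul]
    by_cases hz' : z ∈ K
    · rw [(hs z hz').self_of_nhds, one_mul]
    · rw [h1 z hz hz', mul_zero]
  | succ a =>
    have e : ∀ l z, itg U (Fin.insertNth a.succ l y) z = U (y 0) z *
        jac (fun z b => U ((Fin.insertNth a l (Fin.tail y) : Fin (m + 1) → L) b) z) z :=
      fun l z => by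
        conv_lhs => rw [← Fin.cons_self_tail y, Fin.insertNth_succ_cons]
        simp only [itg, Fin.cons_zero, Fin.cons_succ]
    rw [← integral_finsetSum s fun l _ => hi _ fun z hz hz' => by rw [e, h0 z hz hz', zero_mul]]
    refine setIntegral_eq_zero_of_forall_eq_zero fun z hz => ?_
    simp only [e, ← Finset.mul_sum]
    by_cases hz' : z ∈ K
    · have hd : ∀ l, DifferentiableAt ℝ (U l) z := fun l =>
        ((hU l).contDiffAt (hO.mem_nhds hz)).differentiableAt (by simp)
      let r : L → Fin (m + 1) → ℝ := fun l j => fderiv ℝ (U l) z (Pi.single j 1)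
      have e2 : ∀ l, jac (fun z b => U ((Fin.insertNth a l (Fin.tail y) : Fin (m + 1) → L) b) z) z =
          Matrix.detRowAlternating (Function.update
            (Fin.insertNth a 0 fun b => r (Fin.tail y b) : Fin (m + 1) → Fin (m + 1) → ℝ) a (r l)) :=
        fun l => by
          rw [jac_rows fun b => hd _, Fin.update_insertNth]
          congr 1
          funext b
          cases b using Fin.succAboveCases a with
          | x => simp only [Fin.insertNth_apply_same, r]
          | p b => simp only [Fin.insertNth_apply_succAbove, r]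
      have e3 : ∑ l ∈ s, r l = 0 := by
        funext j
        have h2 : (fun z => ∑ l ∈ s, U l z) =ᶠ[𝓝 z] fun _ => 1 := hs z hz'
        have h3 := h2.fderiv_eq (𝕜 := ℝ)
        rw [fderiv_fun_sum fun l _ => hd l, fderiv_fun_const] at h3
        simpa [r] using congrArg (fun L : (Fin (m + 1) → ℝ) →L[ℝ] ℝ => L (Pi.single j 1)) h3
      simp only [e2]
      rw [← AlternatingMap.map_update_sum, e3, AlternatingMap.map_update_zero, mul_zero]
    · rw [h0 z hz hz', zero_mul]

end Crest.Agent.N222.C.Wh
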